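import Crest.Agent.R114.AAux9

/-! Row 114, task A-ALPHA. -/

set_option autoImplicit false

namespace Crest.Agent.R114

open Filter Topology Finset

namespace AlphaAux

open Aux9

variable {𝕜 : Type} [RCLike 𝕜] {Ω : Type} [LinearOrder Ω] {c : Coding 𝕜 Ω}

theorem nrm_normalize (A : API c) {x : Ω →₀ 𝕜} (h : 0 < nrm c x) :
    nrm c ((((nrm c x)⁻¹ : ℝ) : 𝕜) • x) = 1 := by
  rw [A.nrm.smul, RCLike.norm_ofReal, abs_of_pos (inv_pos.2 h), inv_mul_cancel₀ h.ne']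

theorem not_alpha (A : API c) {z : ℕ → Ω →₀ 𝕜} {δ : ℝ} (h : ¬ Alpha c z δ) :
    ∃ N J, ∀ x ∈ Tl z N, ∀ g, Two c (WW c) J g → ‖pr g x‖ ≤ δ * nrm c x := by
  unfold Alpha at h
  push Not at h
  obtain ⟨N, J, h⟩ := h
  refine ⟨N, J, fun x hx g hg => ?_⟩
  rcases (A.nrm.nonneg x).eq_or_lt with h0 | h0
  · have := A.nrm.pr_le g x hg.W
    rw [← h0] at this ⊢
    simpa using this
  · have := h _ (Submodule.smul_mem _ (((nrm c x)⁻¹ : ℝ) : 𝕜) hx) g (nrm_normalize A h0).le hg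
    rw [map_smul, smul_eq_mul, norm_mul, RCLike.norm_ofReal, abs_of_pos (inv_pos.2 h0),
      inv_mul_le_iff₀ h0] at this
    linarith

theorem nrm_pos (A : API c) {x : Ω →₀ 𝕜} (h : x ≠ 0) : 0 < nrm c x := by
  obtain ⟨α, hα⟩ := Finsupp.support_nonempty_iff.2 h
  exact (norm_pos_iff.2 (Finsupp.mem_support_iff.1 hα)).trans_le (A.nrm.coord x α)

theorem pr_le_card (A : API c) {g y : Ω →₀ 𝕜} (hg : W c g) (hy : ∀ α, ‖y α‖ ≤ 1) :
    ‖pr g y‖ ≤ g.support.card := by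
  rw [pr_apply]
  refine (norm_sum_le _ _).trans ?_
  have : ∑ α ∈ g.support, ‖g α * y α‖ ≤ ∑ _α ∈ g.support, (1 : ℝ) :=
    Finset.sum_le_sum fun α _ => by
      rw [norm_mul]
      exact mul_le_one₀ ((norm_apply_le_l2 g α).trans (A.cost.w_l2 g hg)) (norm_nonneg _) (hy α)
  simpa using this

theorem typeA (A : API c) {y : Ω →₀ 𝕜} (hy : ∀ α, ‖y α‖ ≤ 1) {n n' J1 : ℕ} (hn : n ≤ n')
    (hn' : 0 < n') (hJ : (J1 : ℝ) ≤ nrm c y)
    (h1 : ∀ g, Two c (WW c) J1 g → ‖pr g y‖ ≤ 1 / (n' : ℝ) * nrm c y)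
    {g : ℕ → Ω →₀ 𝕜} (hg : ∀ r < n, Two c (WW c) (gr g r) (g r)) :
    ∑ r ∈ range n, ‖pr (g r) y‖ ≤ 3 * nrm c y := by
  have P0 := A.nrm.nonneg y
  rw [← Finset.sum_filter_add_sum_filter_not (range n) (fun r => J1 ≤ gr g r)]
  have e1 : ∑ r ∈ (range n).filter (fun r => J1 ≤ gr g r), ‖pr (g r) y‖ ≤ nrm c y := by
    have : ∑ r ∈ (range n).filter (fun r => J1 ≤ gr g r), ‖pr (g r) y‖ ≤
        ∑ _r ∈ (range n).filter (fun r => J1 ≤ gr g r), 1 / (n' : ℝ) * nrm c y :=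
      Finset.sum_le_sum fun r hr => h1 _
        ((hg r (Finset.mem_range.1 (Finset.mem_filter.1 hr).1)).anti (Finset.mem_filter.1 hr).2)
    refine this.trans ?_
    rw [Finset.sum_const, nsmul_eq_mul, ← mul_assoc]
    refine mul_le_of_le_one_left P0 ?_
    have hc : ((range n).filter (fun r => J1 ≤ gr g r)).card ≤ n' :=
      (Finset.card_filter_le _ _).trans (by simpa using hn)
    rw [mul_one_div, div_le_one (by exact_mod_cast hn')]
    exact_mod_cast hc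
  have e2 : ∑ r ∈ (range n).filter (fun r => ¬ J1 ≤ gr g r), ‖pr (g r) y‖ ≤ 2 * nrm c y := by
    set B := (range n).filter (fun r => ¬ J1 ≤ gr g r) with hB
    rcases B.eq_empty_or_nonempty with h0 | h0
    · rw [h0, Finset.sum_empty]; linarith
    have hr0 := Finset.mem_filter.1 (B.max'_mem h0)
    rw [← Finset.add_sum_erase B _ (B.max'_mem h0)]
    have a1 := A.nrm.pr_le _ y (hg _ (Finset.mem_range.1 hr0.1)).W
    have a2 : ∑ r ∈ B.erase (B.max' h0), ‖pr (g r) y‖ ≤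
        ∑ r ∈ B.erase (B.max' h0), ((g r).support.card : ℝ) :=
      Finset.sum_le_sum fun r hr => pr_le_card A
        (hg r (Finset.mem_range.1 (Finset.mem_filter.1 (Finset.mem_of_mem_erase hr)).1)).W hy
    have a3 : ∑ r ∈ B.erase (B.max' h0), ((g r).support.card : ℝ) ≤
        ∑ r ∈ range (B.max' h0), ((g r).support.card : ℝ) :=
      Finset.sum_le_sum_of_subset_of_nonneg (fun r hr => Finset.mem_range.2
        (lt_of_le_of_ne (B.le_max' r (Finset.mem_of_mem_erase hr)) (Finset.ne_of_mem_erase hr)))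
        fun _ _ _ => by positivity
    have a4 : ∑ r ∈ range (B.max' h0), (g r).support.card ≤ J1 := by
      have := hr0.2
      unfold gr at this
      omega
    have a5 : ∑ r ∈ range (B.max' h0), ((g r).support.card : ℝ) ≤ J1 := by exact_mod_cast a4
    linarith
  linarith

theorem typeB (A : API c) {x : ℕ → Ω →₀ 𝕜} (hx : ∀ i j, i < j → Lt (x i) (x j))
    (hx1 : ∀ i, nrm c (x i) ≤ 1) {p n n' : ℕ} {b R : ℝ} (hb0 : 0 < b) (hb1 : b ≤ 1) (hR0 : 0 ≤ R)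
    (hn : n ≤ n') (hn' : (n' : ℝ) ^ (1 - b) ≤ 2)
    (hmax : ∀ I' ⊆ range p, nrm c (∑ i ∈ I', x i) ^ 2 ≤ R * (I'.card : ℝ) ^ b)
    {I : Finset ℕ} (hI : I ⊆ range p) (hRI : nrm c (∑ i ∈ I, x i) ^ 2 = R * (I.card : ℝ) ^ b)
    (hM : (n' : ℝ) ^ 2 ≤ nrm c (∑ i ∈ I, x i))
    {g : ℕ → Ω →₀ 𝕜} {lam : ℕ → 𝕜} (h1 : Succ g n) (hg : ∀ r < n, W c (g r))
    (hl : ∑ r ∈ range n, ‖lam r‖ ^ 2 ≤ 1) :
    ∑ r ∈ range n, ‖lam r‖ * ‖pr (g r) (∑ i ∈ I, x i)‖ ≤ 3 * nrm c (∑ i ∈ I, x i) := by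
  obtain ⟨S, P, hS, hSc, hP, hPc, hsp⟩ := A.spl n g x I h1 fun i _ j _ hij => hx i j hij
  have P0 := A.nrm.nonneg (∑ i ∈ I, x i)
  have e1 : ∑ r ∈ range n, ‖lam r‖ * ‖pr (g r) (∑ i ∈ I, x i)‖ ≤
      ∑ r ∈ range n, (‖lam r‖ * nrm c (∑ i ∈ P r, x i) + n') := by
    refine Finset.sum_le_sum fun r hr => ?_
    have hr' := Finset.mem_range.1 hr
    have a1 : ‖∑ i ∈ S, pr (g r) (x i)‖ ≤ n' := by
      refine (norm_sum_le _ _).trans ?_
      have : ∑ i ∈ S, ‖pr (g r) (x i)‖ ≤ ∑ _i ∈ S, (1 : ℝ) :=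
        Finset.sum_le_sum fun i _ => (A.nrm.pr_le _ _ (hg r hr')).trans (hx1 i)
      rw [Finset.sum_const, nsmul_eq_mul, mul_one] at this
      exact this.trans (by exact_mod_cast hSc.trans hn)
    have a2 := A.nrm.pr_le _ (∑ i ∈ P r, x i) (hg r hr')
    have a3 := norm_le_one_of_sq hl r hr
    have a4 : ‖pr (g r) (∑ i ∈ I, x i)‖ ≤ nrm c (∑ i ∈ P r, x i) + n' := by
      rw [hsp r hr']
      exact (norm_add_le _ _).trans (add_le_add a2 a1)
    have a5 := mul_le_mul_of_nonneg_left a4 (norm_nonneg (lam r))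
    have a6 : ‖lam r‖ * n' ≤ n' := mul_le_of_le_one_left (by positivity) a3
    linarith
  rw [Finset.sum_add_distrib, Finset.sum_const, Finset.card_range, nsmul_eq_mul] at e1
  have e2 : (n : ℝ) * n' ≤ (n' : ℝ) ^ 2 := by
    have : (n : ℝ) ≤ n' := by exact_mod_cast hn
    nlinarith [(Nat.cast_nonneg n' : (0 : ℝ) ≤ n')]
  have e3 : ∑ r ∈ range n, nrm c (∑ i ∈ P r, x i) ^ 2 ≤ (2 * nrm c (∑ i ∈ I, x i)) ^ 2 := by
    have a1 : ∑ r ∈ range n, nrm c (∑ i ∈ P r, x i) ^ 2 ≤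
        ∑ r ∈ range n, R * ((P r).card : ℝ) ^ b :=
      Finset.sum_le_sum fun r _ => hmax _ ((hP r).trans hI)
    rw [← Finset.mul_sum] at a1
    have a2 := A.num.rpow b hb0 hb1 n I.card (fun r => (P r).card) hPc
    have a3 : (n : ℝ) ^ (1 - b) ≤ 2 :=
      (Real.rpow_le_rpow (by positivity) (by exact_mod_cast hn) (by linarith)).trans hn'
    have a4 : (n : ℝ) ^ (1 - b) * (I.card : ℝ) ^ b ≤ 2 * (I.card : ℝ) ^ b :=
      mul_le_mul_of_nonneg_right a3 (by positivity)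
    have a5 := mul_le_mul_of_nonneg_left (a2.trans a4) hR0
    nlinarith [sq_nonneg (nrm c (∑ i ∈ I, x i))]
  have e4 : ∑ r ∈ range n, ‖lam r‖ * nrm c (∑ i ∈ P r, x i) ≤ 1 * (2 * nrm c (∑ i ∈ I, x i)) := by
    refine (Real.sum_mul_le_sqrt_mul_sqrt _ _ _).trans ?_
    refine mul_le_mul (Real.sqrt_le_one.2 hl) ?_ (Real.sqrt_nonneg _) zero_le_one
    rw [Real.sqrt_le_left (by positivity)]
    exact e3
  linarith

end AlphaAux

open AlphaAux Aux9 in
theorem alpha_proof {𝕜 : Type} [RCLike 𝕜] {Ω : Type} [LinearOrder Ω] (c : Coding 𝕜 Ω) (A : API c) :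
    AlphaStmt c := by
  intro z hz
  by_contra hc
  push Not at hc
  obtain ⟨N0, J0, h0⟩ := not_alpha A (hc (1 / 8) (by norm_num))
  have hn' := nn_pos J0
  have hn'r : (0 : ℝ) < nn J0 := by exact_mod_cast hn'
  obtain ⟨N1, J1, h1⟩ := not_alpha A (hc (1 / (nn J0 : ℝ)) (by positivity))
  obtain ⟨b, hb0, hb1, hb2⟩ := A.num.g3 (nn J0)
  have hb : 0 < b := by linarith
  set M : ℝ := (nn J0 : ℝ) ^ 2 + J1 + 2 with hM
  obtain ⟨j, hj⟩ := (A.num.g1 b (M ^ 2) hb1).exists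
  set N := max N0 N1 with hN
  let x : ℕ → Ω →₀ 𝕜 := fun i => (((nrm c (z (N + i)))⁻¹ : ℝ) : 𝕜) • z (N + i)
  have hx1 : ∀ i, nrm c (x i) = 1 := fun i => nrm_normalize A (nrm_pos A (hz.2 _))
  have hx : ∀ i j, i < j → Lt (x i) (x j) := fun i j hij =>
    (hz.1 (N + i) (N + j) (by omega)).mono Finsupp.support_smul Finsupp.support_smul
  obtain ⟨I, R, hI, hq, hR0, hRI, hmax⟩ := exists_max (nn j) (nn_pos j)
    (fun I => nrm c (∑ i ∈ I, x i) ^ 2) (fun q => (q : ℝ) ^ b)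
    (fun _ => sq_nonneg _) (by simp [nrm_zero A])
    (fun q hq => by have : (0 : ℝ) < q := by exact_mod_cast hq
                    positivity) (by simp [hb.ne'])
  have hp : (0 : ℝ) < nn j := by exact_mod_cast nn_pos j
  have hRM : M ^ 2 ≤ R := by
    have a1 := A.nrm.lowB j x fun r r' h _ => hx r r' h
    have a2 := hmax (range (nn j)) subset_rfl
    simp only [hx1, one_pow, Finset.sum_const, Finset.card_range, nsmul_eq_mul, mul_one] at a1 a2
    have a3 : kap j ^ 2 * (nn j : ℝ) ^ (1 - b) * (nn j : ℝ) ^ b = kap j ^ 2 * nn j := by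
      rw [mul_assoc, ← Real.rpow_add hp]; simp
    exact hj.trans (le_of_mul_le_mul_right (by linarith) (Real.rpow_pos_of_pos hp b))
  set y := ∑ i ∈ I, x i with hy
  have P0 := A.nrm.nonneg y
  have hPM : M ≤ nrm c y := by
    have a1 : (1 : ℝ) ≤ (I.card : ℝ) ^ b := Real.one_le_rpow (by exact_mod_cast hq) hb.le
    have a2 : R ≤ nrm c y ^ 2 := by rw [hRI]; exact le_mul_of_one_le_right hR0 a1
    exact (pow_le_pow_iff_left₀ (by positivity) P0 two_ne_zero).1 (hRM.trans a2)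
  have hJ1 : (0 : ℝ) ≤ J1 := by positivity
  have hyT : y ∈ Tl z N := Submodule.sum_mem _ fun i _ => Submodule.smul_mem _ _
    (Submodule.subset_span ⟨N + i, Set.mem_Ici.2 (Nat.le_add_right _ _), rfl⟩)
  have hy1 : ∀ α, ‖y α‖ ≤ 1 := fun α => coord_sum_le (fun i _ j _ hij => hx i j hij) zero_le_one α
    fun i _ => (A.nrm.coord _ _).trans (hx1 i).le
  have claim : ∀ w < J0, ∀ f, (w, f) ∈ WW c → ‖pr f y‖ ≤ kap w * (3 * nrm c y) := by
    intro w hw f hf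
    rw [← Step_WW] at hf
    obtain ⟨g, lam, g1, g2, g3⟩ := hf
    simp only at g1 g2 g3
    rw [g2]
    refine (norm_pr_op _ (kap_pos w).le _ _ _ _).trans
      (mul_le_mul_of_nonneg_left ?_ (kap_pos w).le)
    rcases g3 with g3 | g3
    · exact typeB A hx (fun i => (hx1 i).le) hb hb1.le hR0 (nn_mono hw.le) hb2 hmax hI hRI
        (by linarith) g1 (fun r hr => (g3.1 r hr).2) g3.2
    · rw [Finset.sum_congr rfl (g := fun r => ‖pr (g r) y‖) fun r hr => by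
        rw [(g3 r (Finset.mem_range.1 hr)).1, norm_one, one_mul]]
      exact typeA A hy1 (nn_mono hw.le) hn' (by nlinarith)
        (h1 y (Tl_anti z (le_max_right _ _) hyT)) fun r hr => (g3 r hr).2
  have key : nrm c y ≤ nrm c y / 2 := by
    refine A.nrm.le_of _ _ fun g hg => ?_
    rcases hg with hg | hg
    · have := base_le hg hy1
      nlinarith
    · obtain ⟨h, hh, hd⟩ := A.row.decomp g hg J0
      have a1 := hd y (3 * nrm c y) (by positivity) claim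
      have a2 := h0 y (Tl_anti z (le_max_left _ _) hyT) h hh
      have a3 := norm_sub_norm_le (pr g y) (pr h y)
      linarith
  nlinarith

end Crest.Agent.R114
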