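import Crest.Agent.R114.Tasks

/-! Row 114, part A: small lemmas shared by UP and ALPHA. -/

set_option autoImplicit false

namespace Crest.Agent.R114

open Filter Topology Finset

namespace Aux9

variable {𝕜 : Type} [RCLike 𝕜] {Ω : Type} [LinearOrder Ω] {c : Coding 𝕜 Ω}

theorem coord_sum_le {x : ℕ → Ω →₀ 𝕜} {I : Finset ℕ}
    (h : ∀ i ∈ I, ∀ j ∈ I, i < j → Lt (x i) (x j)) {C : ℝ} (hC : 0 ≤ C) (α : Ω)
    (hx : ∀ i ∈ I, ‖x i α‖ ≤ C) : ‖(∑ i ∈ I, x i) α‖ ≤ C := by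
  rw [Finsupp.finsetSum_apply]
  by_cases h0 : ∃ i ∈ I, x i α ≠ 0
  · obtain ⟨i, hi, hne⟩ := h0
    rw [Finset.sum_eq_single i _ (fun h => absurd hi h)]
    · exact hx i hi
    · intro j hj hji
      by_contra hj0
      have a1 := Finsupp.mem_support_iff.2 hne
      have a2 := Finsupp.mem_support_iff.2 hj0
      rcases lt_or_gt_of_ne hji with h1 | h1
      · exact lt_irrefl _ (h j hj i hi h1 α a2 α a1)
      · exact lt_irrefl _ (h i hi j hj h1 α a1 α a2)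
  · push Not at h0
    rw [Finset.sum_eq_zero h0, norm_zero]
    exact hC

theorem nrm_zero (A : API c) : nrm c 0 = 0 := by
  simpa using A.nrm.smul 0 0

theorem base_le {g y : Ω →₀ 𝕜} (hg : Base c g) {C : ℝ} (h : ∀ α, ‖y α‖ ≤ C) : ‖pr g y‖ ≤ C := by
  obtain ⟨α, lam, -, h1, rfl⟩ := hg
  rw [pr_single, norm_mul]
  exact (mul_le_of_le_one_left (norm_nonneg _) h1).trans (h α)

/-- a maximiser of `F I / ω #I`. -/
theorem exists_max (p : ℕ) (hp : 0 < p) (F : Finset ℕ → ℝ) (ω : ℕ → ℝ) (hF : ∀ I, 0 ≤ F I)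
    (hF0 : F ∅ = 0) (hω : ∀ q, 1 ≤ q → 0 < ω q) (hω0 : ω 0 = 0) :
    ∃ (I : Finset ℕ) (R : ℝ), I ⊆ range p ∧ 1 ≤ I.card ∧ 0 ≤ R ∧ F I = R * ω I.card ∧
      ∀ I' ⊆ range p, F I' ≤ R * ω I'.card := by
  classical
  obtain ⟨I, hI, hmax⟩ := Finset.exists_max_image ((range p).powerset.filter Finset.Nonempty)
    (fun I => F I / ω I.card) ⟨range p, by simp [hp.ne']⟩
  obtain ⟨h1, h2⟩ := Finset.mem_filter.1 hI
  have h3 := hω _ h2.card_pos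
  refine ⟨I, F I / ω I.card, Finset.mem_powerset.1 h1, h2.card_pos, div_nonneg (hF I) h3.le,
    (div_mul_cancel₀ _ h3.ne').symm, fun I' hI' => ?_⟩
  rcases I'.eq_empty_or_nonempty with rfl | hne
  · simp [hF0, hω0]
  · have := hmax I' (Finset.mem_filter.2 ⟨Finset.mem_powerset.2 hI', hne⟩)
    rwa [div_le_iff₀ (hω _ hne.card_pos)] at this

theorem norm_le_one_of_sq {s : Finset ℕ} {lam : ℕ → 𝕜} (h : ∑ r ∈ s, ‖lam r‖ ^ 2 ≤ 1) :
    ∀ r ∈ s, ‖lam r‖ ≤ 1 := fun _ hr =>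
  (sq_le_one_iff₀ (norm_nonneg _)).1 ((Finset.single_le_sum (f := fun r => ‖lam r‖ ^ 2)
    (fun _ _ => by positivity) hr).trans h)

omit [LinearOrder Ω] in
theorem norm_pr_op (κ : ℝ) (hκ : 0 ≤ κ) (n : ℕ) (lam : ℕ → 𝕜) (g : ℕ → Ω →₀ 𝕜) (y : Ω →₀ 𝕜) :
    ‖pr ((κ : 𝕜) • ∑ r ∈ range n, lam r • g r) y‖ ≤ κ * ∑ r ∈ range n, ‖lam r‖ * ‖pr (g r) y‖ := by
  simp only [map_smul, map_sum, LinearMap.smul_apply, LinearMap.sum_apply, smul_eq_mul, norm_mul,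
    RCLike.norm_ofReal, abs_of_nonneg hκ]
  refine mul_le_mul_of_nonneg_left ((norm_sum_le _ _).trans (le_of_eq ?_)) hκ
  exact Finset.sum_congr rfl fun r _ => norm_mul _ _

end Aux9

end Crest.Agent.R114
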