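import Crest.Agent.R114.Tasks

set_option autoImplicit false

namespace Crest.Agent.R114

open Filter Topology Finset

variable {𝕜 : Type} [RCLike 𝕜] {Ω : Type} [LinearOrder Ω]

lemma exists_R0 : ∃ R : Subfield 𝕜, Dense (R : Set 𝕜) ∧ (R : Set 𝕜).Countable := by
  obtain ⟨s, hs, hd⟩ := TopologicalSpace.exists_countable_dense 𝕜
  refine ⟨Subfield.closure s, hd.mono Subfield.subset_closure, ?_⟩
  rw [← Cardinal.le_aleph0_iff_set_countable] at hs ⊢
  exact (Subfield.cardinalMk_closure_le_max s).trans (max_le hs le_rfl)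

theorem code_proof : CodeStmt 𝕜 Ω := by
  classical
  intro hO
  obtain ⟨R, hd, hc⟩ := exists_R0 (𝕜 := 𝕜)
  obtain ⟨ix, hix⟩ := Set.countable_iff_exists_injOn.1 hc
  choose e he using fun β => Set.countable_iff_exists_injOn.1 (hO.cnt β)
  obtain ⟨r, hr⟩ : ∃ r : Ω → ℕ → Bool, Function.Injective r := by
    have : Cardinal.mk Ω ≤ Cardinal.mk (ℕ → Bool) := by simp [hO.card]
    obtain ⟨r⟩ := (Cardinal.le_def _ _).1 this
    exact ⟨r, r.injective⟩
  let U : ℕ → (ℕ → ℕ × (Ω →₀ 𝕜)) → Finset Ω := fun l τ => (range l).biUnion fun b => (τ b).2.support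
  let size : ℕ → (ℕ → ℕ × (Ω →₀ 𝕜)) → ℕ := fun l τ =>
    1 + ∑ b ∈ range l, (τ b).1 + ∑ β ∈ U l τ, ∑ α ∈ U l τ, e β α +
      ∑ b ∈ range l, ∑ α ∈ (τ b).2.support, ix ((τ b).2 α)
  let pre : ℕ → Ω → List Bool := fun l α => (List.range l).map (r α)
  let tr : ℕ → (Ω →₀ 𝕜) → Finset (List Bool × ℕ) := fun l f =>
    f.support.image fun α => (pre l α, ix (f α))
  let inv : ℕ → (ℕ → ℕ × (Ω →₀ 𝕜)) → List (ℕ × Finset (List Bool × ℕ)) := fun l τ =>
    (List.range l).map fun b => ((τ b).1, tr l (τ b).2)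
  obtain ⟨enc, henc⟩ := exists_injective_nat (List (ℕ × Finset (List Bool × ℕ)))
  have hinv : ∀ l τ l' τ', Nat.pair (size l τ) (enc (inv l τ)) =
      Nat.pair (size l' τ') (enc (inv l' τ')) →
      l = l' ∧ ∀ b < l, (τ b).1 = (τ' b).1 ∧ tr l (τ b).2 = tr l (τ' b).2 := by
    intro l τ l' τ' h
    have h1 := henc (Nat.pair_eq_pair.1 h).2
    have h2 : l = l' := by simpa [inv] using congrArg List.length h1
    subst h2
    refine ⟨rfl, fun b hb => ?_⟩
    have := List.map_inj_left.1 h1 b (List.mem_range.2 hb)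
    exact Prod.mk.inj this
  refine ⟨{
    R0 := R
    dense := hd
    code := fun l τ => Nat.pair (size l τ) (enc (inv l τ))
    congr := fun l τ τ' h => ?_
    gt := fun l τ b hb => ?_
    c2 := fun l τ l' τ' h => ⟨(hinv _ _ _ _ h).1, fun b hb => ((hinv _ _ _ _ h).2 b hb).1⟩
    c3 := fun a b v β hb => ?_
    c4 := fun b f f' hf hf' h => ?_ }⟩
  · have e1 : U l τ = U l τ' := biUnion_congr rfl fun b hb => by rw [h b (mem_range.1 hb)]
    have e2 : size l τ = size l τ' := by
      simp only [size, e1]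
      congr 1
      · congr 2
        exact sum_congr rfl fun b hb => by rw [h b (mem_range.1 hb)]
      · exact sum_congr rfl fun b hb => by rw [h b (mem_range.1 hb)]
    have e3 : inv l τ = inv l τ' :=
      List.map_congr_left fun b hb => by rw [h b (List.mem_range.1 hb)]
    rw [e2, e3]
  · refine lt_of_lt_of_le ?_ (Nat.left_le_pair _ _)
    have := single_le_sum (f := fun b => (τ b).1) (fun _ _ => Nat.zero_le _) (mem_range.2 hb)
    simp only [size]; omega
  · have hA : Set.Finite {α | α < β ∧ e β α ≤ v} :=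
      Set.Finite.of_finite_image (f := e β) ((Set.finite_Iic v).subset (by
        rintro _ ⟨α, h, rfl⟩; exact h.2)) ((he β).mono fun α h => h.1)
    have hB : Set.Finite {x | x ∈ R ∧ ix x ≤ v} :=
      Set.Finite.of_finite_image (f := ix) ((Set.finite_Iic v).subset (by
        rintro _ ⟨α, h, rfl⟩; exact h.2)) (hix.mono fun α h => h.1)
    have hfin : Set.Finite {f : Ω →₀ 𝕜 | (∀ α ∈ f.support, α ∈ hA.toFinset) ∧
        ∀ α, f α ∈ insert 0 {x | x ∈ R ∧ ix x ≤ v}} := by
      refine Set.Finite.of_finite_image (f := fun f (α : hA.toFinset) => f α)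
        ((Set.Finite.pi' fun _ => hB.insert 0).subset ?_) ?_
      · rintro _ ⟨f, hf, rfl⟩ α; exact hf.2 α
      · intro f hf g hg hfg
        ext α
        by_cases hα : α ∈ hA.toFinset
        · exact congrFun hfg ⟨α, hα⟩
        · rw [Finsupp.notMem_support_iff.1 fun h => hα (hf.1 α h),
            Finsupp.notMem_support_iff.1 fun h => hα (hg.1 α h)]
    refine hfin.subset ?_
    rintro _ ⟨τ, h1, h2, h3, h4, rfl⟩
    have hs : size (a + 1) τ ≤ v := h3 ▸ Nat.left_le_pair _ _
    refine ⟨fun α hα => hA.mem_toFinset.2 ⟨h2 α hα β h4, ?_⟩, fun α => ?_⟩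
    · have m1 : β ∈ U (a + 1) τ := mem_biUnion.2 ⟨a, mem_range.2 (by omega), h4⟩
      have m2 : α ∈ U (a + 1) τ := mem_biUnion.2 ⟨b, mem_range.2 (by omega), hα⟩
      have k1 := single_le_sum (f := fun β => ∑ α ∈ U (a + 1) τ, e β α)
        (fun _ _ => Nat.zero_le _) m1
      have k2 := single_le_sum (f := fun α => e β α) (fun _ _ => Nat.zero_le _) m2
      simp only [size] at hs k1 k2; omega
    · by_cases hα : α ∈ (τ b).2.support
      · refine Or.inr ⟨h1 α, ?_⟩
        have k1 := single_le_sum (f := fun b => ∑ α ∈ (τ b).2.support, ix ((τ b).2 α))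
          (fun _ _ => Nat.zero_le _) (mem_range.2 (show b < a + 1 by omega))
        have k2 := single_le_sum (f := fun α => ix ((τ b).2 α)) (fun _ _ => Nat.zero_le _) hα
        simp only [size] at hs k1 k2; omega
      · exact Or.inl (Finsupp.notMem_support_iff.1 hα)
  · have sep : ∀ᶠ l in atTop, ∀ α ∈ f.support ∪ f'.support, ∀ α' ∈ f.support ∪ f'.support,
        pre l α = pre l α' → α = α' := by
      refine (eventually_all_finset _).2 fun α _ => (eventually_all_finset _).2 fun α' _ => ?_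
      by_cases hα : α = α'
      · exact Eventually.of_forall fun _ _ => hα
      obtain ⟨i, hi⟩ := Function.ne_iff.1 (hr.ne hα)
      filter_upwards [eventually_gt_atTop i] with l hl h
      exact absurd (List.map_inj_left.1 h i (List.mem_range.2 hl)) hi
    obtain ⟨N, hN⟩ := eventually_atTop.1 (sep.and (eventually_gt_atTop b))
    obtain ⟨l, τ, τ', hl, hcode, rfl, rfl⟩ := h N
    have ht := ((hinv _ _ _ _ hcode).2 b (hN l hl).2).2
    have half : ∀ g g' : Ω →₀ 𝕜, (∀ α, g α ∈ R) → (∀ α, g' α ∈ R) → tr l g = tr l g' →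
        (∀ α ∈ g.support, ∀ α' ∈ g'.support, pre l α = pre l α' → α = α') →
        ∀ α ∈ g.support, g α = g' α := by
      intro g g' hg hg' ht hs α hα
      have : (pre l α, ix (g α)) ∈ tr l g' := ht ▸ mem_image_of_mem _ hα
      obtain ⟨α', h1, h2⟩ := mem_image.1 this
      obtain ⟨h3, h4⟩ := Prod.mk.inj h2
      obtain rfl := hs α hα α' h1 h3.symm
      exact hix (hg _) (hg' _) h4.symm
    have a1 := half _ _ hf hf' ht fun α h1 α' h2 =>
      (hN l hl).1 α (mem_union_left _ h1) α' (mem_union_right _ h2)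
    have a2 := half _ _ hf' hf ht.symm fun α h1 α' h2 =>
      (hN l hl).1 α (mem_union_right _ h1) α' (mem_union_left _ h2)
    ext α
    by_cases h1 : α ∈ (τ b).2.support
    · exact a1 α h1
    by_cases h2 : α ∈ (τ' b).2.support
    · exact (a2 α h2).symm
    · rw [Finsupp.notMem_support_iff.1 h1, Finsupp.notMem_support_iff.1 h2]

end Crest.Agent.R114
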