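import Crest.Agent.R114.Tasks

set_option autoImplicit false

namespace Crest.Agent.R114

open Filter Topology Finset

variable {𝕜 : Type} [RCLike 𝕜] {Ω : Type} [LinearOrder Ω]

/-- the row of the indices in `Ico a b`. -/
def icoRow (τ : ℕ → ℕ × (Ω →₀ 𝕜)) (a b : ℕ) : Row 𝕜 Ω := ⟨τ, b, (τ a).1, (τ b).1, Set.univ⟩

lemma icoRow_idx {c : Coding 𝕜 Ω} {τ : ℕ → ℕ × (Ω →₀ 𝕜)} (h : ∀ L, Sp c (WW c) τ L) (a b : ℕ) :
    (icoRow τ a b).idx = Ico a b := by
  have hm : StrictMono fun l => (τ l).1 := fun l l' hl => (h (l' + 1)).lt hl (Nat.lt_succ_self _)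
  ext l
  simp only [Row.mem_idx, icoRow, mem_Ico]
  rw [hm.le_iff_le, hm.lt_iff_lt]; tauto

lemma icoRow_pr {c : Coding 𝕜 Ω} {τ : ℕ → ℕ × (Ω →₀ 𝕜)} (h : ∀ L, Sp c (WW c) τ L) (a b : ℕ)
    (z : Ω →₀ 𝕜) : pr (icoRow τ a b).seg z = ∑ l ∈ Ico a b, pr (τ l).2 z := by
  rw [Row.pr_seg, icoRow_idx h]; simp [icoRow]

lemma icoRow_ok {c : Coding 𝕜 Ω} {τ : ℕ → ℕ × (Ω →₀ 𝕜)} (h : ∀ L, Sp c (WW c) τ L) (a b : ℕ) :
    (icoRow τ a b).OK c (WW c) := ⟨h b, Set.ordConnected_univ⟩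

theorem core_proof (c : Coding 𝕜 Ω) : CoreStmt c := by
  intro A hM
  refine ⟨{
    p := Seminorm.of (nrm c) A.nrm.add_le A.nrm.smul
    coord := A.nrm.coord
    restr_le := A.nrm.restr_le
    normer := fun z t ht => ?_
    lower := fun M => ?_
    S := {σ | ∃ τ, (∀ L, Sp c (WW c) τ L) ∧ σ = fun l => (τ l).2}
    small := ?_
    seg := ?_
    fin := ?_
    tails := ?_
    main := ?_ }⟩
  · obtain ⟨g, h1, h2, h3⟩ := A.nrm.normer z t ht
    exact ⟨g, fun y => A.nrm.pr_le g y h1, A.cost.w_l2 g h1, h2,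
      h3.trans_le (RCLike.re_le_norm _)⟩
  · obtain ⟨j, hj⟩ := (A.num.g1 0 (M ^ 2) one_pos).exists
    refine ⟨nn j, fun b h1 h2 => ?_⟩
    have h3 := A.nrm.lowB j b h1
    have h4 : (nn j : ℝ) ≤ ∑ i ∈ range (nn j), nrm c (b i) ^ 2 := by
      simpa using sum_le_sum (s := range (nn j)) (f := fun _ => (1 : ℝ))
        fun i hi => one_le_pow₀ (a := nrm c (b i)) (n := 2) (h2 i (mem_range.1 hi))
    rw [sub_zero, Real.rpow_one] at hj
    exact abs_le_of_sq_le_sq' (hj.trans ((mul_le_mul_of_nonneg_left h4 (sq_nonneg _)).trans h3))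
      (A.nrm.nonneg _) |>.2
  · rintro _ ⟨τ, h, rfl⟩ l
    exact (A.cost.ww_l2 _ _ ((h (l + 1)).1 l (Nat.lt_succ_self l))).trans
      (kap_anti ((h (l + 1)).le_wt (Nat.lt_succ_self l)))
  · rintro _ ⟨τ, h, rfl⟩ a b z
    rw [← icoRow_pr h]
    exact A.nrm.pr_le _ _ (icoRow_ok h a b).two.W
  · rintro _ ⟨τ, h, rfl⟩ z
    have : ∀ᶠ l in atTop, ∀ α ∈ z.support, α ∉ (τ l).2.support := by
      refine (eventually_all_finset _).2 fun α _ => ?_
      by_cases hα : ∃ l, α ∈ (τ l).2.support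
      · obtain ⟨l, hl⟩ := hα
        filter_upwards [eventually_gt_atTop l] with l' hl' h2
        exact lt_irrefl _ ((h (l' + 1)).2.1 l l' hl' (Nat.lt_succ_self _) α hl α h2)
      · exact Eventually.of_forall fun l hl => hα ⟨l, hl⟩
    filter_upwards [this] with l hl using pr_eq_zero fun α h1 h2 => hl α h2 h1
  · intro s T hinj hT
    choose! τ hτ hτ' using hT
    have key : ∀ᶠ N in atTop, ∀ γ ∈ s, ∀ γ' ∈ s, γ ≠ γ' → ∀ l, N ≤ l →
        c.code l (τ γ) ≠ c.code l (τ γ') := by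
      refine (eventually_all_finset _).2 fun γ hγ => (eventually_all_finset _).2 fun γ' hγ' => ?_
      by_cases hne : γ = γ'
      · exact Eventually.of_forall fun _ h => absurd hne h
      by_contra hcon
      refine hne (hinj hγ hγ' (funext fun b => ?_))
      rw [hτ' γ hγ, hτ' γ' hγ']
      refine c.c4 b _ _ (A.cost.ww_val _ _ ((hτ γ hγ (b + 1)).1 b (Nat.lt_succ_self b)))
        (A.cost.ww_val _ _ ((hτ γ' hγ' (b + 1)).1 b (Nat.lt_succ_self b))) fun N => ?_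
      by_contra hno
      refine hcon ((eventually_ge_atTop N).mono fun N' hN' _ l hl e => hno ?_)
      exact ⟨l, τ γ, τ γ', hN'.trans hl, e, rfl, rfl⟩
    obtain ⟨N, hN, hN1⟩ := (key.and (eventually_ge_atTop 1)).exists
    refine ⟨N, fun L hL L' a z => ?_⟩
    have h2 := A.row.l2row Ω s (fun γ => icoRow (τ γ) L L') z (fun γ hγ => icoRow_ok (hτ γ hγ) _ _)
      fun γ hγ γ' hγ' hne => by
        refine disjoint_left.2 fun w h1 h2 => ?_
        obtain ⟨l, hl, e⟩ := mem_image.1 h1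
        obtain ⟨l', hl', e'⟩ := mem_image.1 h2
        rw [icoRow_idx (hτ γ hγ), mem_Ico] at hl
        rw [icoRow_idx (hτ γ' hγ'), mem_Ico] at hl'
        have e2 : c.code l (τ γ) = c.code l' (τ γ') := by
          rw [← (hτ γ hγ L').2.2 l (by omega) hl.2, ← (hτ γ' hγ' L').2.2 l' (by omega) hl'.2]
          exact e.trans e'.symm
        obtain ⟨rfl, -⟩ := c.c2 _ _ _ _ e2
        exact hN γ hγ γ' hγ' hne l (hL.trans hl.1) e2
    refine (norm_sum_le _ _).trans ?_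
    simp only [norm_mul]
    refine (Real.sum_mul_le_sqrt_mul_sqrt _ _ _).trans ?_
    refine mul_le_mul_of_nonneg_left (Real.sqrt_le_iff.2 ⟨A.nrm.nonneg z, ?_⟩) (Real.sqrt_nonneg _)
    refine le_trans (le_of_eq (sum_congr rfl fun γ hγ => ?_)) h2
    rw [icoRow_pr (hτ γ hγ), hτ' γ hγ]
  · intro z hz
    obtain ⟨u, C, τ, h1, h2⟩ := hM z hz
    exact ⟨u, C, _, ⟨τ, h1, rfl⟩, h2⟩

end Crest.Agent.R114
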