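import Crest.Agent.R114.Tasks

/-! Row 114, part A: the task COST. -/

set_option autoImplicit false

namespace Crest.Agent.R114

open Filter Topology Finset

noncomputable section

variable {𝕜 : Type} [RCLike 𝕜] {Ω : Type} [LinearOrder Ω]

omit [LinearOrder Ω] in
lemma co_l2_eq (f : Ω →₀ 𝕜) (s : Finset Ω) (hs : f.support ⊆ s) :
    l2 f = √(∑ α ∈ s, ‖f α‖ ^ 2) := by
  unfold l2
  congr 1
  exact Finset.sum_subset hs fun α _ h => by simp [Finsupp.notMem_support_iff.1 h]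

omit [LinearOrder Ω] in
lemma co_l2_sq (f : Ω →₀ 𝕜) (s : Finset Ω) (hs : f.support ⊆ s) :
    l2 f ^ 2 = ∑ α ∈ s, ‖f α‖ ^ 2 := by
  rw [co_l2_eq f s hs, Real.sq_sqrt (Finset.sum_nonneg fun _ _ => by positivity)]

lemma co_l2_add (f g : Ω →₀ 𝕜) : l2 (f + g) ≤ l2 f + l2 g := by
  have key : ∀ (h : Ω →₀ 𝕜), h.support ⊆ f.support ∪ g.support →
      l2 h = ‖(WithLp.toLp 2 fun a : ↥(f.support ∪ g.support) => h a :
        EuclideanSpace 𝕜 ↥(f.support ∪ g.support))‖ := by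
    intro h hh
    rw [co_l2_eq h _ hh, EuclideanSpace.norm_eq]
    congr 1
    exact (Finset.sum_coe_sort (f.support ∪ g.support) fun α => ‖h α‖ ^ 2).symm
  rw [key _ Finsupp.support_add, key f Finset.subset_union_left, key g Finset.subset_union_right]
  exact norm_add_le (WithLp.toLp 2 fun a : ↥(f.support ∪ g.support) => f a :
    EuclideanSpace 𝕜 ↥(f.support ∪ g.support)) (WithLp.toLp 2 fun a => g a)

omit [LinearOrder Ω] in
lemma co_l2_smul (a : 𝕜) (f : Ω →₀ 𝕜) : l2 (a • f) = ‖a‖ * l2 f := by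
  rw [co_l2_eq _ f.support Finsupp.support_smul, l2]
  simp only [Finsupp.smul_apply, smul_eq_mul, norm_mul, mul_pow, ← Finset.mul_sum]
  rw [Real.sqrt_mul (sq_nonneg _), Real.sqrt_sq (norm_nonneg _)]

lemma co_l2_sum {ι : Type} (s : Finset ι) (f : ι → Ω →₀ 𝕜) :
    l2 (∑ i ∈ s, f i) ≤ ∑ i ∈ s, l2 (f i) := by
  classical
  induction s using Finset.induction_on with
  | empty => simp [l2]
  | insert i s hi ih =>
    rw [Finset.sum_insert hi, Finset.sum_insert hi]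
    exact (co_l2_add _ _).trans (by linarith)

omit [LinearOrder Ω] in
lemma co_l2_restr (E : Set Ω) (f : Ω →₀ 𝕜) : l2 (restr E f) ≤ l2 f := by
  rw [co_l2_eq _ f.support (support_restr_subset E f), l2]
  refine Real.sqrt_le_sqrt (Finset.sum_le_sum fun α _ => ?_)
  by_cases h : α ∈ E <;> simp [restr_of_mem, restr_of_notMem, h]

omit [LinearOrder Ω] in
lemma co_l2_single (α : Ω) (a : 𝕜) : l2 (Finsupp.single α a) = ‖a‖ := by
  rw [co_l2_eq _ {α} Finsupp.support_single_subset]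
  simp

lemma co_l2_succ {g : ℕ → Ω →₀ 𝕜} {n : ℕ} (hg : Succ g n) (lam : ℕ → 𝕜) :
    l2 (∑ r ∈ range n, lam r • g r) ^ 2 = ∑ r ∈ range n, ‖lam r‖ ^ 2 * l2 (g r) ^ 2 := by
  have hS : ∀ r ∈ range n, (g r).support ⊆ (range n).biUnion fun r => (g r).support :=
    fun r hr => Finset.subset_biUnion_of_mem (fun r => (g r).support) hr
  have e : ∑ r ∈ range n, ‖lam r‖ ^ 2 * l2 (g r) ^ 2 = ∑ r ∈ range n,
      ∑ α ∈ (range n).biUnion fun r => (g r).support, ‖lam r‖ ^ 2 * ‖g r α‖ ^ 2 :=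
    Finset.sum_congr rfl fun r hr => by rw [co_l2_sq (g r) _ (hS r hr), Finset.mul_sum]
  rw [co_l2_sq _ ((range n).biUnion fun r => (g r).support)
    (Finsupp.support_finsetSum.trans (Finset.biUnion_mono fun r _ => Finsupp.support_smul)),
    e, Finset.sum_comm]
  refine Finset.sum_congr rfl fun α hα => ?_
  obtain ⟨r, hr, hαr⟩ := Finset.mem_biUnion.1 hα
  have h0 : ∀ r' ∈ range n, r' ≠ r → g r' α = 0 := by
    intro r' hr' hne
    by_contra h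
    have h' := Finsupp.mem_support_iff.2 h
    rcases lt_or_gt_of_ne hne with hlt | hlt
    · exact lt_irrefl _ (hg r' r hlt (Finset.mem_range.1 hr) α h' α hαr)
    · exact lt_irrefl _ (hg r r' hlt (Finset.mem_range.1 hr') α hαr α h')
  rw [Finsupp.finsetSum_apply, Finset.sum_eq_single_of_mem r hr fun r' h1 h2 => by simp [h0 r' h1 h2],
    Finset.sum_eq_single_of_mem r hr fun r' h1 h2 => by simp [h0 r' h1 h2]]
  simp [mul_pow]

variable {c : Coding 𝕜 Ω}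

/-- the double sum over weight-disjoint rows is a sum over weights. -/
lemma co_sum_wts {A : Set (ℕ × (Ω →₀ 𝕜))} (s : Finset ℕ) (ρ : ℕ → Row 𝕜 Ω)
    (h1 : ∀ r ∈ s, (ρ r).OK c A)
    (h2 : ∀ r ∈ s, ∀ r' ∈ s, r ≠ r' → Disjoint (ρ r).wts (ρ r').wts) (a : ℕ → ℝ) :
    ∑ r ∈ s, ∑ l ∈ (ρ r).idx, a ((ρ r).τ l).1 = ∑ w ∈ s.biUnion fun r => (ρ r).wts, a w := by
  rw [Finset.sum_biUnion fun r hr r' hr' hne => h2 r hr r' hr' hne]
  refine Finset.sum_congr rfl fun r hr => ?_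
  rw [Row.wts, Finset.sum_image fun l hl l' hl' e =>
    (h1 r hr).1.injOn (Row.mem_idx.1 hl).1 (Row.mem_idx.1 hl').1 e]

lemma co_norm_le_one {s : Finset ℕ} {lam : ℕ → 𝕜} (h : ∑ r ∈ s, ‖lam r‖ ^ 2 ≤ 1) {r : ℕ}
    (hr : r ∈ s) : ‖lam r‖ ≤ 1 :=
  (sq_le_one_iff₀ (norm_nonneg _)).1
    ((Finset.single_le_sum (f := fun r => ‖lam r‖ ^ 2) (fun _ _ => by positivity) hr).trans h)

lemma co_two_l2 {A : Set (ℕ × (Ω →₀ 𝕜))} (hA : ∀ q ∈ A, l2 q.2 ≤ kap q.1) {J : ℕ} {h : Ω →₀ 𝕜}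
    (hh : Two c A J h) : l2 h ≤ 2 * kap J := by
  obtain ⟨s, ρ, lam, h1, h2, h3, rfl⟩ := hh
  have hsub : (s.biUnion fun r => (ρ r).wts) ⊆ Ico J ((s.sup fun r => (ρ r).hi)) := by
    intro w hw
    obtain ⟨r, hr, hw⟩ := Finset.mem_biUnion.1 hw
    obtain ⟨l, hl, rfl⟩ := Finset.mem_image.1 hw
    exact Finset.mem_Ico.2 ⟨(h1 r hr).2.1.trans (Row.mem_idx.1 hl).2.1,
      (Row.mem_idx.1 hl).2.2.trans_le (Finset.le_sup (f := fun r => (ρ r).hi) hr)⟩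
  refine (co_l2_sum _ _).trans (le_trans ?_ ((Finset.sum_le_sum_of_subset_of_nonneg hsub
    fun w _ _ => (kap_pos w).le).trans (sum_kap_Ico J _)))
  rw [← co_sum_wts s ρ (fun r hr => (h1 r hr).1) h3 kap]
  refine Finset.sum_le_sum fun r hr => ?_
  rw [co_l2_smul]
  refine (mul_le_of_le_one_left (l2_nonneg _) (co_norm_le_one h2 hr)).trans ?_
  refine (co_l2_restr _ _).trans ((co_l2_sum _ _).trans (Finset.sum_le_sum fun l hl => ?_))
  exact hA _ ((h1 r hr).1.1.1 l (Row.mem_idx.1 hl).1)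

lemma co_wof_l2 {A : Set (ℕ × (Ω →₀ 𝕜))} (hA : ∀ q ∈ A, l2 q.2 ≤ kap q.1) {g : Ω →₀ 𝕜}
    (hg : Wof c A g) : l2 g ≤ 1 := by
  rcases hg with ⟨α, lam, -, h2, rfl⟩ | hg
  · rwa [co_l2_single]
  · have := co_two_l2 hA hg
    rw [kap_zero] at this
    linarith

lemma co_two_val {A : Set (ℕ × (Ω →₀ 𝕜))} (hA : ∀ q ∈ A, ∀ α, q.2 α ∈ c.R0) {J : ℕ} {h : Ω →₀ 𝕜}
    (hh : Two c A J h) (α : Ω) : h α ∈ c.R0 := by
  obtain ⟨s, ρ, lam, h1, -, -, rfl⟩ := hh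
  rw [Finsupp.finsetSum_apply]
  refine sum_mem fun r hr => ?_
  rw [Finsupp.smul_apply, smul_eq_mul]
  refine mul_mem (h1 r hr).2.2 ?_
  by_cases hα : α ∈ (ρ r).E
  · rw [Row.seg, restr_of_mem _ hα, Finsupp.finsetSum_apply]
    exact sum_mem fun l hl => hA _ ((h1 r hr).1.1.1 l (Row.mem_idx.1 hl).1) α
  · rw [Row.seg, restr_of_notMem _ hα]
    exact zero_mem _

lemma co_wof_val {A : Set (ℕ × (Ω →₀ 𝕜))} (hA : ∀ q ∈ A, ∀ α, q.2 α ∈ c.R0) {g : Ω →₀ 𝕜}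
    (hg : Wof c A g) (α : Ω) : g α ∈ c.R0 := by
  rcases hg with ⟨β, lam, h1, -, rfl⟩ | hg
  · rw [Finsupp.single_apply]
    split_ifs
    · exact h1
    · exact zero_mem _
  · exact co_two_val hA hg α

lemma co_ww_l2 : WW c ⊆ {q | l2 q.2 ≤ kap q.1} := by
  refine WW_ind ?_
  rintro q ⟨g, lam, h1, h2, h3⟩
  have hA : ∀ q ∈ {q : ℕ × (Ω →₀ 𝕜) | l2 q.2 ≤ kap q.1}, l2 q.2 ≤ kap q.1 := fun _ h => h
  change l2 q.2 ≤ kap q.1
  rw [h2, co_l2_smul, RCLike.norm_ofReal, abs_of_pos (kap_pos _)]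
  refine mul_le_of_le_one_right (kap_pos _).le ((sq_le_one_iff₀ (l2_nonneg _)).1 ?_)
  rw [co_l2_succ h1]
  rcases h3 with ⟨h3, h4⟩ | h3
  · refine le_trans (Finset.sum_le_sum fun r hr => ?_) h4
    exact mul_le_of_le_one_right (sq_nonneg _)
      ((sq_le_one_iff₀ (l2_nonneg _)).2 (co_wof_l2 hA (h3 r (Finset.mem_range.1 hr)).2))
  · refine le_trans (Finset.sum_le_sum fun r hr => ?_)
      ((sum_kap_range (nn q.1)).trans (by norm_num))
    obtain ⟨e, ht⟩ := h3 r (Finset.mem_range.1 hr)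
    have h5 := co_two_l2 hA ht
    have h6 : kap (gr g r) ≤ kap r := kap_anti (Nat.le_add_right _ _)
    have h7 := kap_le r
    have h8 := kap_pos r
    have h9 := l2_nonneg (g r)
    rw [e, norm_one, one_pow, one_mul]
    nlinarith

lemma co_ww_val : WW c ⊆ {q | ∀ α, q.2 α ∈ c.R0} := by
  refine WW_ind ?_
  rintro q ⟨g, lam, -, h2, h3⟩ α
  have hA : ∀ q ∈ {q : ℕ × (Ω →₀ 𝕜) | ∀ α, q.2 α ∈ c.R0}, ∀ α, q.2 α ∈ c.R0 := fun _ h => h
  rw [h2, Finsupp.smul_apply, smul_eq_mul, Finsupp.finsetSum_apply]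
  refine mul_mem (kap_mem _) (sum_mem fun r hr => ?_)
  rw [Finsupp.smul_apply, smul_eq_mul]
  rcases h3 with ⟨h3, -⟩ | h3
  · exact mul_mem (h3 r (Finset.mem_range.1 hr)).1 (co_wof_val hA (h3 r (Finset.mem_range.1 hr)).2 α)
  · rw [(h3 r (Finset.mem_range.1 hr)).1, one_mul]
    exact co_two_val hA (h3 r (Finset.mem_range.1 hr)).2 α

theorem cost_proof (c : Coding 𝕜 Ω) : CostP c where
  ww_l2 _ _ h := co_ww_l2 h
  ww_val _ _ h := co_ww_val h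
  two_l2 _ _ h := co_two_l2 (fun _ hq => co_ww_l2 hq) h
  w_l2 _ h := co_wof_l2 (fun _ hq => co_ww_l2 hq) h

end

end Crest.Agent.R114
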