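import Crest.Agent.R114.Tasks

set_option autoImplicit false

namespace Crest.Agent.R114

open Filter Topology Finset

variable {𝕜 : Type} [RCLike 𝕜] {Ω : Type} [LinearOrder Ω]

omit [LinearOrder Ω] in
lemma gr_comp_le (h : ℕ → Ω →₀ 𝕜) {ι : ℕ → ℕ} (hι : StrictMono ι) (a : ℕ) :
    gr (fun a => h (ι a)) a ≤ gr h (ι a) := by
  unfold gr
  refine Nat.add_le_add (hι.le_apply) ?_
  rw [← sum_image (s := range a) (g := ι) (f := fun r => (h r).support.card)
    fun _ _ _ _ e => hι.injective e]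
  refine sum_le_sum_of_subset fun i hi => ?_
  obtain ⟨b, hb, rfl⟩ := mem_image.1 hi
  exact mem_range.2 (hι (mem_range.1 hb))

lemma support_smul_sum {p : ℕ} (a : 𝕜) (g : ℕ → Ω →₀ 𝕜) {α : Ω}
    (h : α ∈ (a • ∑ r ∈ range p, g r).support) : ∃ r < p, α ∈ (g r).support := by
  obtain ⟨r, hr, h⟩ := mem_biUnion.1 (Finsupp.support_finsetSum (Finsupp.support_smul h))
  exact ⟨r, mem_range.1 hr, h⟩

theorem exact_proof (c : Coding 𝕜 Ω) (A : API c) (h1 : AlphaStmt c) (h2 : TermStmt c)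
    (h3 : RisStmt c) (h4 : TriStmt c) (h5 : SelStmt) (h6 : UpStmt c) : ExactStmt c := by
  intro z hz hc
  obtain ⟨δ, hδ, hα⟩ := h1 z hz
  obtain ⟨y, J, h, R⟩ := h3 z hz (h2 z δ hz hδ hα)
  obtain ⟨k0, hk0⟩ := eventually_atTop.1 h6
  refine ⟨k0, fun k hk N => ?_⟩
  have hJ : ∀ s, (0 : ℝ) < J (s + 1) := fun s =>
    Nat.cast_pos.2 (lt_of_le_of_lt (Nat.zero_le _) (R.mono (Nat.lt_succ_self s)))
  have hp : (0 : ℝ) < nn k := Nat.cast_pos.2 (nn_pos k)
  have hκ := kap_pos k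
  obtain ⟨ι, hι, hN, hP⟩ := h5 (hyperfilter ℕ) inferInstance Nat.hyperfilter_le_atTop
    (fun s => NoBig c y J (1 / ((nn k : ℝ) ^ 2 * J (s + 1))) s)
    (fun s => h4 z y J h hz R hc _ Nat.hyperfilter_le_atTop _ (by have := hJ s; positivity) s) N
  have hup := hk0 k hk z y J h R ι ⟨hι, hP⟩
  have hN' : ∀ a, N ≤ ι a := fun a => hN.trans (hι.monotone (Nat.zero_le a))
  have hy : ∀ a, y (ι a) ∈ Tl z N := fun a => Tl_anti z (hN' a) (R.mem _)
  have e2 : ∀ᶠ M in atTop, ∀ a ∈ range (nn k), ∀ i, M ≤ i → Lt (y (ι a)) (z i) := by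
    refine (eventually_all_finset _).2 fun a _ => ?_
    obtain ⟨-, N', h, -⟩ := hz.between (hy a)
    filter_upwards [eventually_ge_atTop N'] with M hM i hi using h i (hM.trans hi)
  obtain ⟨M, hM⟩ := e2.exists
  refine ⟨((kap k : ℝ) : 𝕜) • ∑ a ∈ range (nn k), h (ι a),
    (((kap k * nn k)⁻¹ : ℝ) : 𝕜) • ∑ a ∈ range (nn k), y (ι a), M,
    WW_typeA (g := fun a => h (ι a))
      (fun r r' hr _ => (R.block.1 _ _ (hι hr)).hull (R.hull _) (R.hull _))
      fun r _ => (R.two _).anti (gr_comp_le h hι r),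
    Submodule.smul_mem _ _ (Submodule.sum_mem _ fun a _ => hy a), ?_, ?_,
    fun i hi => ⟨fun α hα β hβ => ?_, fun α hα β hβ => ?_⟩,
    fun i hi => ⟨fun α hα β hβ => ?_, fun α hα β hβ => ?_⟩⟩
  · rw [A.nrm.smul, RCLike.norm_ofReal, abs_of_pos (by positivity), inv_mul_le_iff₀ (by positivity)]
    linarith
  · have e : pr (∑ a ∈ range (nn k), h (ι a)) (∑ a ∈ range (nn k), y (ι a)) =
        ∑ a ∈ range (nn k), pr (h (ι a)) (y (ι a)) := by
      rw [map_sum pr, LinearMap.sum_apply]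
      refine sum_congr rfl fun a ha => ?_
      rw [map_sum]
      refine sum_eq_single a (fun b _ hb => ?_) fun hn => absurd ha hn
      rcases lt_or_gt_of_ne hb with hl | hl
      · exact ((R.block.1 _ _ (hι hl)).hull (Hull.refl _) (R.hull _)).pr_eq_zero'
      · exact ((R.block.1 _ _ (hι hl)).hull (R.hull _) (Hull.refl _)).pr_eq_zero
    simp only [map_smul, LinearMap.smul_apply, e, smul_eq_mul, RCLike.re_ofReal_mul]
    have : (nn k : ℝ) ≤ RCLike.re (∑ a ∈ range (nn k), pr (h (ι a)) (y (ι a))) := by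
      rw [map_sum]
      simpa using sum_le_sum (s := range (nn k)) fun a _ => (R.one (ι a)).le
    rw [← mul_assoc, show (kap k * nn k)⁻¹ * kap k = (nn k : ℝ)⁻¹ by field_simp,
      le_inv_mul_iff₀ hp, mul_one]
    exact this
  · obtain ⟨a, -, ha⟩ := support_smul_sum _ _ hβ
    exact ((hz.between (hy a)).1 i hi).hull (Hull.refl _) (R.hull _) α hα β ha
  · obtain ⟨a, -, ha⟩ := support_smul_sum _ _ hβ
    exact (hz.between (hy a)).1 i hi α hα β ha
  · obtain ⟨a, hl, ha⟩ := support_smul_sum _ _ hα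
    exact (hM a (mem_range.2 hl) i hi).hull (R.hull _) (Hull.refl _) α ha β hβ
  · obtain ⟨a, hl, ha⟩ := support_smul_sum _ _ hα
    exact hM a (mem_range.2 hl) i hi α ha β hβ

end Crest.Agent.R114
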