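import Mathlib

/-! Dependent choice with full history. -/

set_option autoImplicit false

namespace Crest.Agent.R114

/-- strong dependent choice: `R n f a` says that `a` is a good `n`-th term after `f 0, …, f (n-1)`. -/
theorem exists_rec {α : Type*} [Nonempty α] (R : ℕ → (ℕ → α) → α → Prop)
    (hcongr : ∀ n f g a, (∀ i < n, f i = g i) → R n f a → R n g a)
    (h : ∀ n f, (∀ i < n, R i f (f i)) → ∃ a, R n f a) : ∃ f : ℕ → α, ∀ n, R n f (f n) := by
  classical
  let nx : ℕ → (ℕ → α) → α := fun n f => Classical.epsilon (R n f)
  let F : ℕ → ℕ → α := fun n => Nat.rec (fun _ => Classical.arbitrary α)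
    (fun n f => Function.update f n (nx n f)) n
  have hF : ∀ n, F (n + 1) = Function.update (F n) n (nx n (F n)) := fun _ => rfl
  have hst : ∀ n i, i < n → F n i = F (i + 1) i := by
    intro n
    induction n with
    | zero => intro i hi; omega
    | succ n ih =>
      intro i hi
      rcases Nat.lt_succ_iff_lt_or_eq.1 hi with h1 | h1
      · rw [hF, Function.update_of_ne h1.ne, ih i h1]
      · rw [h1]
  refine ⟨fun n => F (n + 1) n, fun n => ?_⟩
  induction n using Nat.strong_induction_on with
  | _ n ih =>
    have h1 : ∃ a, R n (F n) a := h n (F n) fun i hi => by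
      rw [hst n i hi]
      exact hcongr i _ _ _ (fun j hj => (hst n j (hj.trans hi)).symm) (ih i hi)
    have h2 : R n (F n) (F (n + 1) n) := by
      rw [hF, Function.update_self]; exact Classical.epsilon_spec h1
    exact hcongr n _ _ _ (fun j hj => hst n j hj) h2

end Crest.Agent.R114
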