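import Crest.Agent.R114.Tasks
import Crest.Agent.R114.Rec

set_option autoImplicit false

namespace Crest.Agent.R114

open Filter Topology Finset

variable {𝕜 : Type} [RCLike 𝕜] {Ω : Type} [LinearOrder Ω]

theorem main_proof (c : Coding 𝕜 Ω) (hE : ExactStmt c) : MainStmt c := by
  intro z hz
  by_contra hc
  obtain ⟨k0, hk⟩ := hE z hz hc
  -- data: (weight, f), u, N'
  obtain ⟨q, hq⟩ := exists_rec (α := (ℕ × (Ω →₀ 𝕜)) × (Ω →₀ 𝕜) × ℕ) (fun n q a =>
      k0 ≤ a.1.1 ∧ (0 < n → a.1.1 = c.code n fun l => (q l).1) ∧ a.1 ∈ WW c ∧ a.2.1 ∈ Tl z n ∧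
      nrm c a.2.1 ≤ 25 ∧ 1 ≤ RCLike.re (pr a.1.2 a.2.1) ∧
      (∀ l < n, Lt (z (q l).2.2) a.1.2 ∧ Lt (z (q l).2.2) a.2.1) ∧
      Lt a.1.2 (z a.2.2) ∧ Lt a.2.1 (z a.2.2))
    (by
      rintro n f g a hfg ⟨h0, h1, h2, h3, h4, h5, h6, h7⟩
      refine ⟨h0, fun hn => ?_, h2, h3, h4, h5, fun i hi => hfg i hi ▸ h6 i hi, h7⟩
      rw [h1 hn]; exact c.congr _ _ _ fun b hb => by rw [hfg b hb])
    (by
      intro n f hf
      let w : ℕ := if 0 < n then c.code n fun l => (f l).1 else k0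
      have hw : k0 ≤ w := by
        by_cases hn : 0 < n
        · simp only [w, if_pos hn]
          exact (hf 0 hn).1.trans (c.gt n (fun l => (f l).1) 0 hn).le
        · simp [w, hn]
      obtain ⟨g, u, N', h1, h2, h3, h4, h5, h6⟩ :=
        hk w hw (n + (range n).sup (fun l => (f l).2.2) + 1)
      refine ⟨((w, g), u, N'), hw, fun hn => by simp only [w, if_pos hn], h1,
        Tl_anti z (by omega) h2, h3, h4, fun l hl => h5 _ ?_, h6 _ le_rfl⟩
      have := le_sup (f := fun l => (f l).2.2) (mem_range.2 hl)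
      omega)
  refine hc ⟨fun k => (q k).2.1, 25, fun l => (q l).1, fun L => ⟨fun l _ => (hq l).2.2.1,
    fun r r' h _ => ((hq r).2.2.2.2.2.2.2.1).trans ((hq r').2.2.2.2.2.2.1 r h).1 (hz.2 _),
    fun l hl _ => (hq l).2.1 hl⟩, fun k => (hq k).2.2.2.1, fun k => (hq k).2.2.2.2.1,
    fun l α hα => ?_, fun ht => ?_⟩
  · obtain ⟨β, hβ⟩ := Finsupp.support_nonempty_iff.2 (hz.2 (q l).2.2)
    exact ⟨_, β, hβ, ((hq l).2.2.2.2.2.2.2.1 α hα β hβ).le⟩
  · have e : ∀ k, ∑' l, pr (q l).1.2 (q k).2.1 = pr (q k).1.2 (q k).2.1 := by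
      intro k
      refine tsum_eq_single k fun l hl => ?_
      rcases lt_or_gt_of_ne hl with h | h
      · exact (((hq l).2.2.2.2.2.2.2.1).trans ((hq k).2.2.2.2.2.2.1 l h).2 (hz.2 _)).pr_eq_zero
      · exact (((hq k).2.2.2.2.2.2.2.2).trans ((hq l).2.2.2.2.2.2.1 k h).1 (hz.2 _)).pr_eq_zero'
    simp only [e] at ht
    have h1 := (RCLike.continuous_re.tendsto _).comp ht
    have := ge_of_tendsto' h1 fun k => (hq k).2.2.2.2.2.1
    simp at this; linarith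

end Crest.Agent.R114
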