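import Crest.Agent.R114.Tasks

/-! Row 114, part A: the task NRM. -/

set_option autoImplicit false

namespace Crest.Agent.R114

open Filter Topology Finset

noncomputable section

variable {𝕜 : Type} [RCLike 𝕜] {Ω : Type} [LinearOrder Ω]

/-- optimisation over the `R0`-points of the `ℓ²` ball. -/
lemma nr_opt (c : Coding 𝕜 Ω) {ι : Type} (s : Finset ι) (v : ι → 𝕜) {B : ℝ} (hB : 0 ≤ B)
    (h : ∀ lam : ι → 𝕜, (∀ r, lam r ∈ c.R0) → ∑ r ∈ s, ‖lam r‖ ^ 2 ≤ 1 →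
      ‖∑ r ∈ s, lam r * v r‖ ≤ B) : ∑ r ∈ s, ‖v r‖ ^ 2 ≤ B ^ 2 := by
  by_contra hlt
  have hS0 : 0 ≤ ∑ r ∈ s, ‖v r‖ ^ 2 := Finset.sum_nonneg fun _ _ => by positivity
  set S := √(∑ r ∈ s, ‖v r‖ ^ 2) with hS
  have hS2 : S ^ 2 = ∑ r ∈ s, ‖v r‖ ^ 2 := Real.sq_sqrt hS0
  have hBS : B < S := Real.lt_sqrt_of_sq_lt (not_le.1 hlt)
  have hSp : 0 < S := hB.trans_lt hBS
  have hd : Dense (Set.pi Set.univ fun _ : ι => (c.R0 : Set 𝕜)) := dense_pi _ fun _ _ => c.dense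
  have ho : IsOpen {lam : ι → 𝕜 | ∑ r ∈ s, ‖lam r‖ ^ 2 < 1 ∧ B < ‖∑ r ∈ s, lam r * v r‖} := by
    have o1 : IsOpen {lam : ι → 𝕜 | ∑ r ∈ s, ‖lam r‖ ^ 2 < 1} :=
      isOpen_lt (by fun_prop) continuous_const
    have o2 : IsOpen {lam : ι → 𝕜 | B < ‖∑ r ∈ s, lam r * v r‖} :=
      isOpen_lt continuous_const (by fun_prop)
    exact o1.inter o2
  set θ := (B + S) / (2 * S ^ 2) with hθ
  have hθ0 : 0 ≤ θ := by positivity
  obtain ⟨lam, hl, h1, h2⟩ := hd.exists_mem_open ho ⟨fun r => (θ : 𝕜) * (starRingEnd 𝕜) (v r), by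
    constructor
    · simp only [norm_mul, RCLike.norm_ofReal, RCLike.norm_conj, mul_pow, sq_abs, ← Finset.mul_sum,
        ← hS2]
      have e : θ * S = (B + S) / (2 * S) := by rw [hθ]; field_simp
      have h3 : θ * S < 1 := by rw [e, div_lt_one (by positivity)]; linarith
      have h4 : 0 ≤ θ * S := by positivity
      nlinarith
    · have e : ∑ r ∈ s, (θ : 𝕜) * (starRingEnd 𝕜) (v r) * v r = ((θ * S ^ 2 : ℝ) : 𝕜) := by
        rw [hS2, Finset.mul_sum]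
        push_cast
        exact Finset.sum_congr rfl fun r _ => by rw [mul_assoc, RCLike.conj_mul]
      rw [e, RCLike.norm_ofReal, abs_of_nonneg (by positivity)]
      have e2 : θ * S ^ 2 = (B + S) / 2 := by rw [hθ]; field_simp
      rw [e2]; linarith⟩
  exact absurd (h lam (fun r => hl r trivial) h1.le) (not_le.2 h2)

lemma nr_rot (c : Coding 𝕜 Ω) {v : 𝕜} {t : ℝ} (h : t < ‖v‖) :
    ∃ a ∈ c.R0, ‖a‖ ≤ 1 ∧ t < RCLike.re (a * v) := by
  rcases lt_or_ge t 0 with ht | ht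
  · exact ⟨0, zero_mem _, by simp, by simpa using ht⟩
  have hv : 0 < ‖v‖ := ht.trans_lt h
  have ho : IsOpen {a : 𝕜 | ‖a‖ < 1 ∧ t < RCLike.re (a * v)} :=
    (isOpen_lt continuous_norm continuous_const).inter
      (isOpen_lt continuous_const (RCLike.continuous_re.comp (by fun_prop)))
  set θ := (t + ‖v‖) / (2 * ‖v‖ ^ 2) with hθ
  have hθ0 : 0 ≤ θ := by positivity
  obtain ⟨a, ha, h1, h2⟩ := c.dense.exists_mem_open ho ⟨(θ : 𝕜) * (starRingEnd 𝕜) v, by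
    constructor
    · rw [norm_mul, RCLike.norm_ofReal, RCLike.norm_conj, abs_of_nonneg hθ0]
      have e : θ * ‖v‖ = (t + ‖v‖) / (2 * ‖v‖) := by rw [hθ]; field_simp
      rw [e, div_lt_one (by positivity)]; linarith
    · have e : (θ : 𝕜) * (starRingEnd 𝕜) v * v = ((θ * ‖v‖ ^ 2 : ℝ) : 𝕜) := by
        rw [mul_assoc, RCLike.conj_mul]; push_cast; rfl
      rw [e, RCLike.ofReal_re]
      have e2 : θ * ‖v‖ ^ 2 = (t + ‖v‖) / 2 := by rw [hθ]; field_simp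
      rw [e2]; linarith⟩
  exact ⟨a, ha, h1.le, h2⟩

/-- the order-convex hull of the support. -/
def nrHull (z : Ω →₀ 𝕜) : Set Ω := {α | (∃ β ∈ z.support, β ≤ α) ∧ ∃ β ∈ z.support, α ≤ β}

lemma nrHull_ord (z : Ω →₀ 𝕜) : (nrHull z).OrdConnected := ⟨fun _ hα _ hβ _ hγ => by
  obtain ⟨b, hb, hbα⟩ := hα.1
  obtain ⟨b', hb', hβb⟩ := hβ.2
  exact ⟨⟨b, hb, hbα.trans hγ.1⟩, b', hb', hγ.2.trans hβb⟩⟩

lemma nrHull_pr (a : 𝕜) (g z : Ω →₀ 𝕜) : pr (a • restr (nrHull z) g) z = a * pr g z := by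
  rw [map_smul, LinearMap.smul_apply, pr_restr,
    restr_eq_self (E := nrHull z) (f := z) fun α hα => ⟨⟨α, hα, le_rfl⟩, α, hα, le_rfl⟩, smul_eq_mul]

lemma nrHull_hull (a : 𝕜) (g z : Ω →₀ 𝕜) : Hull (a • restr (nrHull z) g) z := fun _ hα =>
  (mem_support_restr.1 (Finsupp.support_smul hα)).2

variable {c : Coding 𝕜 Ω}

lemma nr_ne (z : Ω →₀ 𝕜) : {t | ∃ g, W c g ∧ t = ‖pr g z‖}.Nonempty := ⟨_, 0, W_zero, rfl⟩

lemma nr_le_of {z : Ω →₀ 𝕜} {t : ℝ} (h : ∀ g, W c g → ‖pr g z‖ ≤ t) : nrm c z ≤ t :=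
  csSup_le (nr_ne z) (by rintro _ ⟨g, hg, rfl⟩; exact h g hg)

lemma nr_pr_le (h : CostP c) {g : Ω →₀ 𝕜} (z : Ω →₀ 𝕜) (hg : W c g) : ‖pr g z‖ ≤ nrm c z := by
  refine le_csSup ⟨l2 z, ?_⟩ ⟨g, hg, rfl⟩
  rintro _ ⟨g, hg, rfl⟩
  exact (norm_pr_le g z).trans (mul_le_of_le_one_left (l2_nonneg _) (h.w_l2 g hg))

lemma nr_nonneg (h : CostP c) (z : Ω →₀ 𝕜) : 0 ≤ nrm c z :=
  (norm_nonneg _).trans (nr_pr_le h z W_zero)

lemma nr_smul_le (h : CostP c) (a : 𝕜) (z : Ω →₀ 𝕜) : nrm c (a • z) ≤ ‖a‖ * nrm c z :=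
  nr_le_of fun g hg => by
    rw [map_smul, smul_eq_mul, norm_mul]
    exact mul_le_mul_of_nonneg_left (nr_pr_le h z hg) (norm_nonneg _)

lemma nr_normer {z : Ω →₀ 𝕜} {t : ℝ} (ht : t < nrm c z) :
    ∃ g, W c g ∧ Hull g z ∧ t < RCLike.re (pr g z) := by
  obtain ⟨_, ⟨g, hg, rfl⟩, hlt⟩ := exists_lt_of_lt_csSup (nr_ne z) ht
  obtain ⟨a, ha, h1, h2⟩ := nr_rot c hlt
  exact ⟨a • restr (nrHull z) g, (Wof.restr hg (nrHull_ord z)).smul ha h1, nrHull_hull a g z,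
    by rwa [nrHull_pr]⟩

lemma nr_lim {x y : ℝ} (h : ∀ ε < 1, ε * x ≤ y) : x ≤ y := by
  have : Tendsto (fun ε : ℝ => ε * x) (𝓝[<] 1) (𝓝 (1 * x)) :=
    ((continuous_id.mul continuous_const).tendsto 1).mono_left nhdsWithin_le_nhds
  rw [one_mul] at this
  exact le_of_tendsto this (eventually_nhdsWithin_of_forall h)

lemma nr_lowB (h : CostP c) (j : ℕ) (b : ℕ → Ω →₀ 𝕜) (hb : Succ b (nn j)) :
    kap j ^ 2 * ∑ i ∈ range (nn j), nrm c (b i) ^ 2 ≤ nrm c (∑ i ∈ range (nn j), b i) ^ 2 := by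
  refine nr_lim fun ε hε => ?_
  have hS : 0 ≤ ∑ i ∈ range (nn j), nrm c (b i) ^ 2 := Finset.sum_nonneg fun _ _ => sq_nonneg _
  rcases le_or_gt ε 0 with h0 | h0
  · exact (mul_nonpos_of_nonpos_of_nonneg h0 (by positivity)).trans (sq_nonneg _)
  have hθ : √ε < 1 := by rwa [Real.sqrt_lt' one_pos, one_pow]
  have hg : ∀ r, ∃ g, W c g ∧ Hull g (b r) ∧ √ε * nrm c (b r) ≤ ‖pr g (b r)‖ := by
    intro r
    rcases (nr_nonneg h (b r)).eq_or_lt with e | hpos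
    · exact ⟨0, W_zero, fun α hα => by simp at hα, by simp [← e]⟩
    · obtain ⟨g, h1, h2, h3⟩ := nr_normer (c := c) (z := b r) (t := √ε * nrm c (b r))
        (mul_lt_of_lt_one_left hpos hθ)
      exact ⟨g, h1, h2, h3.le.trans (RCLike.re_le_norm _)⟩
  choose g hW hH hle using hg
  have key := nr_opt c (range (nn j)) (fun r => ((kap j : ℝ) : 𝕜) * pr (g r) (b r))
    (nr_nonneg h (∑ i ∈ range (nn j), b i)) fun lam h1 h2 => by
      have hm : (j, ((kap j : ℝ) : 𝕜) • ∑ r ∈ range (nn j), lam r • g r) ∈ WW c := by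
        rw [← Step_WW]
        exact ⟨g, lam, fun r r' a a' => (hb r r' a a').hull (hH r) (hH r'), rfl,
          Or.inl ⟨fun r _ => ⟨h1 r, hW r⟩, h2⟩⟩
      refine le_trans (le_of_eq ?_) (nr_pr_le h _ (W_of_WW hm))
      congr 1
      rw [map_smul, LinearMap.smul_apply, map_sum pr, LinearMap.sum_apply, Finset.smul_sum]
      refine Finset.sum_congr rfl fun r hr => ?_
      rw [map_smul, LinearMap.smul_apply, map_sum, Finset.sum_eq_single_of_mem r hr]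
      · simp only [smul_eq_mul]; ring
      · intro i hi hne
        rcases lt_or_gt_of_ne hne with hlt | hlt
        · exact ((hb i r hlt (Finset.mem_range.1 hr)).hull (Hull.refl _) (hH r)).pr_eq_zero'
        · exact ((hb r i hlt (Finset.mem_range.1 hi)).hull (hH r) (Hull.refl _)).pr_eq_zero
  refine le_trans ?_ key
  rw [Finset.mul_sum, Finset.mul_sum]
  refine Finset.sum_le_sum fun r _ => ?_
  rw [norm_mul, RCLike.norm_ofReal, mul_pow, sq_abs]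
  have h1 := pow_le_pow_left₀ (mul_nonneg (Real.sqrt_nonneg _) (nr_nonneg h _)) (hle r) 2
  rw [mul_pow, Real.sq_sqrt h0.le] at h1
  have := mul_le_mul_of_nonneg_left h1 (sq_nonneg (kap j))
  linarith

theorem nrm_proof (c : Coding 𝕜 Ω) (h : CostP c) : NrmP c where
  pr_le _ z hg := nr_pr_le h z hg
  le_of _ _ := nr_le_of
  nonneg := nr_nonneg h
  add_le y z := nr_le_of fun g hg => by
    rw [map_add]
    exact (norm_add_le _ _).trans (add_le_add (nr_pr_le h y hg) (nr_pr_le h z hg))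
  smul a z := by
    refine le_antisymm (nr_smul_le h a z) ?_
    rcases eq_or_ne a 0 with rfl | ha
    · simpa using nr_nonneg h _
    · have := nr_smul_le h a⁻¹ (a • z)
      rw [inv_smul_smul₀ ha, norm_inv] at this
      rwa [← le_inv_mul_iff₀ (norm_pos_iff.2 ha)]
  coord z α := by
    have := nr_pr_le h z (g := Finsupp.single α 1) (Or.inl ⟨α, 1, one_mem _, by simp, rfl⟩)
    simpa using this
  restr_le E hE z := nr_le_of fun g hg => by
    rw [← pr_restr]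
    exact nr_pr_le h z (Wof.restr hg hE)
  normer _ _ := nr_normer
  rot J g z t hg ht := by
    obtain ⟨a, ha, h1, h2⟩ := nr_rot c ht
    exact ⟨a • restr (nrHull z) g, (hg.restr (nrHull_ord z)).smul ha h1, nrHull_hull a g z,
      by rwa [nrHull_pr]⟩
  lowB := nr_lowB h

end

end Crest.Agent.R114
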