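import Crest.Agent.R114.Tasks

/-! Row 114, part A: the task NUM. -/

set_option autoImplicit false

namespace Crest.Agent.R114

open Filter Topology Finset

noncomputable section

lemma nu_sq_le_aa (k : ℕ) : (k + 1) ^ 2 ≤ aa k := by
  induction k with
  | zero => simp [aa]
  | succ k ih =>
    have := two_le_aa k
    have h1 : 2 * aa k ≤ aa k ^ 2 := by rw [sq]; exact Nat.mul_le_mul_right _ this
    simp only [aa]
    nlinarith

lemma nu_rpow (k : ℕ) (δ : ℝ) : (nn k : ℝ) ^ δ = (2 : ℝ) ^ ((aa k : ℝ) * δ) := by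
  rw [nn, Nat.cast_pow, Nat.cast_ofNat, ← Real.rpow_natCast, ← Real.rpow_mul (by norm_num)]

lemma nu_g1 (b M : ℝ) (hb : b < 1) : ∀ᶠ k in atTop, M ≤ kap k ^ 2 * (nn k : ℝ) ^ (1 - b) := by
  have hδ : 0 < 1 - b := by linarith
  filter_upwards [tendsto_natCast_atTop_atTop.eventually_ge_atTop (3 / (1 - b)),
    tendsto_natCast_atTop_atTop.eventually_ge_atTop (32 * M)] with k h1 h2
  have h3 : ((k : ℝ) + 1) ^ 2 ≤ aa k := by exact_mod_cast nu_sq_le_aa k
  rw [div_le_iff₀ hδ] at h1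
  have h0 : (0 : ℝ) ≤ k := Nat.cast_nonneg k
  have h4 : ((3 * (k + 1) : ℕ) : ℝ) ≤ (aa k : ℝ) * (1 - b) := by
    push_cast
    have := mul_le_mul_of_nonneg_right h3 hδ.le
    nlinarith
  have h5 := Real.rpow_le_rpow_of_exponent_le (one_le_two (α := ℝ)) h4
  rw [← nu_rpow, Real.rpow_natCast] at h5
  have h6 : (k : ℝ) ≤ 2 ^ k := by exact_mod_cast Nat.lt_two_pow_self.le
  have h7 : kap k ^ 2 * (2 : ℝ) ^ (3 * (k + 1)) = 2 ^ k / 32 := by
    unfold kap
    field_simp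
    ring
  have := mul_le_mul_of_nonneg_left h5 (sq_nonneg (kap k))
  linarith

lemma nu_g2 (M : ℝ) : ∀ᶠ k in atTop, ∃ b : ℝ, 1 / 2 ≤ b ∧ b < 1 ∧
    (∀ j < k, (nn j : ℝ) ^ (1 - b) ≤ 2) ∧
    M * ((∑ j ∈ range k, (nn j : ℝ)) + 1) ≤ kap k * (nn k : ℝ) ^ (1 - b) := by
  filter_upwards [tendsto_natCast_atTop_atTop.eventually_ge_atTop M, eventually_ge_atTop 4]
    with k h1 h2
  obtain ⟨k, rfl⟩ : ∃ k', k = k' + 1 := ⟨k - 1, by omega⟩
  have ha : (2 : ℝ) ≤ aa k := by exact_mod_cast two_le_aa k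
  have hap : (0 : ℝ) < aa k := by linarith
  have hmono : ∀ j < k + 1, (nn j : ℝ) ≤ nn k := fun j hj => by
    exact_mod_cast nn_mono (Nat.lt_succ_iff.1 hj)
  refine ⟨1 - 1 / aa k, ?_, ?_, fun j hj => ?_, ?_⟩
  · have := one_div_le_one_div_of_le (by norm_num) ha
    linarith
  · have : (0 : ℝ) < 1 / aa k := by positivity
    linarith
  · rw [sub_sub_cancel]
    refine (Real.rpow_le_rpow (Nat.cast_nonneg _) (hmono j hj) (by positivity)).trans ?_
    rw [nu_rpow, mul_one_div_cancel hap.ne', Real.rpow_one]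
  · have e : (nn (k + 1) : ℝ) ^ (1 - (1 - 1 / (aa k : ℝ))) = (nn k : ℝ) ^ 2 := by
      rw [sub_sub_cancel, nu_rpow, ← Real.rpow_natCast, nu_rpow]
      congr 1
      simp only [aa]
      push_cast
      field_simp
    rw [e]
    have hn1 : (1 : ℝ) ≤ nn k := by exact_mod_cast nn_pos k
    have hs : ∑ j ∈ range (k + 1), (nn j : ℝ) ≤ (k + 1 : ℕ) * (nn k : ℝ) := by
      have := Finset.sum_le_card_nsmul (range (k + 1)) (fun j => (nn j : ℝ)) (nn k)
        fun j hj => hmono j (Finset.mem_range.1 hj)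
      rwa [Finset.card_range, nsmul_eq_mul] at this
    have hs0 : 0 ≤ ∑ j ∈ range (k + 1), (nn j : ℝ) :=
      Finset.sum_nonneg fun _ _ => Nat.cast_nonneg _
    have h6 : ((k + 1 : ℕ) : ℝ) + 1 ≤ 2 ^ (k + 1) := by
      exact_mod_cast Nat.lt_two_pow_self (n := k + 1)
    have h7 : (2 : ℝ) ^ (3 * (k + 1) + 4) ≤ nn k := by
      have := nu_sq_le_aa k
      have h8 : 3 * (k + 1) + 4 ≤ aa k := by nlinarith
      exact_mod_cast Nat.pow_le_pow_right (by norm_num) h8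
    have h9 : kap (k + 1) * (2 : ℝ) ^ (3 * (k + 1) + 4) = 2 ^ (k + 1) * 2 ^ (k + 1) := by
      unfold kap
      field_simp
      ring
    have hp : (0 : ℝ) < 2 ^ (k + 1) := by positivity
    have hk := kap_pos (k + 1)
    calc M * ((∑ j ∈ range (k + 1), (nn j : ℝ)) + 1)
        ≤ 2 ^ (k + 1) * (2 ^ (k + 1) * nn k) := by
          refine mul_le_mul (by linarith) ?_ (by positivity) (by positivity)
          nlinarith
      _ = kap (k + 1) * (2 ^ (3 * (k + 1) + 4) * nn k) := by rw [← mul_assoc, ← h9, mul_assoc]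
      _ ≤ kap (k + 1) * (nn k : ℝ) ^ 2 := by
          rw [sq]
          gcongr

lemma nu_g3 (n : ℕ) : ∃ b : ℝ, 1 / 2 ≤ b ∧ b < 1 ∧ (n : ℝ) ^ (1 - b) ≤ 2 := by
  have h0 : (0 : ℝ) ≤ n := Nat.cast_nonneg n
  refine ⟨1 - 1 / (n + 2), ?_, ?_, ?_⟩
  · have := one_div_le_one_div_of_le (by norm_num) (show (2 : ℝ) ≤ n + 2 by linarith)
    linarith
  · have : (0 : ℝ) < 1 / (n + 2) := by positivity
    linarith
  · have h1 : (n : ℝ) ≤ 2 ^ (n + 2) := by
      have := Nat.lt_two_pow_self (n := n + 2)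
      exact_mod_cast (by omega : n ≤ 2 ^ (n + 2))
    rw [sub_sub_cancel]
    refine (Real.rpow_le_rpow h0 h1 (by positivity)).trans (le_of_eq ?_)
    rw [← Real.rpow_natCast, ← Real.rpow_mul (by norm_num)]
    push_cast
    rw [mul_one_div_cancel (by positivity), Real.rpow_one]

lemma nu_rp (b : ℝ) (h0 : 0 < b) (h1 : b ≤ 1) (n Q : ℕ) (q : ℕ → ℕ)
    (h : ∑ r ∈ range n, q r ≤ Q) :
    ∑ r ∈ range n, (q r : ℝ) ^ b ≤ (n : ℝ) ^ (1 - b) * (Q : ℝ) ^ b := by
  rcases Nat.eq_zero_or_pos n with rfl | hn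
  · simp only [range_zero, sum_empty]; positivity
  have hn' : (0 : ℝ) < n := by exact_mod_cast hn
  have key := (Real.concaveOn_rpow h0.le h1).le_map_sum (t := range n) (w := fun _ => (n : ℝ)⁻¹)
    (p := fun r => (q r : ℝ)) (fun _ _ => by positivity) (by simp [hn'.ne'])
    (fun r _ => Set.mem_Ici.2 (Nat.cast_nonneg _))
  simp only [smul_eq_mul, ← Finset.mul_sum] at key
  have hQ : ∑ r ∈ range n, (q r : ℝ) ≤ Q := by exact_mod_cast h
  have h2 : ((n : ℝ)⁻¹ * ∑ r ∈ range n, (q r : ℝ)) ^ b ≤ ((n : ℝ)⁻¹ * Q) ^ b :=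
    Real.rpow_le_rpow (mul_nonneg (by positivity) (Finset.sum_nonneg fun _ _ => Nat.cast_nonneg _))
      (mul_le_mul_of_nonneg_left hQ (by positivity)) h0.le
  have h3 := key.trans h2
  rw [inv_mul_le_iff₀ hn', Real.mul_rpow (by positivity) (by positivity), Real.inv_rpow hn'.le,
    ← mul_assoc] at h3
  rwa [Real.rpow_sub hn', Real.rpow_one, div_eq_mul_inv]

theorem num_proof : NumP where
  g1 := nu_g1
  g2 := nu_g2
  g3 := nu_g3
  rpow := nu_rp

end

end Crest.Agent.R114
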