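import Crest.Agent.R114.Tasks
import Crest.Agent.R114.Rec

set_option autoImplicit false

namespace Crest.Agent.R114

open Filter Topology Finset

variable {𝕜 : Type} [RCLike 𝕜] {Ω : Type} [LinearOrder Ω]

lemma tendsto_kap : Tendsto kap atTop (𝓝 0) := summable_kap.tendsto_atTop_zero

theorem ris_proof (c : Coding 𝕜 Ω) : RisStmt c := by
  intro z hz hT
  obtain ⟨q, hq⟩ := exists_rec (α := (Ω →₀ 𝕜) × ℕ × (Ω →₀ 𝕜)) (fun n q a =>
      a.1 ∈ Tl z n ∧ (∀ i < n, Lt (q i).1 a.1) ∧ (∀ i < n, (q i).2.1 < a.2.1) ∧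
      Avg c (nn a.2.1) 6 a.1 ∧ (∀ i < n, l2 (q i).1 * kap a.2.1 ≤ (1 / 2) ^ (i + 2)) ∧
      Two c (WW c) (gr (fun i => (q i).2.2) n) a.2.2 ∧ Hull a.2.2 a.1 ∧
      1 < RCLike.re (pr a.2.2 a.1))
    (by
      rintro n f g a hfg ⟨h0, h1, h2, h3, h4, h5, h6⟩
      refine ⟨h0, fun i hi => hfg i hi ▸ h1 i hi, fun i hi => hfg i hi ▸ h2 i hi, h3,
        fun i hi => hfg i hi ▸ h4 i hi, ?_, h6⟩
      have : gr (fun i => (g i).2.2) n = gr (fun i => (f i).2.2) n := by
        unfold gr; congr 1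
        exact sum_congr rfl fun i hi => by simp only [hfg i (mem_range.1 hi)]
      rwa [this])
    (by
      intro n f hf
      have e1 : ∀ᶠ J in atTop, ∀ i ∈ range n,
          (f i).2.1 < J ∧ l2 (f i).1 * kap J ≤ (1 / 2) ^ (i + 2) := by
        refine (eventually_all_finset _).2 fun i _ => (eventually_gt_atTop _).and ?_
        have : Tendsto (fun J => l2 (f i).1 * kap J) atTop (𝓝 0) := by
          simpa using tendsto_kap.const_mul (l2 (f i).1)
        exact this.eventually (ge_mem_nhds (by positivity))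
      obtain ⟨J, hJ⟩ := e1.exists
      have e2 : ∀ᶠ N in atTop, ∀ i ∈ range n, ∀ y ∈ Tl z N, Lt (f i).1 y := by
        refine (eventually_all_finset _).2 fun i hi => ?_
        obtain ⟨-, N', -, h⟩ := hz.between (hf i (mem_range.1 hi)).1
        filter_upwards [eventually_ge_atTop N'] with N hN y hy using h y (Tl_anti z hN hy)
      obtain ⟨N, hN, hN'⟩ := (e2.and (eventually_ge_atTop n)).exists
      obtain ⟨y, hy, h, h1, h2, h3, h4⟩ := hT N (gr (fun i => (f i).2.2) n) (nn J)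
      exact ⟨(y, J, h), Tl_anti z hN' hy, fun i hi => hN i (mem_range.2 hi) y hy,
        fun i hi => (hJ i (mem_range.2 hi)).1, h1, fun i hi => (hJ i (mem_range.2 hi)).2,
        h2, h3, h4⟩)
  refine ⟨fun i => (q i).1, fun i => (q i).2.1, fun i => (q i).2.2, fun i => (hq i).1,
    ⟨fun i j hij => (hq j).2.1 i hij, fun i h0 => ?_⟩, fun i j hij => (hq j).2.2.1 i hij,
    fun i => (hq i).2.2.2.1, fun i => (hq (i + 1)).2.2.2.2.1 i (Nat.lt_succ_self i),
    fun i => (hq i).2.2.2.2.2.1, fun i => (hq i).2.2.2.2.2.2.1, fun i => (hq i).2.2.2.2.2.2.2⟩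
  have := (hq i).2.2.2.2.2.2.2
  simp only at h0
  rw [h0] at this; simp at this; linarith

end Crest.Agent.R114
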