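import Crest.Agent.R114.ACost
import Crest.Agent.R114.ANrm

/-! Row 114, part A: the task ROW. -/

set_option autoImplicit false

namespace Crest.Agent.R114

open Filter Topology Finset

noncomputable section

variable {𝕜 : Type} [RCLike 𝕜] {Ω : Type} [LinearOrder Ω] {c : Coding 𝕜 Ω}

lemma ro_l2row (h : NrmP c) (ι : Type) (s : Finset ι) (ρ : ι → Row 𝕜 Ω) (z : Ω →₀ 𝕜)
    (h1 : ∀ r ∈ s, (ρ r).OK c (WW c))
    (h2 : ∀ r ∈ s, ∀ r' ∈ s, r ≠ r' → Disjoint (ρ r).wts (ρ r').wts) :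
    ∑ r ∈ s, ‖pr (ρ r).seg z‖ ^ 2 ≤ nrm c z ^ 2 := by
  classical
  refine nr_opt c s (fun r => pr (ρ r).seg z) (h.nonneg z) fun lam hl hs => ?_
  rcases s.eq_empty_or_nonempty with rfl | ⟨r0, hr0⟩
  · simpa using h.nonneg z
  haveI : Nonempty ι := ⟨r0⟩
  obtain ⟨e, he⟩ : ∃ e : ι → ℕ, Set.InjOn e s :=
    Set.countable_iff_exists_injOn.1 s.countable_toSet
  let d : ℕ → ι := Function.invFunOn e s
  have hd : ∀ r ∈ s, d (e r) = r := fun r hr => he.leftInvOn_invFunOn hr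
  have hsum : ∀ {M : Type} [AddCommMonoid M] (F : ι → M),
      ∑ n ∈ s.image e, F (d n) = ∑ r ∈ s, F r := fun F => by
    rw [Finset.sum_image he]
    exact Finset.sum_congr rfl fun r hr => by rw [hd r hr]
  have ht : Two c (WW c) 0 (∑ r ∈ s, lam r • (ρ r).seg) := by
    refine ⟨s.image e, fun n => ρ (d n), fun n => lam (d n), fun n hn => ?_, ?_,
      fun n hn n' hn' hne => ?_, (hsum fun r => lam r • (ρ r).seg).symm⟩
    · obtain ⟨r, hr, rfl⟩ := Finset.mem_image.1 hn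
      simp only [hd r hr]
      exact ⟨h1 r hr, Nat.zero_le _, hl r⟩
    · exact (hsum fun r => ‖lam r‖ ^ 2).trans_le hs
    · obtain ⟨r, hr, rfl⟩ := Finset.mem_image.1 hn
      obtain ⟨r', hr', rfl⟩ := Finset.mem_image.1 hn'
      simp only [hd r hr, hd r' hr']
      exact h2 r hr r' hr' fun e' => hne (by rw [e'])
  refine le_trans (le_of_eq ?_) (h.pr_le _ z ht.W)
  congr 1
  rw [map_sum, LinearMap.sum_apply]
  exact Finset.sum_congr rfl fun r _ => by rw [map_smul, LinearMap.smul_apply, smul_eq_mul]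

lemma ro_terms (s : Finset ℕ) (ρ : ℕ → Row 𝕜 Ω) (z : ℕ → Ω →₀ 𝕜) (A : ℕ → ℝ) (B : ℝ)
    (h1 : ∀ r ∈ s, (ρ r).OK c (WW c))
    (h2 : ∀ r ∈ s, ∀ r' ∈ s, r ≠ r' → Disjoint (ρ r).wts (ρ r').wts)
    (hA : ∀ w, 0 ≤ A w) (hB : ∀ K, ∑ w ∈ range K, A w ≤ B)
    (h3 : ∀ r ∈ s, ∀ w ∈ (ρ r).wts, ∀ f, (w, f) ∈ WW c → ‖pr f (z w)‖ ≤ A w) :
    ∑ r ∈ s, ∑ l ∈ (ρ r).idx, ‖pr (restr (ρ r).E ((ρ r).τ l).2) (z ((ρ r).τ l).1)‖ ≤ B := by
  have hsub : (s.biUnion fun r => (ρ r).wts) ⊆ range ((s.sup fun r => (ρ r).hi)) := by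
    intro w hw
    obtain ⟨r, hr, hw⟩ := Finset.mem_biUnion.1 hw
    obtain ⟨l, hl, rfl⟩ := Finset.mem_image.1 hw
    exact Finset.mem_range.2
      ((Row.mem_idx.1 hl).2.2.trans_le (Finset.le_sup (f := fun r => (ρ r).hi) hr))
  refine le_trans ?_ ((Finset.sum_le_sum_of_subset_of_nonneg hsub fun w _ _ => hA w).trans (hB _))
  rw [← co_sum_wts s ρ h1 h2 A]
  refine Finset.sum_le_sum fun r hr => Finset.sum_le_sum fun l hl => ?_
  exact h3 r hr _ (Finset.mem_image_of_mem _ hl) _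
    (WW_restr ((h1 r hr).1.1 l (Row.mem_idx.1 hl).1) (h1 r hr).2)

lemma ro_decomp (g : Ω →₀ 𝕜) (hg : Two c (WW c) 0 g) (K : ℕ) :
    ∃ h, Two c (WW c) K h ∧ ∀ (z : Ω →₀ 𝕜) (C : ℝ), 0 ≤ C →
      (∀ w < K, ∀ f, (w, f) ∈ WW c → ‖pr f z‖ ≤ kap w * C) → ‖pr g z - pr h z‖ ≤ C / 8 := by
  obtain ⟨s, ρ, lam, h1, h2, h3, rfl⟩ := hg
  have hdis : ∀ (a b : ℕ → ℕ), ∀ r ∈ s, ∀ r' ∈ s, r ≠ r' →
      Disjoint ((ρ r).cut (a r) (b r)).wts ((ρ r').cut (a r') (b r')).wts :=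
    fun a b r hr r' hr' hne =>
      (h3 r hr r' hr' hne).mono (Row.wts_cut_subset _ _ _) (Row.wts_cut_subset _ _ _)
  refine ⟨∑ r ∈ s, lam r • ((ρ r).cut K (ρ r).hi).seg,
    ⟨s, fun r => (ρ r).cut K (ρ r).hi, lam,
      fun r hr => ⟨(h1 r hr).1.cut _ _, le_max_right _ _, (h1 r hr).2.2⟩, h2,
      hdis (fun _ => K) fun r => (ρ r).hi, rfl⟩, fun z C hC hz => ?_⟩
  have key := ro_terms (c := c) s (fun r => (ρ r).cut 0 K) (fun _ => z) (fun w => kap w * C) (C / 8)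
    (fun r hr => (h1 r hr).1.cut _ _) (hdis (fun _ => 0) fun _ => K)
    (fun w => mul_nonneg (kap_pos w).le hC)
    (fun K' => by
      rw [← Finset.sum_mul]
      have := mul_le_mul_of_nonneg_right (sum_kap_range K') hC
      linarith)
    (fun r _ w hw f hf => hz w (by
      obtain ⟨l, hl, rfl⟩ := Finset.mem_image.1 hw
      exact (Row.mem_idx.1 hl).2.2.trans_le (min_le_right _ _)) f hf)
  refine le_trans ?_ key
  rw [map_sum, map_sum, LinearMap.sum_apply, LinearMap.sum_apply, ← Finset.sum_sub_distrib]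
  refine (norm_sum_le _ _).trans (Finset.sum_le_sum fun r hr => ?_)
  rw [map_smul, map_smul, LinearMap.smul_apply, LinearMap.smul_apply, ← smul_sub, norm_smul]
  refine (mul_le_of_le_one_left (norm_nonneg _) (co_norm_le_one h2 hr)).trans ?_
  refine le_trans (le_of_eq ?_) (norm_sum_le _ _)
  congr 1
  rw [Row.pr_seg, Row.pr_seg, Row.idx_cut, Row.idx_cut, sub_eq_iff_eq_add,
    ← Finset.sum_filter_add_sum_filter_not (ρ r).idx fun l => ((ρ r).τ l).1 < K]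
  congr 1
  · exact Finset.sum_congr (Finset.filter_congr fun l _ => by simp) fun _ _ => rfl
  · refine Finset.sum_congr (Finset.filter_congr fun l hl => ?_) fun _ _ => rfl
    simp [(Row.mem_idx.1 hl).2.2]

theorem row_proof (c : Coding 𝕜 Ω) (h : NrmP c) : RowP c where
  l2row := ro_l2row h
  terms := ro_terms
  decomp := ro_decomp

end

end Crest.Agent.R114
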