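import Crest.Agent.R114.Tasks
import Crest.Agent.R114.Rec

set_option autoImplicit false

namespace Crest.Agent.R114

open Filter Topology Finset

theorem sel_proof : SelStmt := by
  intro U hU hle P hP N
  -- one step
  have step : ∀ (n : ℕ) (ι : ℕ → ℕ),
      (∀ a b, a < b → b < n → ∀ᶠ i' in U, ∀ᶠ i'' in U, P (ι a) (ι b) i' i'') →
      (∀ a b d, a < b → b < d → d < n → ∀ᶠ i'' in U, P (ι a) (ι b) (ι d) i'') →
      ∃ i, N ≤ i ∧ (∀ a < n, ι a < i) ∧ (∀ a < n, ∀ᶠ i' in U, ∀ᶠ i'' in U, P (ι a) i i' i'') ∧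
        (∀ a b, a < b → b < n → ∀ᶠ i'' in U, P (ι a) (ι b) i i'') ∧
        ∀ a b d, a < b → b < d → d < n → P (ι a) (ι b) (ι d) i := by
    intro n ι h2 h3
    have e0 : ∀ᶠ i in U, N ≤ i := hle (eventually_ge_atTop N)
    have e1 : ∀ᶠ i in U, ∀ a ∈ range n, ι a < i :=
      (eventually_all_finset _).2 fun a _ => hle (eventually_gt_atTop _)
    have e2 : ∀ᶠ i in U, ∀ a ∈ range n, ∀ᶠ i' in U, ∀ᶠ i'' in U, P (ι a) i i' i'' :=
      (eventually_all_finset _).2 fun a _ => hP _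
    have e3 : ∀ᶠ i in U, ∀ b ∈ range n, ∀ a ∈ range b, ∀ᶠ i'' in U, P (ι a) (ι b) i i'' :=
      (eventually_all_finset _).2 fun b hb => (eventually_all_finset _).2 fun a ha =>
        h2 a b (mem_range.1 ha) (mem_range.1 hb)
    have e4 : ∀ᶠ i in U, ∀ d ∈ range n, ∀ b ∈ range d, ∀ a ∈ range b, P (ι a) (ι b) (ι d) i :=
      (eventually_all_finset _).2 fun d hd => (eventually_all_finset _).2 fun b hb =>
        (eventually_all_finset _).2 fun a ha =>
          h3 a b d (mem_range.1 ha) (mem_range.1 hb) (mem_range.1 hd)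
    obtain ⟨i, h0, h1, h2', h3', h4⟩ := (e0.and (e1.and (e2.and (e3.and e4)))).exists
    exact ⟨i, h0, fun a ha => h1 a (mem_range.2 ha), fun a ha => h2' a (mem_range.2 ha),
      fun a b hab hb => h3' b (mem_range.2 hb) a (mem_range.2 hab),
      fun a b d hab hbd hd => h4 d (mem_range.2 hd) b (mem_range.2 hbd) a (mem_range.2 hab)⟩
  obtain ⟨ι, hι⟩ := exists_rec (fun n (ι : ℕ → ℕ) (i : ℕ) =>
      N ≤ i ∧ (∀ a < n, ι a < i) ∧ (∀ a < n, ∀ᶠ i' in U, ∀ᶠ i'' in U, P (ι a) i i' i'') ∧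
        (∀ a b, a < b → b < n → ∀ᶠ i'' in U, P (ι a) (ι b) i i'') ∧
        ∀ a b d, a < b → b < d → d < n → P (ι a) (ι b) (ι d) i)
    (by
      rintro n f g i hfg ⟨h0, h1, h2, h3, h4⟩
      refine ⟨h0, fun a ha => hfg a ha ▸ h1 a ha, fun a ha => hfg a ha ▸ h2 a ha,
        fun a b hab hb => ?_, fun a b d hab hbd hd => ?_⟩
      · rw [← hfg a (by omega), ← hfg b hb]; exact h3 a b hab hb
      · rw [← hfg a (by omega), ← hfg b (by omega), ← hfg d hd]; exact h4 a b d hab hbd hd)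
    fun n f hf => step n f (fun a b hab hb => (hf b hb).2.2.1 a hab)
      fun a b d hab hbd hd => (hf d hd).2.2.2.1 a b hab hbd
  exact ⟨ι, fun a b hab => (hι b).2.1 a hab, (hι 0).1,
    fun a b c d h1 h2 h3 => (hι d).2.2.2.2 a b c h1 h2 h3⟩

end Crest.Agent.R114
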