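import Crest.Agent.R114.Tasks

set_option autoImplicit false

namespace Crest.Agent.R114

open Filter Topology Finset

variable {𝕜 : Type} [RCLike 𝕜] {Ω : Type} [LinearOrder Ω]

theorem spl_proof : SplStmt 𝕜 Ω := by
  classical
  intro n g x I hg hx
  let R : ℕ → Finset ℕ := fun i =>
    (range n).filter fun r => ∃ α ∈ (g r).support, α ∈ (x i).support
  have hR : ∀ i r, r ∈ R i ↔ r < n ∧ ∃ α ∈ (g r).support, α ∈ (x i).support := by
    intro i r; simp only [R, mem_filter, mem_range]
  let S := I.filter fun i => ∃ r ∈ R i, ∃ r' ∈ R i, r < r'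
  let P : ℕ → Finset ℕ := fun r => I.filter fun i => R i = {r}
  refine ⟨S, P, filter_subset _ _, ?_, fun r => filter_subset _ _, ?_, fun r hr => ?_⟩
  · -- `i ↦ min (R i)` is injective on `S`
    have hm : ∀ i ∈ S, ∃ r ∈ R i, (∀ r' ∈ R i, r ≤ r') ∧ ∃ r' ∈ R i, r < r' := by
      intro i hi
      obtain ⟨-, r, h1, r', h2, h3⟩ := mem_filter.1 hi
      exact ⟨(R i).min' ⟨r, h1⟩, min'_mem _ _, fun a ha => min'_le _ _ ha, r', h2,
        (min'_le _ _ h1).trans_lt h3⟩
    choose! m hm1 hm2 hm3 using hm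
    have key : ∀ i ∈ S, ∀ j ∈ S, i < j → m i ≠ m j := by
      intro i hi j hj hij e
      obtain ⟨r', h1, h2⟩ := hm3 i hi
      obtain ⟨hr', α, ha1, ha2⟩ := (hR _ _).1 h1
      obtain ⟨-, β, hb1, hb2⟩ := (hR _ _).1 (hm1 j hj)
      have := hg (m i) r' h2 hr' β (e ▸ hb1) α ha1
      exact lt_asymm this (hx i (mem_filter.1 hi).1 j (mem_filter.1 hj).1 hij α ha2 β hb2)
    rw [← card_range n]
    refine card_le_card_of_injOn m (fun i hi => mem_range.2 ((hR _ _).1 (hm1 i hi)).1) ?_
    intro i hi j hj e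
    rcases lt_trichotomy i j with h | h | h
    · exact absurd e (key i hi j hj h)
    · exact h
    · exact absurd e.symm (key j hj i hi h)
  · rw [← card_biUnion]
    · exact card_le_card (biUnion_subset.2 fun r _ => filter_subset _ _)
    · intro r _ r' _ hne
      refine disjoint_left.2 fun i h1 h2 => hne ?_
      exact singleton_injective ((mem_filter.1 h1).2.symm.trans (mem_filter.1 h2).2)
  · rw [map_sum, map_sum, ← sum_union]
    · refine (sum_subset (union_subset (filter_subset _ _) (filter_subset _ _)) ?_).symm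
      intro i hi hni
      refine pr_eq_zero fun α h1 h2 => hni ?_
      have hri : r ∈ R i := (hR _ _).2 ⟨hr, α, h1, h2⟩
      by_cases e : R i = {r}
      · exact mem_union_left _ (mem_filter.2 ⟨hi, e⟩)
      · refine mem_union_right _ (mem_filter.2 ⟨hi, ?_⟩)
        obtain ⟨r', h3, h4⟩ : ∃ r' ∈ R i, r' ≠ r := by
          by_contra hc
          push Not at hc
          exact e (eq_singleton_iff_unique_mem.2 ⟨hri, hc⟩)
        rcases lt_or_gt_of_ne h4 with h | h
        · exact ⟨r', h3, r, hri, h⟩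
        · exact ⟨r, hri, r', h3, h⟩
    · refine disjoint_left.2 fun i h1 h2 => ?_
      obtain ⟨-, a, ha, b, hb, hab⟩ := mem_filter.1 h2
      rw [(mem_filter.1 h1).2, mem_singleton] at ha hb
      omega

end Crest.Agent.R114
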