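import Crest.Agent.R114.Tasks

/-! Row 114 part A, task TERM. -/

set_option autoImplicit false

namespace Crest.Agent.R114

open Filter Topology Finset

noncomputable section

variable {𝕜 : Type} [RCLike 𝕜] {Ω : Type} [LinearOrder Ω]

lemma term_seq {c : Coding 𝕜 Ω} (A : API c) {z : ℕ → Ω →₀ 𝕜} {δ : ℝ} (hz : Block z)
    (ha : Alpha c z δ) (N : ℕ) : ∃ x h : ℕ → Ω →₀ 𝕜, (∀ i, x i ∈ Tl z N) ∧
      (∀ i j, i < j → Lt (x i) (x j)) ∧ (∀ i, nrm c (x i) ≤ 1) ∧
      (∀ i, Two c (WW c) (gr h i) (h i)) ∧ (∀ i, Hull (h i) (x i)) ∧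
      ∀ i, δ < RCLike.re (pr (h i) (x i)) := by
  have hex : ∀ N J : ℕ, ∃ (x h : Ω →₀ 𝕜) (N' : ℕ), N ≤ N' ∧ x ∈ Tl z N ∧ nrm c x ≤ 1 ∧
      Two c (WW c) J h ∧ Hull h x ∧ δ < RCLike.re (pr h x) ∧ ∀ y' ∈ Tl z N', Lt x y' := by
    intro N J
    obtain ⟨x, h1, h, h2, h3, h4⟩ := ha N J
    obtain ⟨h', h5, h6, h7⟩ := A.nrm.rot J h x δ h3 h4
    obtain ⟨-, N', -, h8⟩ := hz.between h1
    exact ⟨x, h', max N N', le_max_left _ _, h1, h2, h5, h6, h7,
      fun y' hy' => h8 y' (Tl_anti z (le_max_right _ _) hy')⟩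
  choose X H Nx h1 h2 h3 h4 h5 h6 h7 using hex
  let S : ℕ → ℕ × ℕ := fun i => Nat.rec (N, 0)
    (fun i p => (Nx p.1 (i + p.2), p.2 + (H p.1 (i + p.2)).support.card)) i
  have hS1 : ∀ i, (S (i + 1)).1 = Nx (S i).1 (i + (S i).2) := fun i => rfl
  have hS2 : ∀ i, (S (i + 1)).2 = (S i).2 + (H (S i).1 (i + (S i).2)).support.card := fun i => rfl
  have hmono : Monotone fun i => (S i).1 := monotone_nat_of_le_succ fun i => by
    rw [hS1]; exact h1 _ _
  have hsum : ∀ i, (S i).2 = ∑ r ∈ range i, (H (S r).1 (r + (S r).2)).support.card := by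
    intro i
    induction i with
    | zero => rfl
    | succ i ih => rw [hS2, Finset.sum_range_succ, ← ih]
  refine ⟨fun i => X (S i).1 (i + (S i).2), fun i => H (S i).1 (i + (S i).2),
    fun i => Tl_anti z (hmono (Nat.zero_le i)) (h2 _ _), fun i j hij => h7 _ _ _ ?_,
    fun i => h3 _ _, fun i => ?_, fun i => h5 _ _, fun i => h6 _ _⟩
  · rw [← hS1]
    exact Tl_anti z (hmono hij) (h2 _ _)
  · have : gr (fun i => H (S i).1 (i + (S i).2)) i = i + (S i).2 := by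
      unfold gr; rw [← hsum]
    rw [this]
    exact h4 _ _

theorem term_proof (c : Coding 𝕜 Ω) (A : API c) : TermStmt c := by
  classical
  intro z δ hz hδ ha N J n
  set n' := max n (nn J) with hn'
  obtain ⟨b, hb1, hb2, hb3⟩ := A.num.g3 n'
  have hb0 : 0 < b := by linarith
  set M : ℝ := (n' : ℝ) ^ 2 + 2 with hM
  obtain ⟨j, hj⟩ := (A.num.g1 b (M / δ) hb2).exists
  have hk := kap_pos j
  have hp : (0 : ℝ) < nn j := by exact_mod_cast nn_pos j
  have hj' : M ≤ δ * kap j * (nn j : ℝ) ^ (1 - b) := by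
    rw [div_le_iff₀ hδ] at hj
    have h1 : kap j ^ 2 ≤ kap j := by have := kap_le j; nlinarith
    have h2 : 0 ≤ (nn j : ℝ) ^ (1 - b) * δ := by positivity
    nlinarith
  obtain ⟨x, h, hx1, hx2, hx3, hh1, hh2, hh3⟩ := term_seq A hz ha N
  have hlow : kap j * (nn j * δ) ≤ nrm c (∑ i ∈ range (nn j), x i) := by
    have h1 := W_of_WW (WW_typeA (c := c) (j := j) (g := h)
      (fun r r' hr _ => (hx2 r r' hr).hull (hh2 r) (hh2 r')) fun r _ => hh1 r)
    refine le_trans ?_ ((RCLike.re_le_norm _).trans (A.nrm.pr_le _ _ h1))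
    have h2 : pr (((kap j : ℝ) : 𝕜) • ∑ r ∈ range (nn j), h r) (∑ i ∈ range (nn j), x i) =
        ((kap j : ℝ) : 𝕜) * ∑ r ∈ range (nn j), pr (h r) (x r) := by
      rw [map_smul, LinearMap.smul_apply, smul_eq_mul, map_sum pr, LinearMap.sum_apply]
      congr 1
      refine Finset.sum_congr rfl fun r hr => ?_
      rw [map_sum]
      refine Finset.sum_eq_single_of_mem r hr fun i _ hi => ?_
      rcases lt_or_gt_of_ne hi with h3 | h3
      · exact ((hx2 i r h3).hull (Hull.refl _) (hh2 r)).pr_eq_zero'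
      · exact ((hx2 r i h3).hull (hh2 r) (Hull.refl _)).pr_eq_zero
    rw [h2, RCLike.re_ofReal_mul, map_sum]
    refine mul_le_mul_of_nonneg_left ?_ hk.le
    calc (nn j : ℝ) * δ = ∑ _r ∈ range (nn j), δ := by simp
      _ ≤ _ := Finset.sum_le_sum fun r _ => (hh3 r).le
  have hne : (range (nn j)).Nonempty := ⟨0, Finset.mem_range.2 (nn_pos j)⟩
  obtain ⟨I0, hI0, hmax⟩ := Finset.exists_max_image
    ((range (nn j)).powerset.filter Finset.Nonempty)
    (fun I => nrm c (∑ i ∈ I, x i) / (I.card : ℝ) ^ b)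
    ⟨range (nn j), Finset.mem_filter.2 ⟨Finset.mem_powerset_self _, hne⟩⟩
  rw [Finset.mem_filter, Finset.mem_powerset] at hI0
  set y0 := ∑ i ∈ I0, x i with hy0
  set P := nrm c y0 with hP
  set R := P / (I0.card : ℝ) ^ b with hR
  have hc1 : (1 : ℝ) ≤ I0.card := by exact_mod_cast hI0.2.card_pos
  have hc2 : (1 : ℝ) ≤ (I0.card : ℝ) ^ b := Real.one_le_rpow hc1 hb0.le
  have hPR : P = R * (I0.card : ℝ) ^ b := by rw [hR]; field_simp
  have hRM : M ≤ R := by
    refine hj'.trans (le_trans ?_ (hmax _ (Finset.mem_filter.2 ⟨Finset.mem_powerset_self _, hne⟩)))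
    rw [Finset.card_range, le_div_iff₀ (by positivity), mul_assoc, ← Real.rpow_add hp,
      sub_add_cancel, Real.rpow_one]
    linarith
  have hM2 : (2 : ℝ) ≤ M := by rw [hM]; nlinarith [sq_nonneg (n' : ℝ)]
  have hR0 : 0 ≤ R := by linarith
  have hPM : M ≤ P := by rw [hPR]; nlinarith
  have hall : ∀ I ⊆ range (nn j), nrm c (∑ i ∈ I, x i) ≤ R * (I.card : ℝ) ^ b := by
    intro I hI
    rcases I.eq_empty_or_nonempty with rfl | hIn
    · have h1 := A.nrm.smul (0 : 𝕜) 0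
      simp only [zero_smul, norm_zero, zero_mul] at h1
      rw [Finset.sum_empty, h1]
      exact mul_nonneg hR0 (Real.rpow_nonneg (Nat.cast_nonneg _) _)
    · have h1 := hmax I (Finset.mem_filter.2 ⟨Finset.mem_powerset.2 hI, hIn⟩)
      have h2 : (0 : ℝ) < I.card := by exact_mod_cast hIn.card_pos
      rwa [div_le_iff₀ (Real.rpow_pos_of_pos h2 _)] at h1
  have havg : Avg c n' (3 * P) y0 := by
    intro g hg1 hg2
    obtain ⟨S, Pr, s1, s2, s3, s4, s5⟩ := A.spl n' g x I0 hg1 fun i _ i' _ hi => hx2 i i' hi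
    have h1 : ∀ r ∈ range n', ‖pr (g r) y0‖ ≤ R * ((Pr r).card : ℝ) ^ b + n' := by
      intro r hr
      have hr' := Finset.mem_range.1 hr
      rw [hy0, s5 r hr']
      refine (norm_add_le _ _).trans (add_le_add
        ((A.nrm.pr_le _ _ (hg2 r hr')).trans (hall _ ((s3 r).trans hI0.1))) ?_)
      calc _ ≤ ∑ i ∈ S, ‖pr (g r) (x i)‖ := norm_sum_le _ _
        _ ≤ ∑ _i ∈ S, (1 : ℝ) := Finset.sum_le_sum fun i _ =>
          (A.nrm.pr_le _ _ (hg2 r hr')).trans (hx3 i)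
        _ = S.card := by simp
        _ ≤ n' := by exact_mod_cast s2
    refine (Finset.sum_le_sum h1).trans ?_
    rw [Finset.sum_add_distrib, ← Finset.mul_sum]
    have h2 := A.num.rpow b hb0 hb2.le n' I0.card (fun r => (Pr r).card) s4
    have h3 : (n' : ℝ) ^ (1 - b) * (I0.card : ℝ) ^ b ≤ 2 * (I0.card : ℝ) ^ b :=
      mul_le_mul_of_nonneg_right hb3 (by linarith)
    have h4 := mul_le_mul_of_nonneg_left (h2.trans h3) hR0
    simp only [Finset.sum_const, Finset.card_range, nsmul_eq_mul]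
    nlinarith
  have hcoord : ∀ α, ‖y0 α‖ ≤ 1 := by
    intro α
    rw [hy0, Finsupp.finsetSum_apply]
    by_cases h1 : ∃ i ∈ I0, α ∈ (x i).support
    · obtain ⟨i, hi, hα⟩ := h1
      rw [Finset.sum_eq_single_of_mem i hi fun i' _ hi' => ?_]
      · exact (A.nrm.coord _ _).trans (hx3 i)
      · by_contra h2
        have h3 := Finsupp.mem_support_iff.2 h2
        rcases lt_or_gt_of_ne hi' with h4 | h4
        · exact lt_irrefl _ (hx2 _ _ h4 α h3 α hα)
        · exact lt_irrefl _ (hx2 _ _ h4 α hα α h3)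
    · push Not at h1
      rw [Finset.sum_eq_zero fun i hi => Finsupp.notMem_support_iff.1 (h1 i hi)]
      simp
  have hP0 : 0 < P := by linarith
  obtain ⟨g, hg, -, hg2⟩ := A.nrm.normer y0 (7 / 8 * P) (by linarith)
  have hg3 := hg2.trans_le (RCLike.re_le_norm _)
  rcases hg with ⟨α, lam, -, l2', rfl⟩ | hg
  · rw [pr_single, norm_mul] at hg3
    have := mul_le_mul l2' (hcoord α) (norm_nonneg _) zero_le_one
    linarith
  obtain ⟨h', t1, t2⟩ := A.row.decomp g hg J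
  have t3 := t2 y0 (3 * P) (by linarith) fun w hw f hf =>
    havg.ww hf ((nn_mono hw.le).trans (le_max_right _ _))
  have t4 := norm_sub_norm_le (pr g y0) (pr h' y0)
  have hsc : ∀ f : Ω →₀ 𝕜, ‖pr f (((2 / P : ℝ) : 𝕜) • y0)‖ = 2 / P * ‖pr f y0‖ := fun f => by
    rw [map_smul, norm_smul, RCLike.norm_ofReal, abs_of_pos (by positivity)]
  obtain ⟨h'', u1, u2, u3⟩ := A.nrm.rot J h' (((2 / P : ℝ) : 𝕜) • y0) 1 t1 (by
    rw [hsc, div_mul_eq_mul_div, lt_div_iff₀ hP0]; linarith)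
  refine ⟨((2 / P : ℝ) : 𝕜) • y0, Submodule.smul_mem _ _ (Submodule.sum_mem _ fun i _ => hx1 i),
    h'', fun g hg1 hg2 => ?_, u1, u2, u3⟩
  have v1 := havg.mono (le_max_left _ _) g hg1 hg2
  simp_rw [hsc]
  rw [← Finset.mul_sum, div_mul_eq_mul_div, div_le_iff₀ hP0]
  linarith

end

end Crest.Agent.R114
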