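import Crest.Agent.R114.Tasks

/-! Row 114 part A, task TRI. -/

set_option autoImplicit false

namespace Crest.Agent.R114

open Filter Topology Finset

noncomputable section

variable {𝕜 : Type} [RCLike 𝕜] {Ω : Type} [LinearOrder Ω]

lemma tri_le {c : Coding 𝕜 Ω} {A : Set (ℕ × (Ω →₀ 𝕜))} {τ L} (hs : Sp c A τ L) {l l' : ℕ}
    (h : l ≤ l') (h' : l' < L) : (τ l).1 ≤ (τ l').1 := by
  rcases h.eq_or_lt with rfl | h
  · exact le_rfl
  · exact (hs.lt h h').le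

omit [LinearOrder Ω] in
lemma tri_win (y : ℕ → Ω →₀ 𝕜) (J : ℕ → ℕ) (ρ : Row 𝕜 Ω) (j : ℕ) (h : win y J ρ j ≠ 0) :
    ∃ l, l < ρ.L ∧ ρ.lo ≤ (ρ.τ l).1 ∧ (ρ.τ l).1 < ρ.hi ∧ J j ≤ (ρ.τ l).1 ∧ (ρ.τ l).1 < J (j + 1) ∧
      ∃ β ∈ (y j).support, β ∈ ρ.E ∧ β ∈ (ρ.τ l).2.support := by
  unfold win at h
  rw [Row.pr_seg] at h
  obtain ⟨l, hl, hne⟩ := Finset.exists_ne_zero_of_sum_ne_zero h
  rw [Row.idx_cut, Finset.mem_filter, Row.mem_idx] at hl
  refine ⟨l, hl.1.1, hl.1.2.1, hl.1.2.2, hl.2.1, hl.2.2, ?_⟩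
  by_contra h2
  push Not at h2
  refine hne (pr_eq_zero fun α hα hα' => ?_)
  have h3 := mem_support_restr.1 hα
  exact h2 α hα' h3.2 h3.1

theorem tri_proof (c : Coding 𝕜 Ω) (A : API c) (hA : TriAStmt c) (hB : TriBStmt c)
    (hC : TriCStmt c) : TriStmt c := by
  intro z y J h hz hR hcon U hU ε hε s
  by_contra hno
  have h0 : ∀ᶠ i in U, ∀ᶠ i' in U, ∀ᶠ i'' in U, ¬ NoBig c y J ε s i i' i'' := by
    refine (Ultrafilter.eventually_not.2 hno).mono fun i hi => ?_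
    refine (Ultrafilter.eventually_not.2 hi).mono fun i' hi' => ?_
    exact Ultrafilter.eventually_not.2 hi'
  obtain ⟨Q, hQ⟩ := hA 6 ε hε
  have hn : ∀ k, nrm c (y k) ≤ 6 := fun k => A.nrm.le_of _ _ fun g hg =>
    (hR.avg k).norm_pr_le (nn_pos _) hg
  choose v hv using fun k => hQ (y k) (J k) (J (k + 1)) (hn k)
  set Φ : ℕ → (ℕ → ℕ × (Ω →₀ 𝕜)) → ℕ → Prop := fun i τ L =>
    ε < ‖∑ l ∈ (range L).filter fun l => J i ≤ (τ l).1 ∧ (τ l).1 < J (i + 1), pr (τ l).2 (y i)‖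
    with hΦ
  have key : ∀ i i' i'', s < i → i < i' → i' < i'' → ¬ NoBig c y J ε s i i' i'' →
      ∃ q, Good c Φ (fun k => (y k).support) J (fun k => v k q) i i' i'' := by
    intro i i' i'' h1 h2 h3 hN
    unfold NoBig at hN
    push Not at hN
    obtain ⟨ρ, hρ, w1, w2, w3, w4⟩ := hN
    have w5 : win y J ρ i'' ≠ 0 := fun h => by
      rw [h, norm_zero] at w4; exact lt_irrefl _ (w4.trans hε)
    obtain ⟨ls, -, s1, -, -, s2, βs, s3, s4, -⟩ := tri_win y J ρ s w1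
    obtain ⟨a0, a1, -, -, a2, a3, β', a4, -, a5⟩ := tri_win y J ρ i' w3
    obtain ⟨l2', t1, -, t2, t3, -, β2, t4, t5, -⟩ := tri_win y J ρ i'' w5
    have j1 : J (s + 1) ≤ J i := hR.mono.monotone h1
    have j2 : J (i + 1) ≤ J i'' := hR.mono.monotone (by omega)
    have j3 : J (i' + 1) ≤ J i'' := hR.mono.monotone h3
    have hE : restr ρ.E (y i) = y i := restr_eq_self fun α hα =>
      hρ.2.out s4 t5 ⟨(hR.block.1 s i h1 βs s3 α hα).le,
        (hR.block.1 i i'' (h2.trans h3) α hα β2 t4).le⟩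
    have hw : win y J ρ i = ∑ l ∈ (range ρ.L).filter fun l => J i ≤ (ρ.τ l).1 ∧
        (ρ.τ l).1 < J (i + 1), pr (ρ.τ l).2 (y i) := by
      unfold win
      rw [Row.pr_seg]
      refine Finset.sum_congr ?_ fun l _ => ?_
      · ext l
        rw [Row.idx_cut, Finset.mem_filter, Row.mem_idx, Finset.mem_filter, Finset.mem_range]
        constructor
        · exact fun h => ⟨h.1.1, h.2⟩
        · exact fun h => ⟨⟨h.1, by omega, by omega⟩, h.2⟩
      · show pr (restr ρ.E (ρ.τ l).2) (y i) = _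
        rw [pr_restr, hE]
    have hex : ∃ l, J i'' ≤ (ρ.τ l).1 := ⟨l2', t3⟩
    have b1 : Nat.find hex ≤ l2' := Nat.find_min' hex t3
    have b2 := Nat.find_spec hex
    have b3 : a0 < Nat.find hex := by
      by_contra h4
      have := tri_le hρ.1 (not_lt.1 h4) a1
      omega
    obtain ⟨l0, hl0⟩ : ∃ l0, Nat.find hex = l0 + 1 := ⟨Nat.find hex - 1, by omega⟩
    have b4 : ¬ J i'' ≤ (ρ.τ l0).1 := Nat.find_min hex (by omega)
    rw [hl0] at b1 b2 b3
    obtain ⟨q, hq⟩ := hv i'' ρ l0 hρ (by omega) (not_le.1 b4) b2 w4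
    refine ⟨q, ρ.τ, ρ.L, a0, l0 + 1, hρ.1, ?_, b3, by omega, a2, a3, ⟨β', a4, a5⟩, hq⟩
    rw [hw] at w2
    exact w2
  have h1 : ∀ᶠ i in U, ∀ᶠ i' in U, ∀ᶠ i'' in U,
      ∃ q, Good c Φ (fun k => (y k).support) J (fun k => v k q) i i' i'' := by
    filter_upwards [h0, hU (eventually_gt_atTop s)] with i hi hsi
    filter_upwards [hi, hU (eventually_gt_atTop i)] with i' hi' hii
    filter_upwards [hi', hU (eventually_gt_atTop i')] with i'' hi'' hii'
    exact key i i' i'' hsi hii hii' hi''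
  have h2 : ∃ q, ∀ᶠ i in U, ∀ᶠ i' in U, ∀ᶠ i'' in U,
      Good c Φ (fun k => (y k).support) J (fun k => v k q) i i' i'' := by
    rw [← Ultrafilter.eventually_exists_iff]
    refine h1.mono fun i hi => ?_
    rw [← Ultrafilter.eventually_exists_iff]
    refine hi.mono fun i' hi' => ?_
    rw [← Ultrafilter.eventually_exists_iff]
    exact hi'
  obtain ⟨q, hq⟩ := h2
  obtain ⟨σ, hσ, h3⟩ := hB U hU Φ _ J _ hR.mono hq
  refine hcon (hC z y J h hz hR σ ε hε hσ ((h3.mono fun i hi => ?_).frequently.filter_mono hU))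
  obtain ⟨τ, L, a0, c1, c2, c3, c4, c5, c6⟩ := hi
  refine ⟨a0, c6, lt_of_lt_of_eq c2 (congrArg norm (Finset.sum_congr ?_ fun l hl => ?_))⟩
  · ext l
    simp only [Finset.mem_filter, Finset.mem_range]
    constructor
    · rintro ⟨d1, d2, d3⟩
      have d4 : l < a0 := by
        by_contra d5
        have := tri_le c1 (not_lt.1 d5) d1
        omega
      rw [← c4 l d4]
      exact ⟨d4, d2, d3⟩
    · rintro ⟨d1, d2, d3⟩
      rw [c4 l d1]
      exact ⟨by omega, d2, d3⟩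
  · rw [c4 l (Finset.mem_range.1 (Finset.mem_filter.1 hl).1)]

end

end Crest.Agent.R114
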