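import Crest.Agent.R114.Tasks

/-! Row 114 part A, task TRIA. -/

set_option autoImplicit false

namespace Crest.Agent.R114

open Filter Topology Finset

noncomputable section

variable {𝕜 : Type} [RCLike 𝕜] {Ω : Type} [LinearOrder Ω]

lemma tria_le {c : Coding 𝕜 Ω} {A : Set (ℕ × (Ω →₀ 𝕜))} {τ L} (hs : Sp c A τ L) {l l' : ℕ}
    (h : l ≤ l') (h' : l' < L) : (τ l).1 ≤ (τ l').1 := by
  rcases h.eq_or_lt with rfl | h
  · exact le_rfl
  · exact (hs.lt h h').le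

lemma tria_enum (s : Finset ℕ) (Q : ℕ) (h : s.card ≤ Q) :
    ∃ v : Fin Q → ℕ, ∀ x ∈ s, ∃ q, x = v q := by
  refine ⟨fun q => s.toList.getD q 0, fun x hx => ?_⟩
  obtain ⟨i, hi, rfl⟩ := List.getElem_of_mem (Finset.mem_toList.2 hx)
  have hi' : i < Q := by rw [Finset.length_toList] at hi; omega
  exact ⟨⟨i, hi'⟩, (List.getD_eq_getElem _ _ hi).symm⟩

theorem triA_proof (c : Coding 𝕜 Ω) (A : API c) : TriAStmt c := by
  intro C ε hε
  refine ⟨⌈C ^ 2 / ε ^ 2⌉₊, fun y a b hy => ?_⟩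
  set V0 : Set ℕ := {v | ∃ (ρ : Row 𝕜 Ω) (l0 : ℕ), ρ.OK c (WW c) ∧ l0 + 1 < ρ.L ∧
    (ρ.τ l0).1 < a ∧ a ≤ (ρ.τ (l0 + 1)).1 ∧ ε < ‖pr (ρ.cut a b).seg y‖ ∧ (ρ.τ (l0 + 1)).1 = v}
    with hV0
  have hcard : ∀ T : Finset ℕ, (T : Set ℕ) ⊆ V0 → T.card ≤ ⌈C ^ 2 / ε ^ 2⌉₊ := by
    intro T hT
    haveI : Nonempty (Row 𝕜 Ω) := ⟨⟨fun _ => (0, 0), 0, 0, 0, ∅⟩⟩
    have hT' : ∀ v, v ∈ T → ∃ (ρ : Row 𝕜 Ω) (l0 : ℕ), ρ.OK c (WW c) ∧ l0 + 1 < ρ.L ∧
        (ρ.τ l0).1 < a ∧ a ≤ (ρ.τ (l0 + 1)).1 ∧ ε < ‖pr (ρ.cut a b).seg y‖ ∧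
        (ρ.τ (l0 + 1)).1 = v := fun v hv => hT hv
    choose! ρ l0 h1 h2 h3 h4 h5 h6 using hT'
    have hge : ∀ v ∈ T, ∀ l ∈ ((ρ v).cut a b).idx, l0 v + 1 ≤ l ∧ l < (ρ v).L := by
      intro v hv l hl
      rw [Row.idx_cut, Finset.mem_filter, Row.mem_idx] at hl
      refine ⟨?_, hl.1.1⟩
      by_contra hlt
      have h7 := tria_le (h1 v hv).1 (show l ≤ l0 v by omega) (by have := h2 v hv; omega)
      have := h3 v hv
      omega
    have h7 := A.row.l2row ℕ T (fun v => (ρ v).cut a b) y (fun v hv => (h1 v hv).cut a b)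
      fun v hv v' hv' hne => by
        rw [Finset.disjoint_left]
        intro w hw hw'
        obtain ⟨l, hl, e⟩ := Finset.mem_image.1 hw
        obtain ⟨l', hl', e'⟩ := Finset.mem_image.1 hw'
        obtain ⟨g1, g2⟩ := hge v hv l hl
        obtain ⟨g1', g2'⟩ := hge v' hv' l' hl'
        have e1 : ((ρ v).τ l).1 = ((ρ v').τ l').1 := e.trans e'.symm
        have e2 : c.code l (ρ v).τ = c.code l' (ρ v').τ := by
          rw [← (h1 v hv).1.2.2 l (by omega) g2, ← (h1 v' hv').1.2.2 l' (by omega) g2', e1]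
        obtain ⟨rfl, e3⟩ := c.c2 _ _ _ _ e2
        have e4 : ∀ k ≤ l, ((ρ v).τ k).1 = ((ρ v').τ k).1 := fun k hk => by
          rcases hk.eq_or_lt with rfl | hk
          · exact e1
          · exact e3 k hk
        have e5 : l0 v = l0 v' := by
          rcases lt_trichotomy (l0 v) (l0 v') with h | h | h
          · have i1 := tria_le (h1 v' hv').1 (show l0 v + 1 ≤ l0 v' by omega) (by omega)
            have i2 := e4 _ g1
            have := h4 v hv; have := h3 v' hv'; omega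
          · exact h
          · have i1 := tria_le (h1 v hv).1 (show l0 v' + 1 ≤ l0 v by omega) (by omega)
            have i2 := e4 _ g1'
            have := h4 v' hv'; have := h3 v hv; omega
        apply hne
        rw [← h6 v hv, ← h6 v' hv', ← e5]
        exact e4 _ g1
    have h8 : (T.card : ℝ) * ε ^ 2 ≤ C ^ 2 := by
      calc (T.card : ℝ) * ε ^ 2 = ∑ _v ∈ T, ε ^ 2 := by simp
        _ ≤ ∑ v ∈ T, ‖pr ((ρ v).cut a b).seg y‖ ^ 2 := Finset.sum_le_sum fun v hv => by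
          have := (h5 v hv).le; gcongr
        _ ≤ nrm c y ^ 2 := h7
        _ ≤ C ^ 2 := by have := A.nrm.nonneg y; gcongr
    have h9 : (T.card : ℝ) ≤ ⌈C ^ 2 / ε ^ 2⌉₊ :=
      le_trans ((le_div_iff₀ (by positivity)).2 h8) (Nat.le_ceil _)
    exact_mod_cast h9
  have hfin : V0.Finite := by
    by_contra hinf
    obtain ⟨T, hT, hc⟩ := Set.Infinite.exists_subset_card_eq hinf (⌈C ^ 2 / ε ^ 2⌉₊ + 1)
    have := hcard T hT
    omega
  obtain ⟨v, hv⟩ := tria_enum hfin.toFinset _ (hcard _ (by simp))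
  exact ⟨v, fun ρ l0 h1 h2 h3 h4 h5 => hv _ (hfin.mem_toFinset.2 ⟨ρ, l0, h1, h2, h3, h4, h5, rfl⟩)⟩

end

end Crest.Agent.R114
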