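import Crest.Agent.R114.Tasks

set_option autoImplicit false

namespace Crest.Agent.R114

open Filter Topology Finset

variable {𝕜 : Type} [RCLike 𝕜] {Ω : Type} [LinearOrder Ω]

lemma Sp.le' {c : Coding 𝕜 Ω} {A : Set (ℕ × (Ω →₀ 𝕜))} {τ L} (hs : Sp c A τ L) {l l' : ℕ}
    (h : l ≤ l') (h' : l' < L) : (τ l).1 ≤ (τ l').1 := by
  rcases h.eq_or_lt with rfl | h
  · exact le_rfl
  · exact (hs.lt h h').le

theorem trib_proof (c : Coding 𝕜 Ω) (hC : CostP c) : TriBStmt c := by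
  intro U hU Φ B J v hJ hG
  -- the level and the weights are determined by `v i''`
  have hAω : ∀ k, ∃ (A : ℕ) (ω : ℕ → ℕ), ∀ τ L a, Sp c (WW c) τ L → 0 < a → a < L →
      (τ a).1 = v k → a = A ∧ ∀ b ≤ a, (τ b).1 = ω b := by
    intro k
    by_cases h : ∃ τ L a, Sp c (WW c) τ L ∧ 0 < a ∧ a < L ∧ (τ a).1 = v k
    · obtain ⟨τ0, L0, a0, h1, h2, h3, h4⟩ := h
      refine ⟨a0, fun b => (τ0 b).1, fun τ L a g1 g2 g3 g4 => ?_⟩
      have e : c.code a τ = c.code a0 τ0 := by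
        rw [← g1.2.2 a g2 g3, ← h1.2.2 a0 h2 h3, g4, h4]
      obtain ⟨rfl, e2⟩ := c.c2 _ _ _ _ e
      refine ⟨rfl, fun b hb => ?_⟩
      rcases hb.eq_or_lt with rfl | hb
      · exact g4.trans h4.symm
      · exact e2 b hb
    · exact ⟨0, fun _ => 0, fun τ L a g1 g2 g3 g4 => absurd ⟨τ, L, a, g1, g2, g3, g4⟩ h⟩
  choose A ω hAω using hAω
  let G : ℕ → ℕ → ℕ → (ℕ → ℕ × (Ω →₀ 𝕜)) → ℕ → ℕ → Ω → Prop := fun i i' k τ L a0 β =>
    Sp c (WW c) τ L ∧ Φ i τ L ∧ a0 < A k ∧ A k < L ∧ J i' ≤ (τ a0).1 ∧ (τ a0).1 < J (i' + 1) ∧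
      β ∈ B i' ∧ β ∈ (τ a0).2.support ∧ c.code (A k) τ = v k ∧ ∀ b ≤ A k, (τ b).1 = ω k b
  let gp : ℕ → ℕ → Prop := fun i i' => ∀ᶠ k in U, ∃ τ L a0 β, G i i' k τ L a0 β
  have hgp : ∀ᶠ i in U, ∀ᶠ i' in U, gp i i' := by
    refine hG.mono fun i hi => hi.mono fun i' hi' => hi'.mono ?_
    rintro k ⟨τ, L, a0, a, h1, h2, h3, h4, h5, h6, ⟨β, h7, h8⟩, h9⟩
    obtain ⟨rfl, e⟩ := hAω k τ L a h1 (by omega) h4 h9
    exact ⟨τ, L, a0, β, h1, h2, h3, h4, h5, h6, h7, h8,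
      (h1.2.2 _ (by omega) h4).symm.trans h9, e⟩
  have hJt : ∀ M, ∀ᶠ i' in U, M < J i' := fun M =>
    hU (hJ.tendsto_atTop.eventually (eventually_gt_atTop M))
  have large : ∀ M, ∃ i i', gp i i' ∧ M < J i' := fun M => by
    obtain ⟨i, hi⟩ := hgp.exists
    obtain ⟨i', h⟩ := (hi.and (hJt M)).exists
    exact ⟨i, i', h⟩
  -- (W)
  have hW : ∀ b, ∃ m, ∀ᶠ k in U, b < A k ∧ ω k b = m := by
    intro b
    induction b using Nat.strong_induction_on with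
    | _ b ih =>
      choose! m hm using ih
      have e1 : ∀ᶠ k in U, ∀ b' ∈ range b, ω k b' = m b' :=
        (eventually_all_finset _).2 fun b' hb' => (hm b' (mem_range.1 hb')).mono fun _ h => h.2
      obtain ⟨i, i', hg, hM⟩ := large ((range b).sup m)
      have e2 : ∀ᶠ k in U, ∃ x ∈ (Set.Iio (J (i' + 1))), b < A k ∧ ω k b = x := by
        filter_upwards [e1, hg] with k h1 ⟨τ, L, a0, β, g1, _, g3, g4, g5, g6, _, _, _, g10⟩
        have hb : b ≤ a0 := by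
          by_contra hlt
          have h2 := h1 a0 (mem_range.2 (by omega))
          have h3 := le_sup (f := m) (mem_range.2 (show a0 < b by omega))
          have h4 := g10 a0 g3.le
          omega
        refine ⟨_, ?_, by omega, rfl⟩
        rw [← g10 b (by omega)]
        exact (g1.le' hb (by omega)).trans_lt g6
      obtain ⟨x, -, hx⟩ := (Ultrafilter.eventually_exists_mem_iff (Set.finite_Iio _)).1 e2
      exact ⟨x, hx⟩
  choose cw hcw using hW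
  have hall : ∀ n, ∀ᶠ k in U, ∀ b ∈ range n, b < A k ∧ ω k b = cw b := fun n =>
    (eventually_all_finset _).2 fun b _ => hcw b
  have cmono : Monotone cw := by
    intro b b' hb
    obtain ⟨i, i', hg, -⟩ := large 0
    obtain ⟨k, ⟨τ, L, a0, β, g1, _, g3, g4, g5, g6, _, _, _, g10⟩, h1, h2⟩ :=
      (hg.and ((hcw b).and (hcw b'))).exists
    rw [← h1.2, ← h2.2, ← g10 b h1.1.le, ← g10 b' h2.1.le]
    exact g1.le' hb (by omega)
  -- (E)
  have hE : ∀ i i', gp i i' → ∃ (a0 : ℕ) (σ : ℕ → Ω →₀ 𝕜), J i' ≤ cw a0 ∧ ∀ᶠ k in U, ∃ τ L,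
      Sp c (WW c) τ L ∧ Φ i τ L ∧ a0 < A k ∧ A k < L ∧ c.code (A k) τ = v k ∧
      (∀ b < a0, τ b = (cw b, σ b)) ∧ (τ a0).1 = cw a0 := by
    intro i i' hg
    have e1 : ∀ᶠ k in U, ∃ x ∈ (Set.Iio (J (i' + 1))) ×ˢ (B i' : Set Ω),
        ∃ τ L, G i i' k τ L x.1 x.2 := by
      filter_upwards [hg] with k ⟨τ, L, a0, β, g⟩
      exact ⟨(a0, β), ⟨(g.1.le_wt (g.2.2.1.trans g.2.2.2.1)).trans_lt g.2.2.2.2.2.1,
        g.2.2.2.2.2.2.1⟩, τ, L, g⟩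
    obtain ⟨⟨a0, β⟩, -, e2⟩ := (Ultrafilter.eventually_exists_mem_iff
      ((Set.finite_Iio _).prod (B i').finite_toSet)).1 e1
    have hfin := Set.Finite.pi' (fun b : Fin a0 => c.c3 a0 b (cw (a0 + 1)) β b.2)
    have e3 : ∀ᶠ k in U, ∃ x ∈ {f : Fin a0 → Ω →₀ 𝕜 | ∀ b : Fin a0, f b ∈
        {f | ∃ τ : ℕ → ℕ × (Ω →₀ 𝕜), (∀ α, (τ b).2 α ∈ c.R0) ∧ Lt (τ b).2 (τ a0).2 ∧
          c.code (a0 + 1) τ = cw (a0 + 1) ∧ β ∈ (τ a0).2.support ∧ (τ b).2 = f}},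
        ∃ τ L, G i i' k τ L a0 β ∧ (∀ b ≤ a0, (τ b).1 = cw b) ∧ ∀ b : Fin a0, (τ b).2 = x b := by
      filter_upwards [e2, hall (a0 + 2)] with k ⟨τ, L, (g : G i i' k τ L a0 β)⟩ h1
      obtain ⟨g1, g2, g3, g4, g5, g6, g7, g8, g9, g10⟩ := id g
      refine ⟨fun b => (τ b).2, fun b => ⟨τ, hC.ww_val _ _ (g1.1 b (by omega)),
        g1.2.1 b a0 b.2 (by omega), ?_, g8, rfl⟩, τ, L, g, fun b hb => ?_, fun _ => rfl⟩
      · rw [← g1.2.2 _ (Nat.succ_pos _) (by omega), g10 _ (by omega),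
          (h1 _ (mem_range.2 (by omega))).2]
      · rw [g10 b (by omega), (h1 _ (mem_range.2 (by omega))).2]
    obtain ⟨x, -, e4⟩ := (Ultrafilter.eventually_exists_mem_iff hfin).1 e3
    refine ⟨a0, fun b => if h : b < a0 then x ⟨b, h⟩ else 0, ?_, ?_⟩
    · obtain ⟨k, τ, L, g, h1, -⟩ := e4.exists
      rw [← h1 a0 le_rfl]; exact g.2.2.2.2.1
    · filter_upwards [e4] with k ⟨τ, L, g, h1, h2⟩
      refine ⟨τ, L, g.1, g.2.1, g.2.2.1, g.2.2.2.1, g.2.2.2.2.2.2.2.2.1, fun b hb => ?_,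
        h1 a0 le_rfl⟩
      rw [dif_pos hb, ← h2 ⟨b, hb⟩, ← h1 b hb.le]
  choose! a σ ha hσ using hE
  -- (C)
  have hCo : ∀ i i' j j', gp i i' → gp j j' → ∀ b, b < a i i' → b < a j j' →
      σ i i' b = σ j j' b := by
    intro i i' j j' h1 h2 b b1 b2
    have val : ∀ i i', gp i i' → b < a i i' → ∀ α, σ i i' b α ∈ c.R0 := by
      intro i i' h hb
      obtain ⟨k, τ, L, g1, -, g3, g4, -, g6, -⟩ := (hσ i i' h).exists
      have := g1.1 b (by omega)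
      rw [g6 b hb] at this
      exact hC.ww_val _ _ this
    refine c.c4 b _ _ (val _ _ h1 b1) (val _ _ h2 b2) fun N => ?_
    obtain ⟨k, ⟨τ, L, -, -, -, -, g5, g6, -⟩, ⟨τ', L', -, -, -, -, g5', g6', -⟩, hk⟩ :=
      ((hσ _ _ h1).and ((hσ _ _ h2).and (hcw N))).exists
    exact ⟨A k, τ, τ', hk.1.le, g5.trans g5'.symm, by rw [g6 b b1], by rw [g6' b b2]⟩
  have hbig : ∀ b, ∃ i i', gp i i' ∧ b < a i i' := fun b => by
    obtain ⟨i, i', hg, h⟩ := large (cw b)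
    refine ⟨i, i', hg, lt_of_not_ge fun hle => ?_⟩
    have := cmono hle
    have := ha i i' hg
    omega
  choose p p' hp hp' using hbig
  have hag : ∀ i i', gp i i' → ∀ b < a i i', σ i i' b = σ (p b) (p' b) b :=
    fun i i' hg b hb => hCo _ _ _ _ hg (hp b) b hb (hp' b)
  refine ⟨fun b => (cw b, σ (p b) (p' b) b), fun L => ?_, ?_⟩
  · obtain ⟨k, τ, L', g1, -, g3, g4, -, g6, -⟩ := (hσ _ _ (hp L)).exists
    have := hp' L
    refine (g1.le (L' := L) (by omega)).congr fun l hl => ?_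
    rw [g6 l (by omega), hag _ _ (hp L) l (by omega)]
  · filter_upwards [hgp] with i hi
    obtain ⟨i', hg, hii⟩ := (hi.and (hU (eventually_gt_atTop i))).exists
    obtain ⟨k, τ, L, g1, g2, g3, g4, -, g6, g7⟩ := (hσ _ _ hg).exists
    refine ⟨τ, L, a i i', g1, g2, by omega, fun b hb => ?_, g7,
      (hJ.monotone hii).trans (ha i i' hg)⟩
    rw [g6 b hb, hag _ _ hg b hb]

end Crest.Agent.R114
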