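import Crest.Agent.R114.Tasks

/-! Row 114 part A, task TRIC. -/

set_option autoImplicit false

namespace Crest.Agent.R114

open Filter Topology Finset

noncomputable section

variable {𝕜 : Type} [RCLike 𝕜] {Ω : Type} [LinearOrder Ω]

lemma tric_ev {y : ℕ → Ω →₀ 𝕜} (hy : Block y) (f : Ω →₀ 𝕜) : ∀ᶠ i in atTop, pr f (y i) = 0 := by
  have h : ∀ᶠ i in atTop, ∀ α ∈ f.support, α ∉ (y i).support := by
    rw [eventually_all_finset]
    intro α _
    by_cases h : ∃ i0, α ∈ (y i0).support
    · obtain ⟨i0, h0⟩ := h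
      exact (eventually_gt_atTop i0).mono fun i hi h1 => lt_irrefl _ (hy.1 i0 i hi α h0 α h1)
    · push Not at h
      exact Eventually.of_forall h
  exact h.mono fun i hi => pr_eq_zero hi

lemma tric_sum {w : ℕ → ℕ} (hw : StrictMono w) (J M : ℕ) :
    ∑ l ∈ range M, (if J ≤ w l then kap (w l) else 0) ≤ 2 * kap J := by
  rw [← Finset.sum_filter, ← Finset.sum_image (g := w) (f := kap) fun a _ b _ h => hw.injective h]
  refine le_trans (Finset.sum_le_sum_of_subset_of_nonneg ?_ fun _ _ _ => (kap_pos _).le)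
    (sum_kap_Ico J (w M))
  intro v hv
  obtain ⟨l, hl, rfl⟩ := Finset.mem_image.1 hv
  rw [Finset.mem_filter, Finset.mem_range] at hl
  exact Finset.mem_Ico.2 ⟨hl.2, hw hl.1⟩

theorem triC_proof (c : Coding 𝕜 Ω) (A : API c) : TriCStmt c := by
  intro z y J h _ hR σ ε hε hσ hbig
  have hw : StrictMono fun l => (σ l).1 := fun l l' hl => (hσ (l' + 1)).lt hl (Nat.lt_succ_self _)
  have hW : ∀ l, ((σ l).1, (σ l).2) ∈ WW c := fun l => (hσ (l + 1)).1 l (Nat.lt_succ_self _)
  have hle : ∀ l, l ≤ (σ l).1 := fun l => hw.id_le l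
  refine ⟨y, 6, σ, hσ, hR.mem, fun k => A.nrm.le_of _ _ fun g hg =>
    (hR.avg k).norm_pr_le (nn_pos _) hg, fun l α hα => ?_, fun hT => ?_⟩
  · obtain ⟨i, ⟨a, -, ha⟩, hi⟩ := (hbig.and_eventually (eventually_gt_atTop (σ l).1)).exists
    have h1 : ∃ l' ∈ (range a).filter fun l => J i ≤ (σ l).1 ∧ (σ l).1 < J (i + 1),
        pr (σ l').2 (y i) ≠ 0 := by
      by_contra h2
      push Not at h2
      rw [Finset.sum_eq_zero h2, norm_zero] at ha
      exact lt_irrefl _ (ha.trans hε)
    obtain ⟨l', hl', hne⟩ := h1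
    have h2 : l < l' := by
      have h3 := (Finset.mem_filter.1 hl').2.1
      have h4 : i ≤ J i := hR.mono.id_le i
      exact hw.lt_iff_lt.1 (by omega)
    have h3 : ∃ β ∈ (σ l').2.support, β ∈ (y i).support := by
      by_contra h4
      push Not at h4
      exact hne (pr_eq_zero h4)
    obtain ⟨β, hβ, hβ'⟩ := h3
    obtain ⟨N', hN'⟩ := support_of_mem_Tl (hR.mem i)
    obtain ⟨i', -, -, hi'⟩ := hN' β hβ'
    exact ⟨i', β, hi', ((hσ (l' + 1)).2.1 l l' h2 (Nat.lt_succ_self _) α hα β hβ).le⟩
  · obtain ⟨l1, hl1⟩ : ∃ l1, 12 * kap l1 < ε / 4 := by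
      have h1 := summable_kap.tendsto_atTop_zero.const_mul 12
      rw [mul_zero] at h1
      exact (h1.eventually (eventually_lt_nhds (by positivity))).exists
    have e1 : ∀ᶠ i in atTop, ‖∑' l, pr (σ l).2 (y i)‖ < ε / 4 := by
      have h1 := hT.norm
      rw [norm_zero] at h1
      exact h1.eventually (eventually_lt_nhds (by positivity))
    have e2 : ∀ᶠ i in atTop, ∀ l ∈ range l1, pr (σ l).2 (y i) = 0 :=
      (eventually_all_finset _).2 fun l _ => tric_ev hR.block _
    have e3 : ∀ᶠ i : ℕ in atTop, (1 / 2 : ℝ) ^ i < ε / 4 :=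
      (tendsto_pow_atTop_nhds_zero_of_lt_one (by norm_num) (by norm_num)).eventually
        (eventually_lt_nhds (by positivity))
    obtain ⟨i, ⟨a, ha1, ha2⟩, h1, h2, h3⟩ := (hbig.and_eventually (e1.and (e2.and e3))).exists
    set t : ℕ → 𝕜 := fun l => pr (σ l).2 (y i) with ht
    set Wd := (range a).filter fun l => J i ≤ (σ l).1 ∧ (σ l).1 < J (i + 1) with hWd
    have hl2 := l2_nonneg (y i)
    have hb : ∀ l, ‖t l‖ ≤ kap (σ l).1 * l2 (y i) := fun l =>
      (norm_pr_le _ _).trans (mul_le_mul_of_nonneg_right (A.cost.ww_l2 _ _ (hW l)) hl2)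
    have hs : Summable t := Summable.of_norm_bounded (summable_kap.mul_right (l2 (y i))) fun l =>
      (hb l).trans (mul_le_mul_of_nonneg_right (kap_anti (hle l)) hl2)
    have h4 : ‖∑' l, t l - ∑ l ∈ Wd, t l‖ ≤ 12 * kap l1 + 2 * kap (J (i + 1)) * l2 (y i) := by
      refine le_of_tendsto (hs.hasSum.tendsto_sum_nat.sub_const _).norm
        ((eventually_ge_atTop a).mono fun M hM => ?_)
      have hsub : Wd ⊆ range M := (Finset.filter_subset _ _).trans (Finset.range_subset_range.2 hM)
      rw [← Finset.sum_sdiff hsub, add_sub_cancel_right]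
      calc _ ≤ ∑ l ∈ range M \ Wd, ‖t l‖ := norm_sum_le _ _
        _ ≤ ∑ l ∈ range M \ Wd, ((if l1 ≤ l then kap l else 0) * 6 +
            (if J (i + 1) ≤ (σ l).1 then kap (σ l).1 else 0) * l2 (y i)) := by
          refine Finset.sum_le_sum fun l hl => ?_
          have p1 : 0 ≤ (if l1 ≤ l then kap l else 0) * 6 := by
            split_ifs
            · have := kap_pos l; positivity
            · simp
          by_cases c1 : J (i + 1) ≤ (σ l).1
          · rw [if_pos c1]; linarith [hb l]
          rw [if_neg c1, zero_mul, add_zero]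
          by_cases c2 : (σ l).1 < J i
          · by_cases c3 : l1 ≤ l
            · rw [if_pos c3]
              exact ((hR.avg i).ww (hW l) (nn_mono c2.le)).trans
                (mul_le_mul_of_nonneg_right (kap_anti (hle l)) (by norm_num))
            · have := h2 l (Finset.mem_range.2 (not_le.1 c3))
              rw [ht]; simp only
              rw [this, norm_zero]; exact p1
          · exfalso
            refine (Finset.mem_sdiff.1 hl).2 (Finset.mem_filter.2
              ⟨Finset.mem_range.2 ?_, not_lt.1 c2, not_le.1 c1⟩)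
            exact hw.lt_iff_lt.1 (by omega)
        _ ≤ ∑ l ∈ range M, ((if l1 ≤ l then kap l else 0) * 6 +
            (if J (i + 1) ≤ (σ l).1 then kap (σ l).1 else 0) * l2 (y i)) := by
          refine Finset.sum_le_sum_of_subset_of_nonneg Finset.sdiff_subset fun l _ _ => ?_
          have := (kap_pos l).le
          have := (kap_pos (σ l).1).le
          split_ifs <;> positivity
        _ ≤ _ := by
          rw [Finset.sum_add_distrib, ← Finset.sum_mul, ← Finset.sum_mul]
          have q1 := tric_sum (w := id) strictMono_id l1 M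
          have q2 := mul_le_mul_of_nonneg_right (tric_sum hw (J (i + 1)) M) hl2
          simp only [id] at q1
          linarith
    have h5 := hR.grow i
    have h6 : (1 / 2 : ℝ) ^ (i + 2) = (1 / 2) ^ i / 4 := by ring
    have h7 := norm_sub_norm_le (∑ l ∈ Wd, t l) (∑' l, t l)
    rw [norm_sub_rev] at h7
    have h8 : (0 : ℝ) < (1 / 2) ^ i := by positivity
    nlinarith

end

end Crest.Agent.R114
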