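import Crest.Agent.R114.AAux9

/-! Row 114, task A-UP (upper estimate for sums of a selected RIS). -/

set_option autoImplicit false

namespace Crest.Agent.R114

open Filter Topology Finset

namespace UpAux

open Aux9

variable {𝕜 : Type} [RCLike 𝕜] {Ω : Type} [LinearOrder Ω] {c : Coding 𝕜 Ω}

theorem nrm_le_six (A : API c) {z y J h} (hR : RIS c z y J h) (i : ℕ) : nrm c (y i) ≤ 6 :=
  A.nrm.le_of _ _ fun _ hg => (hR.avg i).norm_pr_le (nn_pos _) hg

omit [LinearOrder Ω] in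
/-- splitting the action of a row on a sum into low, window and high part. -/
theorem split_row (y : ℕ → Ω →₀ 𝕜) {J : ℕ → ℕ} (hJ : StrictMono J) (ι : ℕ → ℕ) (I : Finset ℕ)
    (ρ : Row 𝕜 Ω) :
    pr ρ.seg (∑ a ∈ I, y (ι a)) = ∑ a ∈ I, win y J ρ (ι a) +
      ∑ l ∈ ρ.idx, pr (restr ρ.E (ρ.τ l).2) (∑ a ∈ I.filter (fun a => (ρ.τ l).1 < J (ι a)), y (ι a)) +
      ∑ l ∈ ρ.idx, pr (restr ρ.E (ρ.τ l).2)
        (∑ a ∈ I.filter (fun a => J (ι a + 1) ≤ (ρ.τ l).1), y (ι a)) := by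
  have h1 : ∑ a ∈ I, win y J ρ (ι a) = ∑ l ∈ ρ.idx, ∑ a ∈ I,
      if J (ι a) ≤ (ρ.τ l).1 ∧ (ρ.τ l).1 < J (ι a + 1) then pr (restr ρ.E (ρ.τ l).2) (y (ι a))
      else 0 := by
    rw [Finset.sum_comm]
    refine Finset.sum_congr rfl fun a _ => ?_
    unfold win
    rw [Row.pr_seg, Row.idx_cut, Finset.sum_filter]
    rfl
  rw [h1, Row.pr_seg, ← Finset.sum_add_distrib, ← Finset.sum_add_distrib]
  refine Finset.sum_congr rfl fun l _ => ?_
  rw [map_sum, map_sum, map_sum, Finset.sum_filter, Finset.sum_filter, ← Finset.sum_add_distrib,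
    ← Finset.sum_add_distrib]
  refine Finset.sum_congr rfl fun a _ => ?_
  have : J (ι a) < J (ι a + 1) := hJ (Nat.lt_succ_self _)
  split_ifs <;> first | omega | simp

theorem high (A : API c) {z y J h} (hR : RIS c z y J h) {ι : ℕ → ℕ} (hι : StrictMono ι)
    (I : Finset ℕ) (s : Finset ℕ) (ρ : ℕ → Row 𝕜 Ω) (hOK : ∀ r ∈ s, (ρ r).OK c (WW c))
    (hd : ∀ r ∈ s, ∀ r' ∈ s, r ≠ r' → Disjoint (ρ r).wts (ρ r').wts) :
    ∑ r ∈ s, ∑ l ∈ (ρ r).idx, ‖pr (restr (ρ r).E ((ρ r).τ l).2)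
      (∑ a ∈ I.filter (fun a => J (ι a + 1) ≤ ((ρ r).τ l).1), y (ι a))‖ ≤ 1 := by
  refine A.row.terms s ρ (fun w => ∑ a ∈ I.filter (fun a => J (ι a + 1) ≤ w), y (ι a))
    (fun w => ∑ a ∈ I.filter (fun a => J (ι a + 1) ≤ w), kap w * l2 (y (ι a))) 1 hOK hd
    (fun w => Finset.sum_nonneg fun a _ => mul_nonneg (kap_pos w).le (l2_nonneg _))
    (fun K => ?_) fun r _ w _ f hf => ?_
  · have e1 : ∑ w ∈ range K, ∑ a ∈ I.filter (fun a => J (ι a + 1) ≤ w), kap w * l2 (y (ι a)) =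
        ∑ a ∈ I, (∑ w ∈ Ico (J (ι a + 1)) K, kap w) * l2 (y (ι a)) := by
      simp only [Finset.sum_filter]
      rw [Finset.sum_comm]
      refine Finset.sum_congr rfl fun a _ => ?_
      rw [← Finset.sum_filter, Finset.sum_mul]
      refine Finset.sum_congr ?_ fun _ _ => rfl
      ext w
      simp only [Finset.mem_filter, Finset.mem_range, Finset.mem_Ico]
      tauto
    rw [e1]
    have e2 : ∀ a ∈ I, (∑ w ∈ Ico (J (ι a + 1)) K, kap w) * l2 (y (ι a)) ≤ 1 / 2 * (1 / 2) ^ a := by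
      intro a _
      have a1 := mul_le_mul_of_nonneg_right (sum_kap_Ico (J (ι a + 1)) K) (l2_nonneg (y (ι a)))
      have a2 := hR.grow (ι a)
      have a3 : (1 / 2 : ℝ) ^ (ι a + 2) ≤ (1 / 2) ^ (a + 2) :=
        pow_le_pow_of_le_one (by norm_num) (by norm_num) (by have := hι.id_le a; simp at this; omega)
      have a4 : (1 / 2 : ℝ) ^ (a + 2) = 1 / 4 * (1 / 2) ^ a := by ring
      nlinarith
    refine (Finset.sum_le_sum e2).trans ?_
    rw [← Finset.mul_sum]
    have := hasSum_geometric_two.summable.sum_le_tsum I fun _ _ => by positivity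
    rw [tsum_geometric_two] at this
    linarith
  · rw [map_sum]
    refine (norm_sum_le _ _).trans (Finset.sum_le_sum fun a _ => (norm_pr_le _ _).trans ?_)
    exact mul_le_mul_of_nonneg_right (A.cost.ww_l2 w f hf) (l2_nonneg _)

theorem low (A : API c) {z y J h} (hR : RIS c z y J h) {ι : ℕ → ℕ} (hι : StrictMono ι)
    {k p : ℕ} {b T R : ℝ} (hb0 : 0 < b) (hb1 : b ≤ 1) (hT : 0 ≤ T) (hR0 : 0 ≤ R)
    (hn : ∀ j < k, (nn j : ℝ) ^ (1 - b) ≤ 2)
    (hmax : ∀ I' ⊆ range p, nrm c (∑ a ∈ I', y (ι a)) ≤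
      R * (24 * kap k * I'.card + T * (I'.card : ℝ) ^ b))
    (I : Finset ℕ) (hI : I ⊆ range p) (s : Finset ℕ) (ρ : ℕ → Row 𝕜 Ω)
    (hOK : ∀ r ∈ s, (ρ r).OK c (WW c))
    (hd : ∀ r ∈ s, ∀ r' ∈ s, r ≠ r' → Disjoint (ρ r).wts (ρ r').wts) :
    ∑ r ∈ s, ∑ l ∈ (ρ r).idx, ‖pr (restr (ρ r).E ((ρ r).τ l).2)
      (∑ a ∈ I.filter (fun a => ((ρ r).τ l).1 < J (ι a)), y (ι a))‖ ≤
      12 * kap k * I.card + R * (24 * kap k * I.card + 2 * T * (I.card : ℝ) ^ b) / 8 +
        6 * ∑ j ∈ range k, (nn j : ℝ) := by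
  have hk := kap_pos k
  set X : ℝ := R * (24 * kap k * I.card + 2 * T * (I.card : ℝ) ^ b) with hX
  have X0 : 0 ≤ X := by positivity
  refine A.row.terms s ρ (fun w => ∑ a ∈ I.filter (fun a => w < J (ι a)), y (ι a))
    (fun w => (if k ≤ w then 6 * I.card * kap w else 0) + kap w * X +
      (if w < k then 6 * (nn w : ℝ) else 0)) _ hOK hd (fun w => ?_) (fun K => ?_)
    fun r _ w _ f hf => ?_
  · have := kap_pos w
    positivity
  · rw [Finset.sum_add_distrib, Finset.sum_add_distrib, ← Finset.sum_filter, ← Finset.sum_filter,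
      ← Finset.sum_mul, ← Finset.mul_sum, ← Finset.mul_sum]
    have e1 : (range K).filter (fun w => k ≤ w) = Ico k K := by
      ext w
      simp only [Finset.mem_filter, Finset.mem_range, Finset.mem_Ico]
      tauto
    have e2 : ∑ w ∈ (range K).filter (fun w => w < k), (nn w : ℝ) ≤ ∑ j ∈ range k, (nn j : ℝ) :=
      Finset.sum_le_sum_of_subset_of_nonneg
        (fun w hw => Finset.mem_range.2 (Finset.mem_filter.1 hw).2) fun _ _ _ => by positivity
    have e3 := mul_le_mul_of_nonneg_left (sum_kap_Ico k K) (show (0 : ℝ) ≤ 6 * I.card by positivity)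
    have e4 := mul_le_mul_of_nonneg_right (sum_kap_range K) X0
    rw [e1]
    linarith
  · have hw := kap_pos w
    set I' := I.filter (fun a => w < J (ι a)) with hI'
    have hc : (I'.card : ℝ) ≤ I.card := by exact_mod_cast Finset.card_filter_le _ _
    have havg : ∀ a ∈ I', Avg c (nn w) 6 (y (ι a)) := fun a ha =>
      (hR.avg (ι a)).mono (nn_mono (Finset.mem_filter.1 ha).2.le)
    by_cases hkw : k ≤ w
    · rw [if_pos hkw, if_neg (not_lt.2 hkw), map_sum]
      refine (norm_sum_le _ _).trans ?_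
      have : ∑ a ∈ I', ‖pr f (y (ι a))‖ ≤ ∑ _a ∈ I', kap w * 6 :=
        Finset.sum_le_sum fun a ha => (havg a ha).ww hf le_rfl
      rw [Finset.sum_const, nsmul_eq_mul] at this
      nlinarith [mul_nonneg hw.le X0]
    · rw [if_neg hkw, if_pos (not_le.1 hkw), zero_add]
      obtain ⟨g, lam, h1, rfl, h3⟩ := WW_unfold hf
      obtain ⟨S, P, hS, hSc, hP, hPc, hsp⟩ := A.spl (nn w) g (fun a => y (ι a)) I' h1
        fun i _ j _ hij => hR.block.1 _ _ (hι hij)
      refine (norm_pr_op _ hw.le _ _ _ _).trans ?_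
      have e1 : ∑ r ∈ range (nn w), ‖lam r‖ * ‖pr (g r) (∑ a ∈ I', y (ι a))‖ ≤
          ∑ r ∈ range (nn w), (R * (24 * kap k * (P r).card + T * ((P r).card : ℝ) ^ b) +
            ∑ a ∈ S, ‖pr (g r) (y (ι a))‖) := by
        refine Finset.sum_le_sum fun r hr => ?_
        have hr' := Finset.mem_range.1 hr
        refine (mul_le_of_le_one_left (norm_nonneg _) (h3 r hr').2).trans ?_
        rw [hsp r hr']
        refine (norm_add_le _ _).trans (add_le_add ?_ (norm_sum_le _ _))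
        exact (A.nrm.pr_le _ _ (h3 r hr').1).trans
          (hmax _ ((hP r).trans ((Finset.filter_subset _ _).trans hI)))
      rw [Finset.sum_add_distrib, Finset.sum_comm, ← Finset.mul_sum, Finset.sum_add_distrib,
        ← Finset.mul_sum, ← Finset.mul_sum] at e1
      have e2 : ∑ a ∈ S, ∑ r ∈ range (nn w), ‖pr (g r) (y (ι a))‖ ≤ ∑ _a ∈ S, (6 : ℝ) :=
        Finset.sum_le_sum fun a ha => havg a (hS ha) g h1 fun r hr => (h3 r hr).1
      rw [Finset.sum_const, nsmul_eq_mul] at e2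
      have e3 : (S.card : ℝ) ≤ nn w := by exact_mod_cast hSc
      have hPc' : ∑ r ∈ range (nn w), (P r).card ≤ I.card :=
        hPc.trans (Finset.card_filter_le _ _)
      have e4 : ∑ r ∈ range (nn w), ((P r).card : ℝ) ≤ I.card := by exact_mod_cast hPc'
      have e5 := A.num.rpow b hb0 hb1 (nn w) I.card (fun r => (P r).card) hPc'
      have e6 : (nn w : ℝ) ^ (1 - b) * (I.card : ℝ) ^ b ≤ 2 * (I.card : ℝ) ^ b :=
        mul_le_mul_of_nonneg_right (hn w (not_le.1 hkw)) (by positivity)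
      have e7 : R * (24 * kap k * ∑ r ∈ range (nn w), ((P r).card : ℝ) +
          T * ∑ r ∈ range (nn w), ((P r).card : ℝ) ^ b) ≤ X := by
        rw [hX]
        refine mul_le_mul_of_nonneg_left (add_le_add (by gcongr) ?_) hR0
        nlinarith
      have e8 : ∑ r ∈ range (nn w), ‖lam r‖ * ‖pr (g r) (∑ a ∈ I', y (ι a))‖ ≤ X + 6 * nn w := by
        linarith
      have e9 := mul_le_mul_of_nonneg_left e8 hw.le
      have e10 : kap w * (6 * nn w) ≤ 6 * nn w :=
        mul_le_of_le_one_left (by positivity) ((kap_le w).trans (by norm_num))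
      linarith

end UpAux

open UpAux Aux9 in
theorem up_proof {𝕜 : Type} [RCLike 𝕜] {Ω : Type} [LinearOrder Ω] (c : Coding 𝕜 Ω) (A : API c)
    (hW : UpWStmt c) : UpStmt c := by
  filter_upwards [A.num.g2 28] with k hk z y J h hR ι hS
  obtain ⟨b, hb0, hb1, hn, hT⟩ := hk
  set N : ℝ := ∑ j ∈ range k, (nn j : ℝ) with hN
  have N0 : 0 ≤ N := Finset.sum_nonneg fun _ _ => by positivity
  set T : ℝ := 28 * (N + 1) with hTdef
  have hk := kap_pos k
  have hb : 0 < b := by linarith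
  obtain ⟨I, R, hI, hq, hR0, hRI, hmax⟩ := exists_max (nn k) (nn_pos k)
    (fun I => nrm c (∑ a ∈ I, y (ι a))) (fun q => 24 * kap k * q + T * (q : ℝ) ^ b)
    (fun _ => A.nrm.nonneg _) (by simpa using nrm_zero A)
    (fun q hq => by have : (0 : ℝ) < q := by exact_mod_cast hq
                    positivity) (by simp [hb.ne'])
  have hq1 : (1 : ℝ) ≤ I.card := by exact_mod_cast hq
  set Q : ℝ := (I.card : ℝ) ^ b with hQ
  have Q1 : 1 ≤ Q := Real.one_le_rpow hq1 hb.le
  have Qs : √(I.card : ℝ) ≤ Q := by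
    rw [Real.sqrt_eq_rpow]
    exact Real.rpow_le_rpow_of_exponent_le hq1 hb0
  have hω : 0 < 24 * kap k * I.card + T * Q := by positivity
  have key : nrm c (∑ a ∈ I, y (ι a)) ≤ (R + 1) / 2 * (24 * kap k * I.card + T * Q) := by
    have a0 : 0 ≤ R * (kap k * I.card) := by positivity
    have a1 : 0 ≤ R * (T * Q) := by positivity
    have a2 : 0 ≤ kap k * I.card := by positivity
    have a3 : N ≤ N * Q := le_mul_of_one_le_right N0 Q1
    refine A.nrm.le_of _ _ fun g hg => ?_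
    rcases hg with hg | ⟨s, ρ, lam, h1, h2, h3, rfl⟩
    · have := base_le (y := ∑ a ∈ I, y (ι a)) hg fun α => coord_sum_le (x := fun a => y (ι a))
        (fun i _ j _ hij => hR.block.1 _ _ (hS.1 hij)) (by norm_num : (0 : ℝ) ≤ 6) α
        fun i _ => (A.nrm.coord _ _).trans (nrm_le_six A hR _)
      nlinarith
    · have hOK : ∀ r ∈ s, (ρ r).OK c (WW c) := fun r hr => (h1 r hr).1
      have e1 := hW z y J h hR (nn k) ι hS I hI s ρ lam hOK h2 h3
      have e2 := high A hR hS.1 I s ρ hOK h3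
      have e3 := low A hR hS.1 hb hb1.le (by positivity) hR0 hn hmax I hI s ρ hOK h3
      have e4 : ‖pr (∑ r ∈ s, lam r • (ρ r).seg) (∑ a ∈ I, y (ι a))‖ ≤
          ∑ r ∈ s, (∑ a ∈ I, ‖lam r‖ * ‖win y J (ρ r) (ι a)‖ +
            ∑ l ∈ (ρ r).idx, ‖pr (restr (ρ r).E ((ρ r).τ l).2)
              (∑ a ∈ I.filter (fun a => ((ρ r).τ l).1 < J (ι a)), y (ι a))‖ +
            ∑ l ∈ (ρ r).idx, ‖pr (restr (ρ r).E ((ρ r).τ l).2)
              (∑ a ∈ I.filter (fun a => J (ι a + 1) ≤ ((ρ r).τ l).1), y (ι a))‖) := by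
        rw [map_sum pr, LinearMap.sum_apply]
        refine (norm_sum_le _ _).trans (Finset.sum_le_sum fun r hr => ?_)
        rw [map_smul, LinearMap.smul_apply, smul_eq_mul, split_row y hR.mono ι I, mul_add, mul_add]
        have hl := norm_le_one_of_sq h2 r hr
        refine (norm_add_le _ _).trans (add_le_add ((norm_add_le _ _).trans (add_le_add ?_ ?_)) ?_)
        · rw [norm_mul, ← Finset.mul_sum]
          exact mul_le_mul_of_nonneg_left (norm_sum_le _ _) (norm_nonneg _)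
        · rw [norm_mul]
          exact (mul_le_of_le_one_left (norm_nonneg _) hl).trans (norm_sum_le _ _)
        · rw [norm_mul]
          exact (mul_le_of_le_one_left (norm_nonneg _) hl).trans (norm_sum_le _ _)
      rw [Finset.sum_add_distrib, Finset.sum_add_distrib] at e4
      rw [← hQ, ← hN] at e3
      nlinarith
  have hR1 : R ≤ 1 := by
    rw [hRI] at key
    have := le_of_mul_le_mul_right key hω
    linarith
  have e := hmax (range (nn k)) subset_rfl
  simp only [Finset.card_range] at e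
  have hp : (0 : ℝ) < nn k := by exact_mod_cast nn_pos k
  have e2 : T * (nn k : ℝ) ^ b ≤ kap k * nn k := by
    calc T * (nn k : ℝ) ^ b ≤ kap k * (nn k : ℝ) ^ (1 - b) * (nn k : ℝ) ^ b := by gcongr
      _ = kap k * nn k := by rw [mul_assoc, ← Real.rpow_add hp]; simp
  have e3 : R * (24 * kap k * nn k + T * (nn k : ℝ) ^ b) ≤ 24 * kap k * nn k + T * (nn k : ℝ) ^ b :=
    mul_le_of_le_one_left (by positivity) hR1
  linarith

end Crest.Agent.R114
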