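import Crest.Agent.R114.Tasks

/-! Row 114, task A-UPW (window estimate). -/

set_option autoImplicit false

namespace Crest.Agent.R114

open Filter Topology Finset

namespace UpWAux

variable {𝕜 : Type} [RCLike 𝕜] {Ω : Type} [LinearOrder Ω] {c : Coding 𝕜 Ω}

theorem three_of_card {s : Finset ℕ} (h : 2 < s.card) :
    ∃ b ∈ s, ∃ d ∈ s, ∃ e ∈ s, b < d ∧ d < e := by
  obtain ⟨a, ha, b, hb, d, hd, h1, h2, h3⟩ := Finset.two_lt_card.1 h
  rcases lt_or_gt_of_ne h1 with h1 | h1 <;> rcases lt_or_gt_of_ne h2 with h2 | h2 <;>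
    rcases lt_or_gt_of_ne h3 with h3 | h3
  · exact ⟨a, ha, b, hb, d, hd, h1, h3⟩
  · exact ⟨a, ha, d, hd, b, hb, h2, h3⟩
  · omega
  · exact ⟨d, hd, a, ha, b, hb, h2, h1⟩
  · exact ⟨b, hb, a, ha, d, hd, h1, h2⟩
  · omega
  · exact ⟨b, hb, d, hd, a, ha, h3, h2⟩
  · exact ⟨d, hd, b, hb, a, ha, h3, h1⟩

theorem nrm_le_six (A : API c) {z y J h} (hR : RIS c z y J h) (i : ℕ) : nrm c (y i) ≤ 6 :=
  A.nrm.le_of _ _ fun _ hg => (hR.avg i).norm_pr_le (nn_pos _) hg

omit [LinearOrder Ω] in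
theorem exists_wt {y : ℕ → Ω →₀ 𝕜} {J : ℕ → ℕ} {ρ : Row 𝕜 Ω} {i : ℕ} (h : win y J ρ i ≠ 0) :
    ∃ w ∈ ρ.wts, w < J (i + 1) := by
  unfold win at h
  rw [Row.pr_seg] at h
  obtain ⟨l, hl, -⟩ := Finset.exists_ne_zero_of_sum_ne_zero h
  rw [Row.idx_cut, Finset.mem_filter] at hl
  exact ⟨_, Finset.mem_image_of_mem _ hl.1, hl.2.2⟩

omit [LinearOrder Ω] in
theorem card_active {y : ℕ → Ω →₀ 𝕜} {J : ℕ → ℕ} {s : Finset ℕ} {ρ : ℕ → Row 𝕜 Ω} {i : ℕ}
    (hd : ∀ r ∈ s, ∀ r' ∈ s, r ≠ r' → Disjoint (ρ r).wts (ρ r').wts) (t : Finset ℕ) (ht : t ⊆ s)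
    (h : ∀ r ∈ t, win y J (ρ r) i ≠ 0) : t.card ≤ J (i + 1) := by
  have h1 : ∀ r, ∃ w, r ∈ t → w ∈ (ρ r).wts ∧ w < J (i + 1) := fun r => by
    by_cases hr : r ∈ t
    · obtain ⟨w, hw, hw'⟩ := exists_wt (h r hr)
      exact ⟨w, fun _ => ⟨hw, hw'⟩⟩
    · exact ⟨0, fun h => absurd h hr⟩
  choose w hw using h1
  rw [← Finset.card_range (J (i + 1))]
  refine Finset.card_le_card_of_injOn w (fun r hr => ?_) fun r hr r' hr' e => ?_
  · exact Finset.mem_coe.2 (Finset.mem_range.2 (hw r hr).2)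
  · by_contra hne
    exact Finset.disjoint_left.1 (hd r (ht hr) r' (ht hr') hne) (hw r hr).1 (e ▸ (hw r' hr').1)

end UpWAux

open UpWAux in
theorem upW_proof {𝕜 : Type} [RCLike 𝕜] {Ω : Type} [LinearOrder Ω] (c : Coding 𝕜 Ω) (A : API c) :
    UpWStmt c := by
  classical
  intro z y J h hR p ι hS I hI s ρ lam hOK hlam hd
  set V : ℕ → ℕ → ℝ := fun r a => ‖win y J (ρ r) (ι a)‖ with hV
  have V0 : ∀ r a, 0 ≤ V r a := fun r a => norm_nonneg _
  let m : ℕ → ℕ := fun r => sInf {a | a ∈ I ∧ win y J (ρ r) (ι a) ≠ 0}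
  let ε : ℕ → ℝ := fun a => 1 / ((p : ℝ) ^ 2 * J (ι a + 1))
  have ε0 : ∀ a, 0 ≤ ε a := fun a => by positivity
  let big : ℕ → ℕ → Prop := fun r a => win y J (ρ r) (ι a) ≠ 0 ∧ (a = m r ∨ ε (m r) < V r a)
  have hm : ∀ r a, a ∈ I → win y J (ρ r) (ι a) ≠ 0 →
      (m r ∈ I ∧ win y J (ρ r) (ι (m r)) ≠ 0) ∧ m r ≤ a := fun r a ha hw =>
    ⟨Nat.sInf_mem (s := {a | a ∈ I ∧ win y J (ρ r) (ι a) ≠ 0}) ⟨a, ha, hw⟩,
      Nat.sInf_le (s := {a | a ∈ I ∧ win y J (ρ r) (ι a) ≠ 0}) ⟨ha, hw⟩⟩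
  have hlam1 : ∀ r ∈ s, ‖lam r‖ ≤ 1 := fun r hr =>
    (sq_le_one_iff₀ (norm_nonneg _)).1 ((Finset.single_le_sum (f := fun r => ‖lam r‖ ^ 2)
      (fun _ _ => by positivity) hr).trans hlam)
  -- at most three big entries in each row
  have h3 : ∀ r ∈ s, (I.filter (big r)).card ≤ 3 := by
    intro r hr
    by_contra hc
    have hc2 : 2 < ((I.filter (big r)).erase (m r)).card := by
      have := Finset.pred_card_le_card_erase (s := I.filter (big r)) (a := m r)
      omega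
    obtain ⟨b, hb, d, hd', e, he, hbd, hde⟩ := three_of_card hc2
    simp only [Finset.mem_erase, Finset.mem_filter, big] at hb hd' he
    obtain ⟨⟨-, hm1⟩, hm2⟩ := hm r b hb.2.1 hb.2.2.1
    have := hS.2 (m r) b d e (lt_of_le_of_ne hm2 (Ne.symm hb.1)) hbd hde (ρ r) (hOK r hr) hm1
      (hb.2.2.2.resolve_left hb.1) hd'.2.2.1
    exact absurd (he.2.2.2.resolve_left he.1) (not_lt.2 this)
  have hIp : (I.card : ℝ) ≤ p := by
    have := Finset.card_le_card hI
    rw [Finset.card_range] at this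
    exact_mod_cast this
  -- small entries
  have hsmall : ∑ r ∈ s, ∑ a ∈ I.filter (fun a => ¬ big r a), ‖lam r‖ * V r a ≤ 1 := by
    let act : ℕ → Prop := fun r => m r ∈ I ∧ win y J (ρ r) (ι (m r)) ≠ 0
    have e1 : ∀ r ∈ s, ∑ a ∈ I.filter (fun a => ¬ big r a), ‖lam r‖ * V r a ≤
        if act r then p * ε (m r) else 0 := by
      intro r hr
      split_ifs with hact
      · calc ∑ a ∈ I.filter (fun a => ¬ big r a), ‖lam r‖ * V r a
            ≤ ∑ _a ∈ I.filter (fun a => ¬ big r a), ε (m r) := by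
              refine Finset.sum_le_sum fun a ha => ?_
              refine (mul_le_of_le_one_left (V0 r a) (hlam1 r hr)).trans ?_
              by_cases hw : win y J (ρ r) (ι a) = 0
              · simp only [hV, hw, norm_zero]; exact ε0 _
              · by_contra hlt
                exact (Finset.mem_filter.1 ha).2 ⟨hw, Or.inr (not_le.1 hlt)⟩
          _ ≤ p * ε (m r) := by
              rw [Finset.sum_const, nsmul_eq_mul]
              refine mul_le_mul_of_nonneg_right (le_trans ?_ hIp) (ε0 _)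
              exact_mod_cast Finset.card_filter_le _ _
      · refine le_of_eq (Finset.sum_eq_zero fun a ha => ?_)
        by_cases hw : win y J (ρ r) (ι a) = 0
        · simp only [hV, hw, norm_zero, mul_zero]
        · exact absurd (hm r a (Finset.mem_filter.1 ha).1 hw).1 hact
    refine (Finset.sum_le_sum e1).trans ?_
    rw [← Finset.sum_filter, ← Finset.sum_fiberwise_of_maps_to (s := s.filter act) (t := I) (g := m)
      fun r hr => (Finset.mem_filter.1 hr).2.1]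
    have e2 : ∀ a ∈ I, ∑ r ∈ (s.filter act).filter (fun r => m r = a), (p : ℝ) * ε (m r) ≤ 1 / p := by
      intro a ha
      have hp : (0 : ℝ) < p := by
        have := Finset.mem_range.1 (hI ha)
        exact_mod_cast (by omega : 0 < p)
      have hJ : (0 : ℝ) < J (ι a + 1) := by
        have : J (ι a) < J (ι a + 1) := hR.mono (Nat.lt_succ_self (ι a))
        exact_mod_cast (by omega : 0 < J (ι a + 1))
      have hc : (((s.filter act).filter (fun r => m r = a)).card : ℝ) ≤ J (ι a + 1) := by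
        exact_mod_cast card_active hd _ ((Finset.filter_subset _ _).trans (Finset.filter_subset _ _))
          fun r hr => by
            obtain ⟨h1, h2⟩ := Finset.mem_filter.1 hr
            rw [← h2]; exact (Finset.mem_filter.1 h1).2.2
      rw [Finset.sum_congr rfl (g := fun _ => (p : ℝ) * ε a)
        fun r hr => by rw [(Finset.mem_filter.1 hr).2], Finset.sum_const, nsmul_eq_mul]
      calc _ ≤ (J (ι a + 1) : ℝ) * (p * ε a) := by gcongr
        _ = 1 / p := by simp only [ε]; field_simp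
    refine (Finset.sum_le_sum e2).trans ?_
    rw [Finset.sum_const, nsmul_eq_mul, mul_one_div]
    exact div_le_one_of_le₀ hIp (by positivity)
  -- big entries
  have hbig : ∑ r ∈ s, ∑ a ∈ I.filter (big r), ‖lam r‖ * V r a ≤ 12 * √(I.card : ℝ) := by
    let μ : ℕ → ℝ := fun a => ∑ r ∈ s.filter (fun r => big r a), ‖lam r‖ ^ 2
    have e1 : ∑ r ∈ s, ∑ a ∈ I.filter (big r), ‖lam r‖ * V r a =
        ∑ a ∈ I, ∑ r ∈ s.filter (fun r => big r a), ‖lam r‖ * V r a := by
      simp only [Finset.sum_filter]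
      exact Finset.sum_comm
    have e2 : ∀ a ∈ I, ∑ r ∈ s.filter (fun r => big r a), ‖lam r‖ * V r a ≤ 6 * √(μ a) := by
      intro a _
      refine (Real.sum_mul_le_sqrt_mul_sqrt _ _ _).trans ?_
      rw [mul_comm]
      refine mul_le_mul_of_nonneg_right ?_ (Real.sqrt_nonneg _)
      rw [Real.sqrt_le_left (by norm_num)]
      have := A.row.l2row ℕ (s.filter fun r => big r a)
        (fun r => (ρ r).cut (J (ι a)) (J (ι a + 1))) (y (ι a))
        (fun r hr => (hOK r (Finset.mem_filter.1 hr).1).cut _ _)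
        (fun r hr r' hr' hne => (hd r (Finset.mem_filter.1 hr).1 r' (Finset.mem_filter.1 hr').1
          hne).mono (Row.wts_cut_subset _ _ _) (Row.wts_cut_subset _ _ _))
      exact this.trans (pow_le_pow_left₀ (A.nrm.nonneg _) (nrm_le_six A hR _) 2)
    have e3 : ∑ a ∈ I, μ a ≤ 3 := by
      have : ∑ a ∈ I, μ a = ∑ r ∈ s, ∑ _a ∈ I.filter (big r), ‖lam r‖ ^ 2 := by
        simp only [μ, Finset.sum_filter]
        exact Finset.sum_comm
      rw [this]
      calc _ ≤ ∑ r ∈ s, 3 * ‖lam r‖ ^ 2 := by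
            refine Finset.sum_le_sum fun r hr => ?_
            rw [Finset.sum_const, nsmul_eq_mul]
            refine mul_le_mul_of_nonneg_right ?_ (by positivity)
            exact_mod_cast h3 r hr
        _ ≤ 3 := by rw [← Finset.mul_sum]; linarith
    have μ0 : ∀ a, 0 ≤ μ a := fun a => Finset.sum_nonneg fun _ _ => by positivity
    have e4 : ∑ a ∈ I, √(μ a) ≤ √(I.card : ℝ) * 2 := by
      have := Real.sum_mul_le_sqrt_mul_sqrt I (fun _ => (1 : ℝ)) (fun a => √(μ a))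
      simp only [one_mul, one_pow, Finset.sum_const, nsmul_eq_mul, mul_one,
        Real.sq_sqrt (μ0 _)] at this
      refine this.trans (mul_le_mul_of_nonneg_left ?_ (Real.sqrt_nonneg _))
      rw [Real.sqrt_le_left (by norm_num)]
      linarith
    rw [e1]
    refine (Finset.sum_le_sum e2).trans ?_
    rw [← Finset.mul_sum]
    linarith
  have hsplit : ∑ r ∈ s, ∑ a ∈ I, ‖lam r‖ * V r a =
      ∑ r ∈ s, ∑ a ∈ I.filter (big r), ‖lam r‖ * V r a +
        ∑ r ∈ s, ∑ a ∈ I.filter (fun a => ¬ big r a), ‖lam r‖ * V r a := by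
    rw [← Finset.sum_add_distrib]
    exact Finset.sum_congr rfl fun r _ => (Finset.sum_filter_add_sum_filter_not _ _ _).symm
  change ∑ r ∈ s, ∑ a ∈ I, ‖lam r‖ * V r a ≤ _
  linarith

end Crest.Agent.R114
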