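import Crest.Agent.R114.DefsB

/-! Row 114 part B, task C0. -/

set_option autoImplicit false

namespace Crest.Agent.R114

open Filter Topology TopologicalSpace
open scoped ZeroAtInfty

noncomputable section

variable {𝕜 : Type} [RCLike 𝕜]

/-- a null sequence as an element of `C₀(ℕ, 𝕜)` -/
def c0mk (f : ℕ → 𝕜) (hf : Tendsto f atTop (𝓝 0)) : C₀(ℕ, 𝕜) where
  toFun := f
  continuous_toFun := continuous_of_discreteTopology
  zero_at_infty' := by rw [cocompact_eq_cofinite, Nat.cofinite_eq_atTop]; exact hf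

/-- unit vectors -/
def c0e (n : ℕ) : C₀(ℕ, 𝕜) :=
  c0mk (fun k => if k = n then 1 else 0) (tendsto_const_nhds.congr'
    ((eventually_gt_atTop n).mono fun k hk => by simp [hk.ne']))

lemma c0e_apply (n k : ℕ) : (c0e n : C₀(ℕ, 𝕜)) k = if k = n then 1 else 0 := rfl

lemma c0_norm_le (y : C₀(ℕ, 𝕜)) (C : ℝ) (hC : 0 ≤ C) (h : ∀ k, ‖y k‖ ≤ C) : ‖y‖ ≤ C := by
  rw [← ZeroAtInftyContinuousMap.norm_toBCF_eq_norm]
  exact (BoundedContinuousFunction.norm_le hC).2 h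

lemma c0_apply_le (y : C₀(ℕ, 𝕜)) (k : ℕ) : ‖y k‖ ≤ ‖y‖ := by
  rw [← ZeroAtInftyContinuousMap.norm_toBCF_eq_norm]
  exact y.toBCF.norm_coe_le_norm k

/-- evaluation as a linear map -/
def c0ev : C₀(ℕ, 𝕜) →ₗ[𝕜] (ℕ → 𝕜) where
  toFun y := y
  map_add' _ _ := rfl
  map_smul' _ _ := rfl

lemma c0_sum_apply (c : ℕ → 𝕜) (N k : ℕ) :
    (∑ n ∈ Finset.range N, c n • c0e n : C₀(ℕ, 𝕜)) k = if k < N then c k else 0 := by
  have h1 : (∑ n ∈ Finset.range N, c n • c0e n : C₀(ℕ, 𝕜)) k =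
      c0ev (∑ n ∈ Finset.range N, c n • c0e n) k := rfl
  rw [h1, map_sum, Finset.sum_apply]
  have h2 : ∀ n, c0ev (c n • c0e n : C₀(ℕ, 𝕜)) k = if k = n then c n else 0 := by
    intro n
    show c n • (c0e n : C₀(ℕ, 𝕜)) k = _
    rw [c0e_apply]; simp
  simp_rw [h2]
  simp

lemma c0_tendsto (y : C₀(ℕ, 𝕜)) :
    Tendsto (fun N => (∑ n ∈ Finset.range N, y n • c0e n : C₀(ℕ, 𝕜))) atTop (𝓝 y) := by
  have hy : Tendsto y atTop (𝓝 0) := by
    have := y.zero_at_infty'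
    rwa [cocompact_eq_cofinite, Nat.cofinite_eq_atTop] at this
  rw [Metric.tendsto_atTop] at hy ⊢
  intro ε hε
  obtain ⟨N, hN⟩ := hy (ε / 2) (by positivity)
  refine ⟨N, fun M hM => ?_⟩
  rw [dist_eq_norm]
  refine lt_of_le_of_lt (c0_norm_le _ (ε / 2) (by positivity) fun k => ?_) (by linarith)
  rw [ZeroAtInftyContinuousMap.sub_apply, c0_sum_apply]
  split_ifs with h
  · simp; positivity
  · have := hN k (by omega)
    rw [dist_zero_right] at this
    simpa using this.le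

lemma c0_sep : SeparableSpace C₀(ℕ, 𝕜) := by
  rw [← isSeparable_univ_iff]
  have h1 : IsSeparable (Submodule.span 𝕜 (Set.range (c0e (𝕜 := 𝕜))) : Set C₀(ℕ, 𝕜)) :=
    (Set.countable_range _).isSeparable.span
  refine h1.closure.mono fun y _ => ?_
  refine mem_closure_of_tendsto (c0_tendsto y) (Eventually.of_forall fun N => ?_)
  exact Submodule.sum_mem _ fun n _ => Submodule.smul_mem _ _ (Submodule.subset_span ⟨n, rfl⟩)

lemma c0_inf : ¬ FiniteDimensional 𝕜 C₀(ℕ, 𝕜) := by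
  intro h
  refine Module.Finite.not_linearIndependent_of_infinite (R := 𝕜) (c0e (𝕜 := 𝕜)) ?_
  refine LinearIndependent.of_comp c0ev ?_
  have : c0ev ∘ c0e (𝕜 := 𝕜) = fun n => Pi.single n 1 := by
    ext n k
    show (c0e n : C₀(ℕ, 𝕜)) k = _
    rw [c0e_apply, Pi.single_apply]
  rw [this]
  exact Pi.linearIndependent_single_one ℕ 𝕜

lemma c0_dual_sum (φ : StrongDual 𝕜 C₀(ℕ, 𝕜)) (N : ℕ) :
    ∑ n ∈ Finset.range N, ‖φ (c0e n)‖ ≤ ‖φ‖ := by
  choose u hu1 hu2 using fun n => RCLike.exists_norm_eq_mul_self (φ (c0e n))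
  have h1 : ‖(∑ n ∈ Finset.range N, u n • c0e n : C₀(ℕ, 𝕜))‖ ≤ 1 := by
    refine c0_norm_le _ _ zero_le_one fun k => ?_
    rw [c0_sum_apply]
    split_ifs
    · exact (hu1 k).le
    · simp
  have h2 : φ (∑ n ∈ Finset.range N, u n • c0e n) =
      ((∑ n ∈ Finset.range N, ‖φ (c0e n)‖ : ℝ) : 𝕜) := by
    rw [map_sum]
    push_cast
    exact Finset.sum_congr rfl fun n _ => by rw [map_smul, smul_eq_mul]; exact (hu2 n).symm
  have h3 := φ.le_opNorm (∑ n ∈ Finset.range N, u n • c0e n)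
  rw [h2, RCLike.norm_ofReal, abs_of_nonneg (Finset.sum_nonneg fun _ _ => norm_nonneg _)] at h3
  exact h3.trans (mul_le_of_le_one_right (norm_nonneg _) h1)

variable {X : Type*} [NormedAddCommGroup X] [NormedSpace 𝕜 X]

theorem c0_proof (hS : SurjStmt 𝕜 X) : C0Stmt 𝕜 X := by
  intro hC η w hη hw hw0
  haveI := c0_sep (𝕜 := 𝕜)
  let T0 : X →ₗ[𝕜] C₀(ℕ, 𝕜) :=
    { toFun := fun x => c0mk (fun n => w n x) (hw0 x)
      map_add' := fun x y => by ext n; exact map_add (w n) x y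
      map_smul' := fun c x => by ext n; exact map_smul (w n) c x }
  have hT0 : ∀ x n, T0 x n = w n x := fun _ _ => rfl
  let T : X →L[𝕜] C₀(ℕ, 𝕜) := T0.mkContinuous 1 fun x => by
    rw [one_mul]
    refine c0_norm_le _ _ (norm_nonneg _) fun k => ?_
    rw [hT0]
    exact ((w k).le_opNorm x).trans (mul_le_of_le_one_left (norm_nonneg _) (hw.1 k))
  have hT : ∀ x n, T x n = w n x := fun _ _ => rfl
  refine hS hC C₀(ℕ, 𝕜) c0_inf T η hη fun φ => ?_
  set a : ℕ → 𝕜 := fun n => φ (c0e n) with ha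
  have hsum : Summable fun n => ‖a n‖ :=
    summable_of_sum_range_le (fun _ => norm_nonneg _) (c0_dual_sum φ)
  have hφ : ∀ y : C₀(ℕ, 𝕜), Tendsto (fun N => ∑ n ∈ Finset.range N, y n * a n) atTop (𝓝 (φ y)) := by
    intro y
    have := (φ.continuous.tendsto y).comp (c0_tendsto y)
    refine this.congr fun N => ?_
    simp [ha]
  have h1 : ‖φ‖ ≤ ∑' n, ‖a n‖ := by
    refine φ.opNorm_le_bound (tsum_nonneg fun _ => norm_nonneg _) fun y => ?_
    refine le_of_tendsto' (hφ y).norm fun N => ?_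
    calc _ ≤ ∑ n ∈ Finset.range N, ‖y n * a n‖ := norm_sum_le _ _
      _ ≤ ∑ n ∈ Finset.range N, ‖a n‖ * ‖y‖ := Finset.sum_le_sum fun n _ => by
        rw [norm_mul, mul_comm]; gcongr; exact c0_apply_le y n
      _ = (∑ n ∈ Finset.range N, ‖a n‖) * ‖y‖ := (Finset.sum_mul _ _ _).symm
      _ ≤ _ := by gcongr; exact hsum.sum_le_tsum _ fun _ _ => norm_nonneg _
  have h2 : Summable fun n => a n • w n := by
    refine Summable.of_norm_bounded hsum fun n => ?_
    rw [norm_smul]; exact mul_le_of_le_one_right (norm_nonneg _) (hw.1 n)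
  have h3 := h2.hasSum.tendsto_sum_nat
  have h4 : ∑' n, a n • w n = φ.comp T := by
    ext x
    have h5 := ((ContinuousLinearMap.apply 𝕜 𝕜 x).continuous.tendsto _).comp h3
    refine tendsto_nhds_unique h5 ((hφ (T x)).congr fun N => ?_)
    simp [hT, mul_comm]
  rw [h4] at h3
  calc η * ‖φ‖ ≤ η * ∑' n, ‖a n‖ := by gcongr
    _ ≤ _ := le_of_tendsto_of_tendsto' (hsum.hasSum.tendsto_sum_nat.const_mul η) h3.norm
      fun N => hw.2 _ a

end

end Crest.Agent.R114
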