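import Crest.Agent.R114.DefsB

/-! Row 114 part B, task DR (Dvoretzky-Rogers). -/

set_option autoImplicit false

namespace Crest.Agent.R114

open Filter Topology

noncomputable section

section
variable {𝕜 : Type} [RCLike 𝕜] {E : Type} [NormedAddCommGroup E] [InnerProductSpace 𝕜 E]
  [FiniteDimensional 𝕜 E] {Z : Type*} [NormedAddCommGroup Z] [NormedSpace 𝕜 Z]

lemma dr_max (u0 : E →ₗ[𝕜] Z) (hinj : Function.Injective u0) :
    ∃ A : E →L[𝕜] E, (∀ v, ‖u0 (A v)‖ ≤ ‖v‖) ∧ 0 < ‖A.det‖ ∧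
      ∀ B : E →L[𝕜] E, (∀ v, ‖u0 (B v)‖ ≤ ‖v‖) → ‖B.det‖ ≤ ‖A.det‖ := by
  haveI : CompleteSpace E := FiniteDimensional.complete 𝕜 E
  haveI : ProperSpace (E →L[𝕜] E) := FiniteDimensional.proper_rclike 𝕜 _
  obtain ⟨K, hK0, hK⟩ := u0.exists_antilipschitzWith (LinearMap.ker_eq_bot.2 hinj)
  have hu : Continuous u0 := u0.continuous_of_finiteDimensional
  set S : Set (E →L[𝕜] E) := {A | ∀ v, ‖u0 (A v)‖ ≤ ‖v‖} with hS
  have hcl : IsClosed S := by
    have : S = ⋂ v, {A : E →L[𝕜] E | ‖u0 (A v)‖ ≤ ‖v‖} := by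
      ext A; simp [hS]
    rw [this]
    refine isClosed_iInter fun v => isClosed_le ?_ continuous_const
    exact (hu.comp (ContinuousLinearMap.apply 𝕜 E v).continuous).norm
  have hbd : Bornology.IsBounded S := by
    refine (Metric.isBounded_closedBall (x := (0 : E →L[𝕜] E)) (r := K)).subset fun A hA => ?_
    rw [mem_closedBall_zero_iff]
    refine A.opNorm_le_bound K.2 fun v => ?_
    have h1 := hK.le_mul_dist (A v) 0
    rw [dist_zero_right, map_zero, dist_zero_right] at h1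
    exact h1.trans (mul_le_mul_of_nonneg_left (hA v) K.2)
  have hc : IsCompact S := Metric.isCompact_of_isClosed_isBounded hcl hbd
  set u1 : E →L[𝕜] Z := LinearMap.toContinuousLinearMap u0 with hu1
  set c : ℝ := (‖u1‖ + 1)⁻¹ with hcdef
  have hcpos : 0 < c := by positivity
  have hmem : ((c : 𝕜) • (1 : E →L[𝕜] E)) ∈ S := by
    intro v
    have h1 : ‖u0 v‖ ≤ ‖u1‖ * ‖v‖ := u1.le_opNorm v
    simp only [ContinuousLinearMap.smul_apply, ContinuousLinearMap.one_apply, map_smul, norm_smul,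
      RCLike.norm_ofReal, abs_of_pos hcpos]
    have h2 : c * ‖u1‖ ≤ 1 := by
      rw [hcdef, inv_mul_le_iff₀ (by positivity)]; linarith
    calc c * ‖u0 v‖ ≤ c * (‖u1‖ * ‖v‖) := by gcongr
      _ = (c * ‖u1‖) * ‖v‖ := by ring
      _ ≤ 1 * ‖v‖ := by gcongr
      _ = ‖v‖ := one_mul _
  obtain ⟨A, hA, hmax⟩ := hc.exists_isMaxOn ⟨_, hmem⟩
    (f := fun A : E →L[𝕜] E => ‖A.det‖) ContinuousLinearMap.continuous_det.norm.continuousOn
  refine ⟨A, hA, lt_of_lt_of_le ?_ (hmax hmem), fun B hB => hmax hB⟩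
  have : ((c : 𝕜) • (1 : E →L[𝕜] E)).det = (c : 𝕜) ^ Module.finrank 𝕜 E := by
    have h1 : (((c : 𝕜) • (1 : E →L[𝕜] E) : E →L[𝕜] E) : E →ₗ[𝕜] E) = (c : 𝕜) • LinearMap.id := by
      ext v; simp
    unfold ContinuousLinearMap.det
    rw [h1, LinearMap.det_smul, LinearMap.det_id, mul_one]
  show 0 < ‖((c : 𝕜) • (1 : E →L[𝕜] E)).det‖
  rw [this, norm_pow, RCLike.norm_ofReal, abs_of_pos hcpos]
  positivity

lemma dr_T (W : Submodule 𝕜 E) :
    ∃ T : E →ₗ[𝕜] E, (∀ v, T v = (2⁻¹ : 𝕜) • v + (2 : 𝕜) • W.starProjection v) ∧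
      ‖LinearMap.det T‖ = (5 / 2 : ℝ) ^ Module.finrank 𝕜 W * (2⁻¹ : ℝ) ^ Module.finrank 𝕜 Wᗮ := by
  haveI : CompleteSpace E := FiniteDimensional.complete 𝕜 E
  set e := W.prodEquivOfIsCompl Wᗮ W.isCompl_orthogonal with he
  set D : (W × Wᗮ) →ₗ[𝕜] (W × Wᗮ) :=
    LinearMap.prodMap ((5 / 2 : 𝕜) • LinearMap.id) ((2⁻¹ : 𝕜) • LinearMap.id) with hD
  refine ⟨(e : (W × Wᗮ) →ₗ[𝕜] E) ∘ₗ D ∘ₗ (e.symm : E →ₗ[𝕜] (W × Wᗮ)), fun v => ?_, ?_⟩
  · obtain ⟨⟨a, b⟩, rfl⟩ := e.surjective v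
    have hp : W.starProjection (e (a, b)) = a := by
      have h1 : e (a, b) = (a : E) + (b : E) := by simp [he]
      rw [h1, map_add, Submodule.starProjection_eq_self_iff.2 a.2,
        (Submodule.starProjection_apply_eq_zero_iff W).2 b.2, add_zero]
    rw [hp]
    simp only [LinearMap.comp_apply, LinearEquiv.coe_coe, LinearEquiv.symm_apply_apply, hD,
      LinearMap.prodMap_apply, LinearMap.smul_apply, LinearMap.id_apply]
    simp only [he, Submodule.coe_prodEquivOfIsCompl', Submodule.coe_smul, smul_add]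
    have : (5 / 2 : 𝕜) = 2⁻¹ + 2 := by norm_num
    rw [this, add_smul]; abel
  · rw [LinearMap.det_conj, hD, LinearMap.det_prodMap, LinearMap.det_smul, LinearMap.det_smul,
      LinearMap.det_id, LinearMap.det_id, mul_one, mul_one, norm_mul, norm_pow, norm_pow]
    congr 2
    · rw [norm_div]; simp
    · rw [norm_inv]; simp

lemma dr_orth (m : ℕ) (hE : Module.finrank 𝕜 E = 2 * m) (u0 : E →ₗ[𝕜] Z)
    (hinj : Function.Injective u0) :
    ∃ u : E →ₗ[𝕜] Z, (∀ v, ‖u v‖ ≤ ‖v‖) ∧ ∃ e : Fin m → E, Orthonormal 𝕜 e ∧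
      ∀ i, 1 / 4 ≤ ‖u (e i)‖ := by
  haveI : CompleteSpace E := FiniteDimensional.complete 𝕜 E
  obtain ⟨A, hA, hpos, hmax⟩ := dr_max u0 hinj
  set u : E →ₗ[𝕜] Z := u0 ∘ₗ (A : E →ₗ[𝕜] E) with hu
  have hu1 : ∀ v, ‖u v‖ ≤ ‖v‖ := hA
  refine ⟨u, hu1, ?_⟩
  have key : ∀ k, k ≤ m → ∃ e : Fin k → E, Orthonormal 𝕜 e ∧ ∀ i, 1 / 4 ≤ ‖u (e i)‖ := by
    intro k
    induction k with
    | zero => exact fun _ => ⟨fun i => i.elim0, Orthonormal.of_isEmpty _, fun i => i.elim0⟩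
    | succ k ih =>
      intro hk
      obtain ⟨e, he, hge⟩ := ih (by omega)
      set V : Submodule 𝕜 E := Submodule.span 𝕜 (Set.range e) with hV
      have hVd : Module.finrank 𝕜 V = k := by
        rw [hV, finrank_span_eq_card he.linearIndependent, Fintype.card_fin]
      have hWd : Module.finrank 𝕜 Vᗮ = 2 * m - k := by
        have := V.finrank_add_finrank_orthogonal
        omega
      by_contra hcon
      have hsmall : ∀ w ∈ Vᗮ, ‖u w‖ ≤ ‖w‖ / 4 := by
        intro w hw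
        by_cases hw0 : w = 0
        · simp [hw0]
        by_contra hlt
        push Not at hlt
        have hn : 0 < ‖w‖ := norm_pos_iff.2 hw0
        apply hcon
        refine ⟨Matrix.vecCons (((‖w‖⁻¹ : ℝ) : 𝕜) • w) e, ?_, ?_⟩
        · rw [orthonormal_vecCons_iff]
          refine ⟨?_, fun i => ?_, he⟩
          · rw [norm_smul, RCLike.norm_ofReal, abs_of_pos (inv_pos.2 hn), inv_mul_cancel₀ hn.ne']
          · rw [inner_smul_left, Submodule.inner_left_of_mem_orthogonal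
              (Submodule.subset_span (Set.mem_range_self i)) hw, mul_zero]
        · intro i
          refine Fin.cases ?_ (fun j => ?_) i
          · simp only [Matrix.cons_val_zero, map_smul, norm_smul, RCLike.norm_ofReal,
              abs_of_pos (inv_pos.2 hn)]
            rw [le_inv_mul_iff₀ hn]; linarith
          · simpa using hge j
      obtain ⟨T, hT, hdet⟩ := dr_T Vᗮ
      have hB : ∀ v, ‖u0 ((A ∘L LinearMap.toContinuousLinearMap T) v)‖ ≤ ‖v‖ := by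
        intro v
        have h1 : u0 ((A ∘L LinearMap.toContinuousLinearMap T) v) = u (T v) := rfl
        rw [h1, hT, map_add, map_smul, map_smul]
        have h2 := hsmall _ (Vᗮ.starProjection_apply_mem v)
        have h3 : ‖Vᗮ.starProjection v‖ ≤ ‖v‖ := Vᗮ.norm_starProjection_apply_le v
        have h4 := hu1 v
        calc _ ≤ ‖(2⁻¹ : 𝕜) • u v‖ + ‖(2 : 𝕜) • u (Vᗮ.starProjection v)‖ := norm_add_le _ _
          _ = 2⁻¹ * ‖u v‖ + 2 * ‖u (Vᗮ.starProjection v)‖ := by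
            rw [norm_smul, norm_smul, norm_inv]; simp
          _ ≤ ‖v‖ := by linarith
      have h5 := hmax _ hB
      have h6 : (A ∘L LinearMap.toContinuousLinearMap T).det = A.det * LinearMap.det T := by
        unfold ContinuousLinearMap.det
        rw [← LinearMap.det_comp]; rfl
      rw [h6, norm_mul, hdet, Submodule.orthogonal_orthogonal, hVd, hWd] at h5
      have h7 : (1 : ℝ) < (5 / 2 : ℝ) ^ (2 * m - k) * (2⁻¹ : ℝ) ^ k := by
        have : 2 * m - k = (2 * m - 2 * k) + k := by omega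
        rw [this, pow_add, mul_assoc, ← mul_pow]
        have h8 : (1 : ℝ) < (5 / 2 : ℝ) ^ (2 * m - 2 * k) := one_lt_pow₀ (by norm_num) (by omega)
        have h9 : (1 : ℝ) ≤ (5 / 2 * 2⁻¹ : ℝ) ^ k := one_le_pow₀ (by norm_num)
        nlinarith
      nlinarith
  exact key m le_rfl

end

theorem dr_proof {𝕜 : Type} [RCLike 𝕜] {X : Type*} [NormedAddCommGroup X] [NormedSpace 𝕜 X] :
    DRStmt 𝕜 X := by
  intro hX ε hε
  have hD : ¬ FiniteDimensional 𝕜 (StrongDual 𝕜 X) := fun h => hX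
    (FiniteDimensional.of_injective (NormedSpace.inclusionInDoubleDualLi 𝕜 (E := X)).toLinearMap
      (NormedSpace.inclusionInDoubleDualLi 𝕜 (E := X)).injective)
  obtain ⟨m, hm⟩ := exists_nat_gt (16 / ε ^ 2)
  have hm0 : (0 : ℝ) < m := lt_trans (by positivity) hm
  have hrank : ((2 * m : ℕ) : Cardinal) ≤ Module.rank 𝕜 (StrongDual 𝕜 X) := by
    have h1 : Cardinal.aleph0 ≤ Module.rank 𝕜 (StrongDual 𝕜 X) := by
      by_contra h
      exact hD (Module.rank_lt_aleph0_iff.1 (not_le.1 h))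
    exact (Cardinal.natCast_le_aleph0).trans h1
  obtain ⟨f, hf⟩ := Module.le_rank_iff_exists_linearMap.1 hrank
  set u0 : EuclideanSpace 𝕜 (Fin (2 * m)) →ₗ[𝕜] StrongDual 𝕜 X :=
    f ∘ₗ (WithLp.linearEquiv 2 𝕜 (Fin (2 * m) → 𝕜)).toLinearMap with hu0
  have hinj : Function.Injective u0 := hf.comp (WithLp.linearEquiv 2 𝕜 (Fin (2 * m) → 𝕜)).injective
  obtain ⟨u, hu, e, he, hge⟩ := dr_orth m (by simp) u0 hinj
  have hb : ∀ x : X, ∑ i, ‖u (e i) x‖ ^ 2 ≤ ‖x‖ ^ 2 := by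
    intro x
    set φ : EuclideanSpace 𝕜 (Fin (2 * m)) →L[𝕜] 𝕜 :=
      LinearMap.toContinuousLinearMap ((ContinuousLinearMap.apply 𝕜 𝕜 x).toLinearMap ∘ₗ u) with hφ
    have hφv : ∀ v, φ v = u v x := fun v => rfl
    have hφn : ‖φ‖ ≤ ‖x‖ := by
      refine φ.opNorm_le_bound (norm_nonneg _) fun v => ?_
      rw [hφv, mul_comm ‖x‖]
      exact ((u v).le_opNorm x).trans (mul_le_mul_of_nonneg_right (hu v) (norm_nonneg _))
    set z := (InnerProductSpace.toDual 𝕜 _).symm φ with hz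
    have hzn : ‖z‖ = ‖φ‖ := by rw [hz, LinearIsometryEquiv.norm_map]
    have h1 : ∀ i, ‖u (e i) x‖ = ‖inner 𝕜 (e i) z‖ := by
      intro i
      rw [norm_inner_symm, hz, InnerProductSpace.toDual_symm_apply, hφv]
    simp_rw [h1]
    refine (he.sum_inner_products_le z).trans ?_
    rw [hzn]; gcongr
  set s : ℝ := ∑ i, ‖u (e i)‖ ^ 2 with hs
  have hsm : (m : ℝ) / 16 ≤ s := by
    calc (m : ℝ) / 16 = ∑ _i : Fin m, (1 / 4 : ℝ) ^ 2 := by simp; ring
      _ ≤ s := Finset.sum_le_sum fun i _ => by have := hge i; gcongr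
  have hs0 : 0 < s := lt_of_lt_of_le (by positivity) hsm
  have hq : 0 < (√s)⁻¹ := inv_pos.2 (Real.sqrt_pos.2 hs0)
  have hq2 : ((√s)⁻¹) ^ 2 = s⁻¹ := by rw [inv_pow, Real.sq_sqrt hs0.le]
  refine ⟨m, fun i => (((√s)⁻¹ : ℝ) : 𝕜) • u (e i), fun i => ?_, ?_, fun x => ?_⟩
  · have h0 : u (e i) ≠ 0 := fun h => by
      have := hge i
      rw [h, norm_zero] at this; norm_num at this
    exact smul_ne_zero (RCLike.ofReal_ne_zero.2 hq.ne') h0
  · simp_rw [norm_smul, RCLike.norm_ofReal, abs_of_pos hq, mul_pow, hq2]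
    rw [← Finset.mul_sum, ← hs, inv_mul_cancel₀ hs0.ne']
  · simp_rw [ContinuousLinearMap.smul_apply, norm_smul, RCLike.norm_ofReal, abs_of_pos hq, mul_pow,
      hq2]
    rw [← Finset.mul_sum]
    have h1 : s⁻¹ ≤ ε ^ 2 := by
      rw [inv_le_comm₀ hs0 (by positivity)]
      refine le_trans ?_ hsm
      rw [div_lt_iff₀ (by positivity)] at hm
      rw [le_div_iff₀ (by norm_num), inv_mul_le_iff₀ (by positivity)]
      linarith
    exact mul_le_mul h1 (hb x) (Finset.sum_nonneg fun i _ => by positivity) (by positivity)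

end

end Crest.Agent.R114
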