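import Crest.Agent.R114.DefsB

/-! Row 114, task B-HJ: the Hagler-Johnson dichotomy. -/

set_option autoImplicit false

namespace Crest.Agent.R114

open Filter Topology

noncomputable section

variable {𝕜 : Type} [RCLike 𝕜] {X : Type*} [NormedAddCommGroup X] [NormedSpace 𝕜 X]

namespace HJ

/-- successive finite sets -/
def Suc (S : ℕ → Finset ℕ) : Prop := ∀ n m, n < m → ∀ i ∈ S n, ∀ j ∈ S m, i < j

theorem Suc.idx {S : ℕ → Finset ℕ} (h : Suc S) : ∃ idx : ℕ → ℕ, ∀ n, ∀ j ∈ S n, idx j = n := by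
  classical
  refine ⟨fun j => if h : ∃ n, j ∈ S n then h.choose else 0, fun n j hj => ?_⟩
  have h1 : ∃ n, j ∈ S n := ⟨n, hj⟩
  simp only [dif_pos h1]
  rcases lt_trichotomy h1.choose n with h2 | h2 | h2
  · exact absurd (h _ _ h2 j h1.choose_spec j hj) (lt_irrefl _)
  · exact h2
  · exact absurd (h _ _ h2 j hj j h1.choose_spec) (lt_irrefl _)

theorem sum_blk {M : Type*} [AddCommMonoid M] {S : ℕ → Finset ℕ} {idx : ℕ → ℕ}
    (h : ∀ n, ∀ j ∈ S n, idx j = n) (A : Finset ℕ) (F : ℕ → ℕ → M) :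
    ∑ j ∈ A.biUnion S, F (idx j) j = ∑ n ∈ A, ∑ j ∈ S n, F n j := by
  rw [Finset.sum_biUnion]
  · exact Finset.sum_congr rfl fun n _ => Finset.sum_congr rfl fun j hj => by rw [h n j hj]
  · intro n _ m _ hnm
    exact Finset.disjoint_left.2 fun j h1 h2 => hnm ((h n j h1).symm.trans (h m j h2))

theorem Suc.le {S : ℕ → Finset ℕ} (h : Suc S) (hne : ∀ n, (S n).Nonempty) :
    ∀ n, ∀ j ∈ S n, n ≤ j := by
  intro n
  induction n with
  | zero => exact fun j _ => Nat.zero_le j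
  | succ n ih =>
    intro j hj
    obtain ⟨i, hi⟩ := hne n
    exact Nat.succ_le_of_lt ((ih i hi).trans_lt (h _ _ (Nat.lt_succ_self n) i hi j hj))

theorem ne_of_sum {S : Finset ℕ} {a : ℕ → 𝕜} (h : ∑ i ∈ S, ‖a i‖ = 1) : S.Nonempty := by
  rw [Finset.nonempty_iff_ne_empty]
  rintro rfl
  simp at h

theorem blk_of {v w : ℕ → StrongDual 𝕜 X} {S : ℕ → Finset ℕ} (hS : Suc S)
    (h : ∀ n, ∃ a : ℕ → 𝕜, ∑ i ∈ S n, ‖a i‖ = 1 ∧ v n = ∑ i ∈ S n, a i • w i) : Blk v w := by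
  obtain ⟨idx, hi⟩ := hS.idx
  choose a h1 h2 using h
  refine ⟨S, fun j => a (idx j) j, hS, fun n => ?_, fun n => ?_⟩
  · rw [← h1 n]
    exact Finset.sum_congr rfl fun j hj => by simp only [hi n j hj]
  · rw [h2 n]
    exact Finset.sum_congr rfl fun j hj => by simp only [hi n j hj]

theorem blk_refl (w : ℕ → StrongDual 𝕜 X) : Blk w w :=
  ⟨fun n => {n}, fun _ => 1, fun n m h i hi j hj => by
    rw [Finset.mem_singleton.1 hi, Finset.mem_singleton.1 hj]; exact h, by simp, by simp⟩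

theorem blk_trans {v w u : ℕ → StrongDual 𝕜 X} (h : Blk v w) (h' : Blk w u) : Blk v u := by
  obtain ⟨S, a, hS, ha, hv⟩ := h
  obtain ⟨T, b, hT, hb, hw⟩ := h'
  obtain ⟨idx, hi⟩ := Suc.idx hT
  refine ⟨fun n => (S n).biUnion T, fun j => a (idx j) * b j, fun n m hnm i hi' j hj => ?_,
    fun n => ?_, fun n => ?_⟩
  · obtain ⟨k, hk, hik⟩ := Finset.mem_biUnion.1 hi'
    obtain ⟨l, hl, hjl⟩ := Finset.mem_biUnion.1 hj
    exact hT k l (hS n m hnm k hk l hl) i hik j hjl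
  · rw [sum_blk hi (S n) fun k j => ‖a k * b j‖, ← ha n]
    refine Finset.sum_congr rfl fun k _ => ?_
    simp only [norm_mul, ← Finset.mul_sum, hb k, mul_one]
  · rw [sum_blk hi (S n) fun k j => (a k * b j) • u j, hv n]
    refine Finset.sum_congr rfl fun k _ => ?_
    simp only [hw k, Finset.smul_sum, mul_smul]

theorem blk_l1 {η : ℝ} {v w : ℕ → StrongDual 𝕜 X} (h : Blk v w) (hw : L1Seq η w) :
    L1Seq η v := by
  obtain ⟨S, a, hS, ha, hv⟩ := h
  obtain ⟨idx, hi⟩ := Suc.idx hS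
  refine ⟨fun n => ?_, fun A c => ?_⟩
  · rw [hv n, ← ha n]
    refine (norm_sum_le _ _).trans (Finset.sum_le_sum fun i _ => ?_)
    rw [norm_smul]
    exact mul_le_of_le_one_right (norm_nonneg _) (hw.1 i)
  · have h1 := hw.2 (A.biUnion S) fun j => c (idx j) * a j
    rw [sum_blk hi A fun k j => ‖c k * a j‖, sum_blk hi A fun k j => (c k * a j) • w j] at h1
    simp only [norm_mul, ← Finset.mul_sum, ha, mul_one, mul_smul, ← Finset.smul_sum, ← hv] at h1
    exact h1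

theorem blk_bound {v w : ℕ → StrongDual 𝕜 X} (h : Blk v w) {x : X} {δ : ℝ} {N : ℕ}
    (hw : ∀ n, N ≤ n → ‖w n x‖ ≤ δ) : ∀ n, N ≤ n → ‖v n x‖ ≤ δ := by
  obtain ⟨S, a, hS, ha, hv⟩ := h
  intro n hn
  have h1 := Suc.le hS (fun n => ne_of_sum (ha n)) n
  rw [hv n, _root_.sum_apply, ← one_mul δ, ← ha n, Finset.sum_mul]
  refine (norm_sum_le _ _).trans (Finset.sum_le_sum fun i hi => ?_)
  rw [_root_.smul_apply, norm_smul]
  exact mul_le_mul_of_nonneg_left (hw i (hn.trans (h1 i hi))) (norm_nonneg _)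

end HJ

open HJ in
theorem hj_proof : HJStmt 𝕜 X := by
  intro η u hu
  rw [or_iff_not_imp_right]
  intro H
  have H' : ∀ (w : {w : ℕ → StrongDual 𝕜 X // L1Seq η w}) (k : ℕ),
      ∃ v : {w : ℕ → StrongDual 𝕜 X // L1Seq η w}, Blk v.1 w.1 ∧
        ∀ x : X, ‖x‖ ≤ 1 → ∀ᶠ n in atTop, ‖v.1 n x‖ < (1 / 2 : ℝ) ^ k := by
    intro w k
    by_contra hc
    refine H ⟨w.1, (1 / 2) ^ k, by positivity, w.2, fun v hv => ?_⟩
    by_contra hc'
    refine hc ⟨⟨v, blk_l1 hv w.2⟩, hv, fun x hx => ?_⟩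
    by_contra h3
    exact hc' ⟨x, hx, by simpa only [not_eventually, not_lt] using h3⟩
  choose f hf hf' using H'
  let W : ℕ → {w : ℕ → StrongDual 𝕜 X // L1Seq η w} := fun k =>
    Nat.rec ⟨u, hu⟩ (fun k w => f w k) k
  have hW : ∀ k, W (k + 1) = f (W k) k := fun k => rfl
  have hB : ∀ k l, k ≤ l → Blk (W l).1 (W k).1 := by
    intro k l hkl
    induction l, hkl using Nat.le_induction with
    | base => exact blk_refl _
    | succ l _ ih => exact blk_trans (hf (W l) l) ih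
  choose S a hS ha hv using fun k => hB 0 k (Nat.zero_le k)
  let m : ℕ → ℕ := fun k => Nat.rec 0 (fun k r => r + (S k r).sup id + 1) k
  have hm : ∀ k, m (k + 1) = m k + (S k (m k)).sup id + 1 := fun k => rfl
  have hmono : StrictMono m := strictMono_nat_of_lt_succ fun k => by rw [hm]; omega
  have hd : Blk (fun k => (W k).1 (m k)) u := by
    refine blk_of (S := fun k => S k (m k)) (fun n l hnl i hi j hj => ?_)
      fun k => ⟨a k, ha k _, hv k _⟩
    have h1 : i ≤ (S n (m n)).sup id := Finset.le_sup (f := id) hi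
    have h2 := hmono.monotone (Nat.succ_le_of_lt hnl)
    have h3 := Suc.le (hS l) (fun n => ne_of_sum (ha l n)) _ j hj
    rw [hm] at h2
    omega
  have key : ∀ x : X, ‖x‖ ≤ 1 → Tendsto (fun k => (W k).1 (m k) x) atTop (𝓝 0) := by
    intro x hx
    rw [NormedAddGroup.tendsto_nhds_zero]
    intro ε hε
    obtain ⟨k₀, hk₀⟩ := exists_pow_lt_of_lt_one hε (show (1 / 2 : ℝ) < 1 by norm_num)
    obtain ⟨N, hN⟩ := eventually_atTop.1 (hf' (W k₀) k₀ x hx)
    filter_upwards [eventually_ge_atTop N, eventually_ge_atTop (k₀ + 1)] with k h1 h2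
    exact (blk_bound (hB _ _ h2) (fun n hn => (hN n hn).le) _
      (h1.trans (hmono.id_le k))).trans_lt hk₀
  refine ⟨_, blk_l1 hd hu, fun x => ?_⟩
  have hc : (0 : ℝ) < ‖x‖ + 1 := by positivity
  have hc' : ((‖x‖ + 1 : ℝ) : 𝕜) ≠ 0 := by exact_mod_cast hc.ne'
  have h1 := (key ((((‖x‖ + 1 : ℝ) : 𝕜))⁻¹ • x) (by
    rw [norm_smul, norm_inv, RCLike.norm_ofReal, abs_of_pos hc, inv_mul_le_iff₀ hc]
    linarith)).const_mul ((‖x‖ + 1 : ℝ) : 𝕜)
  simpa only [map_smul, smul_eq_mul, mul_inv_cancel_left₀ hc', mul_zero] using h1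

end

end Crest.Agent.R114
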