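import Crest.Agent.R114.BSurj

/-! Row 114, task B-HELLY. -/

set_option autoImplicit false

namespace Crest.Agent.R114

open Filter Topology

namespace HellyAux

variable {𝕜 : Type} [RCLike 𝕜] {X : Type*} [NormedAddCommGroup X] [NormedSpace 𝕜 X]

theorem exists_dual {ψ : ℕ → StrongDual 𝕜 X} (h : Star ψ) (i : ℕ) :
    ∃ e : X, ‖e‖ ≤ 2 ∧ ψ i e = 1 ∧ ∀ j, j ≠ i → ψ j e = 0 := by
  obtain ⟨x, hx, h1, h2⟩ := h.2 {i} (fun _ => 1)
  simp only [Finset.sum_singleton, one_smul, one_mul, h.1 i] at h1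
  have hne : ψ i x ≠ 0 := by
    intro h0
    rw [h0, norm_zero] at h1
    linarith
  have hpos : 0 < ‖ψ i x‖ := norm_pos_iff.2 hne
  refine ⟨(ψ i x)⁻¹ • x, ?_, by rw [map_smul, smul_eq_mul, inv_mul_cancel₀ hne], fun j hj => ?_⟩
  · rw [norm_smul, norm_inv]
    have : ‖ψ i x‖⁻¹ ≤ 2 := by
      rw [inv_le_comm₀ hpos two_pos]
      linarith
    nlinarith [inv_pos.2 hpos]
  · rw [map_smul, h2 j (by simpa using hj), smul_zero]

end HellyAux

theorem helly_proof {𝕜 : Type} [RCLike 𝕜] {X : Type*} [NormedAddCommGroup X] [NormedSpace 𝕜 X] :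
    HellyStmt 𝕜 X := by
  classical
  intro ψ hψ A c N hN hc
  rcases hN.eq_or_lt with h0 | hN
  · refine ⟨0, by simp [← h0], fun i hi => ?_, fun j _ => map_zero _⟩
    have := hc (Pi.single i 1)
    rw [← h0, zero_mul, Finset.sum_eq_single i (fun j _ hj => by simp [hj]) (fun h => absurd hi h)]
      at this
    simp only [Pi.single_eq_same, one_mul, norm_le_zero_iff] at this
    rw [map_zero, this]
  choose e he1 he2 he3 using HellyAux.exists_dual hψ
  let XA : Submodule 𝕜 X :=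
    { carrier := {x | ∀ j, j ∉ A → ψ j x = 0}
      add_mem' := fun ha hb j hj => by rw [map_add, ha j hj, hb j hj, add_zero]
      zero_mem' := fun j _ => map_zero _
      smul_mem' := fun r x hx j hj => by rw [map_smul, hx j hj, smul_zero] }
  let R : XA →L[𝕜] (A → 𝕜) := ContinuousLinearMap.pi fun i : A => (ψ i).comp XA.subtypeL
  let k : 𝕜 := ((2 * N : ℝ) : 𝕜)
  have hk : ‖k‖ = 2 * N := by
    rw [RCLike.norm_ofReal, abs_of_pos (by positivity)]
  have hk0 : k ≠ 0 := norm_pos_iff.1 (by rw [hk]; positivity)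
  let y : A → 𝕜 := fun i => k⁻¹ * c i
  have hε : (0 : ℝ) < 1 / (4 * (A.card + 1)) := by positivity
  obtain ⟨x₀, hx₀, hd⟩ := SurjAux.approx R y (fun φ u hu => by
    let a : ℕ → 𝕜 := fun i => if h : i ∈ A then φ (Pi.single ⟨i, h⟩ 1) else 0
    have hφ : ∀ v : ℕ → 𝕜, φ (fun i : A => v i) = ∑ i ∈ A, a i * v i := fun v => by
      have : (fun i : A => v i) = ∑ i : A, v i • (Pi.single i 1 : A → 𝕜) := by
        ext j
        simp [Finset.sum_apply, Pi.single_apply]
      rw [this, map_sum, ← Finset.sum_coe_sort A]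
      refine Finset.sum_congr rfl fun i _ => ?_
      simp only [a, map_smul, smul_eq_mul, i.2, dif_pos]
      ring
    obtain ⟨x, hx, h1, h2⟩ := hψ.2 A a
    have h3 := hu ⟨x, h2⟩ hx
    have h4 : φ (R ⟨x, h2⟩) = ∑ i ∈ A, a i * ψ i x := hφ fun i => ψ i x
    have h5 : φ y = k⁻¹ * ∑ i ∈ A, a i * c i := by
      rw [hφ fun i => k⁻¹ * c i, Finset.mul_sum]
      exact Finset.sum_congr rfl fun i _ => by ring
    rw [h4] at h3
    rw [h5, norm_mul, norm_inv, hk, inv_mul_le_iff₀ (by positivity)]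
    have h6 := hc a
    nlinarith) hε
  let x₁ : X := (x₀ : X) + ∑ i ∈ A, (k⁻¹ * c i - ψ i x₀) • e i
  have hx₁ : ‖x₁‖ ≤ 3 / 2 := by
    refine (norm_add_le _ _).trans ?_
    have h1 : ‖∑ i ∈ A, (k⁻¹ * c i - ψ i x₀) • e i‖ ≤ ∑ _i ∈ A, 1 / (4 * ((A.card : ℝ) + 1)) * 2 := by
      refine (norm_sum_le _ _).trans (Finset.sum_le_sum fun i hi => ?_)
      rw [norm_smul]
      have : ‖k⁻¹ * c i - ψ i x₀‖ ≤ 1 / (4 * ((A.card : ℝ) + 1)) := by
        rw [norm_sub_rev]
        exact (norm_le_pi_norm (R x₀ - y) ⟨i, hi⟩).trans hd.le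
      exact mul_le_mul this (he1 i) (norm_nonneg _) hε.le
    rw [Finset.sum_const, nsmul_eq_mul] at h1
    have h2 : (A.card : ℝ) * (1 / (4 * ((A.card : ℝ) + 1)) * 2) ≤ 1 / 2 := by
      rw [← mul_assoc, mul_one_div, div_mul_eq_mul_div, div_le_iff₀ (by positivity)]
      linarith
    have h3 : ‖(x₀ : X)‖ ≤ 1 := hx₀
    linarith
  refine ⟨k • x₁, ?_, fun i hi => ?_, fun j hj => ?_⟩
  · rw [norm_smul, hk]
    nlinarith
  · rw [map_smul, map_add, map_sum, Finset.sum_eq_single i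
      (fun j _ hj => by rw [map_smul, he3 j i hj.symm, smul_zero]) (fun h => absurd hi h),
      map_smul, he2, smul_eq_mul, smul_eq_mul]
    field_simp
    ring
  · rw [map_smul, map_add, map_sum, x₀.2 j hj, Finset.sum_eq_zero
      (fun i hi => by rw [map_smul, he3 i j (fun h => hj (h ▸ hi)), smul_zero]), add_zero, smul_zero]

end Crest.Agent.R114
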