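import Crest.Agent.R114.DefsB

/-! Row 114 part B, task KEY. -/

set_option autoImplicit false

namespace Crest.Agent.R114

open Filter Topology MeasureTheory
open scoped ENNReal

noncomputable section

variable {𝕜 : Type} [RCLike 𝕜] {X : Type*} [NormedAddCommGroup X] [NormedSpace 𝕜 X]

lemma key_hb (E : Submodule 𝕜 X) (hE : ¬ Dense (E : Set X)) :
    ∃ ψ : StrongDual 𝕜 X, ‖ψ‖ = 1 ∧ ∀ x ∈ E, ψ x = 0 := by
  simp only [Dense, not_forall] at hE
  obtain ⟨x0, hx0⟩ := hE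
  set F := E.topologicalClosure with hF
  haveI : IsClosed (F : Set X) := E.isClosed_topologicalClosure
  have h0 : (F.mkQ x0) ≠ 0 := by
    rw [Submodule.mkQ_apply, Ne, Submodule.Quotient.mk_eq_zero]
    exact hx0
  obtain ⟨f, -, hf⟩ := exists_dual_vector 𝕜 (F.mkQ x0) (norm_ne_zero_iff.2 h0)
  set g : StrongDual 𝕜 X := f ∘L F.mkQL with hg
  have hg0 : g ≠ 0 := by
    intro h
    have h1 : g x0 = 0 := by rw [h]; rfl
    have h2 : g x0 = f (F.mkQ x0) := rfl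
    rw [h2, hf] at h1
    exact h0 (norm_eq_zero.1 (by exact_mod_cast h1))
  have hn : 0 < ‖g‖ := norm_pos_iff.2 hg0
  refine ⟨((‖g‖⁻¹ : ℝ) : 𝕜) • g, ?_, fun x hx => ?_⟩
  · rw [norm_smul, RCLike.norm_ofReal, abs_of_pos (inv_pos.2 hn), inv_mul_cancel₀ hn.ne']
  · have h2 : g x = f (F.mkQ x) := rfl
    have h3 : F.mkQ x = 0 := by
      rw [Submodule.mkQ_apply, Submodule.Quotient.mk_eq_zero]
      exact E.le_topologicalClosure hx
    rw [smul_apply, h2, h3, map_zero, smul_zero]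

/-- the subspace of vectors on which a sequence of functionals is absolutely summable -/
def keyE (g : ℕ → StrongDual 𝕜 X) : Submodule 𝕜 X where
  carrier := {x | Summable fun j => ‖g j x‖}
  add_mem' := fun {a b} ha hb => Summable.of_nonneg_of_le (fun _ => norm_nonneg _)
    (fun j => by rw [map_add]; exact norm_add_le _ _) (Summable.add ha hb)
  zero_mem' := by simp [summable_zero]
  smul_mem' := fun c a ha => by
    simp only [Set.mem_setOf_eq, map_smul, norm_smul]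
    exact Summable.mul_left _ ha

lemma key_est {n : ℕ} (y : Fin n → StrongDual 𝕜 X) (ε : ℝ) (hε : 0 < ε) (h0 : ∀ i, y i ≠ 0)
    (h1 : ∑ i, ‖y i‖ ^ 2 = 1) (h2 : ∀ x : X, ∑ i, ‖y i x‖ ^ 2 ≤ ε ^ 2 * ‖x‖ ^ 2)
    (μ : Measure TR) (c : TR → Fin n) (hc : ∀ i, μ (c ⁻¹' {i}) = ENNReal.ofReal (‖y i‖ ^ 2))
    (ν : Measure TL) [IsProbabilityMeasure ν] (x : TL → X) :
    ∫⁻ t, ∫⁻ s, ENNReal.ofReal (‖(((‖y (c t)‖⁻¹ : ℝ) : 𝕜) • y (c t)) (x s)‖ / (1 + ‖x s‖)) ∂ν ∂μ ≤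
      ENNReal.ofReal ε := by
  set F : Fin n → ℝ≥0∞ := fun i =>
    ∫⁻ s, ENNReal.ofReal (‖(((‖y i‖⁻¹ : ℝ) : 𝕜) • y i) (x s)‖ / (1 + ‖x s‖)) ∂ν with hF
  have hm : Measurable c := Measurable.of_discrete
  have e1 : ∫⁻ t, F (c t) ∂μ = ∑ i, F i * ENNReal.ofReal (‖y i‖ ^ 2) := by
    rw [← lintegral_map Measurable.of_discrete hm, lintegral_fintype]
    refine Finset.sum_congr rfl fun i _ => ?_
    rw [Measure.map_apply hm (measurableSet_singleton i), hc]
  show ∫⁻ t, F (c t) ∂μ ≤ _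
  rw [e1]
  have e2 : ∀ i, F i * ENNReal.ofReal (‖y i‖ ^ 2) =
      ∫⁻ s, ENNReal.ofReal (‖y i‖ * ‖y i (x s)‖ / (1 + ‖x s‖)) ∂ν := by
    intro i
    rw [hF, ← lintegral_mul_const _ Measurable.of_discrete]
    refine lintegral_congr fun s => ?_
    have hn : 0 < ‖y i‖ := norm_pos_iff.2 (h0 i)
    rw [← ENNReal.ofReal_mul (by positivity), smul_apply, norm_smul, RCLike.norm_ofReal,
      abs_of_pos (inv_pos.2 hn)]
    congr 1
    field_simp
  simp_rw [e2]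
  rw [← lintegral_finset_sum _ fun i _ => Measurable.of_discrete]
  calc _ ≤ ∫⁻ _s, ENNReal.ofReal ε ∂ν := by
        refine lintegral_mono fun s => ?_
        rw [← ENNReal.ofReal_sum_of_nonneg fun i _ => by positivity]
        refine ENNReal.ofReal_le_ofReal ?_
        rw [← Finset.sum_div, div_le_iff₀ (by positivity)]
        have h3 := Real.sum_mul_le_sqrt_mul_sqrt Finset.univ (fun i => ‖y i‖)
          (fun i => ‖y i (x s)‖)
        rw [h1, Real.sqrt_one, one_mul] at h3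
        have h4 : √(∑ i, ‖y i (x s)‖ ^ 2) ≤ ε * ‖x s‖ := by
          rw [Real.sqrt_le_left (by positivity), mul_pow]; exact h2 _
        have h5 : ε * ‖x s‖ ≤ ε * (1 + ‖x s‖) := by gcongr; linarith
        linarith
    _ = ENNReal.ofReal ε := by simp

theorem key_proof (hDR : DRStmt 𝕜 X) (hQ1 : Q1Stmt 𝕜 X) : KeyStmt 𝕜 X := by
  intro hC hX hSQ μ hμ hcut
  choose n y h0 h1 h2 using fun j : ℕ => hDR hX ((2⁻¹ : ℝ) ^ j) (by positivity)
  choose c hc using fun j : ℕ => hcut (n j) (fun i => ‖y j i‖ ^ 2) (fun i => by positivity) (h1 j)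
  set g : TR → ℕ → StrongDual 𝕜 X := fun t j =>
    ((‖y j (c j t)‖⁻¹ : ℝ) : 𝕜) • y j (c j t) with hg
  have hg1 : ∀ t j, ‖g t j‖ = 1 := by
    intro t j
    have hn : 0 < ‖y j (c j t)‖ := norm_pos_iff.2 (h0 j _)
    rw [hg]
    simp only
    rw [norm_smul, RCLike.norm_ofReal, abs_of_pos (inv_pos.2 hn), inv_mul_cancel₀ hn.ne']
  have hnd : ∀ t, ¬ Dense ((keyE (g t) : Submodule 𝕜 X) : Set X) := fun t h =>
    hSQ (hQ1 hC (g t) (hg1 t) h)
  choose ψ hψ1 hψ0 using fun t => key_hb _ (hnd t)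
  refine ⟨ψ, hψ1, fun ν hν x => ?_⟩
  set φ : ℕ → TR → TL → ℝ≥0∞ := fun j t s =>
    ENNReal.ofReal (‖g t j (x s)‖ / (1 + ‖x s‖)) with hφ
  have hest : ∀ j, ∫⁻ t, ∫⁻ s, φ j t s ∂ν ∂μ ≤ ENNReal.ofReal ((2⁻¹ : ℝ) ^ j) := fun j =>
    key_est (y j) _ (by positivity) (h0 j) (h1 j) (h2 j) μ (c j) (hc j) ν x
  have hfin : ∫⁻ t, ∑' j, ∫⁻ s, φ j t s ∂ν ∂μ ≠ ∞ := by
    rw [lintegral_tsum fun j => Measurable.of_discrete.aemeasurable]
    refine ne_top_of_le_ne_top ?_ (ENNReal.tsum_le_tsum hest)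
    rw [← ENNReal.ofReal_tsum_of_nonneg (fun j => by positivity)
      (summable_geometric_of_lt_one (by norm_num) (by norm_num))]
    exact ENNReal.ofReal_ne_top
  filter_upwards [ae_lt_top Measurable.of_discrete hfin] with t ht
  rw [← lintegral_tsum fun j => Measurable.of_discrete.aemeasurable] at ht
  filter_upwards [ae_lt_top Measurable.of_discrete ht.ne] with s hs
  refine hψ0 t _ ?_
  have h3 := ENNReal.summable_toReal hs.ne
  have h4 : ∀ j, (φ j t s).toReal = ‖g t j (x s)‖ / (1 + ‖x s‖) := fun j =>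
    ENNReal.toReal_ofReal (by positivity)
  simp_rw [h4] at h3
  have h5 := h3.mul_right (1 + ‖x s‖)
  have hpos : (1 + ‖x s‖) ≠ 0 := by positivity
  simp_rw [div_mul_cancel₀ _ hpos] at h5
  exact h5

end

end Crest.Agent.R114
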