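import Crest.Agent.R114.DefsB

/-! Row 114 part B, task KHIN. -/

set_option autoImplicit false

namespace Crest.Agent.R114

open Filter Topology

noncomputable section

variable {𝕜 : Type} [RCLike 𝕜]

lemma khin_step (j : ℕ) (a : Fin (j + 1) → 𝕜) (F : 𝕜 → ℝ) :
    ∑ s : Fin (j + 1) → Bool, F (∑ i, a i * sg 𝕜 (s i)) =
      ∑ s : Fin j → Bool, (F (∑ i : Fin j, a i.succ * sg 𝕜 (s i) + a 0) +
        F (∑ i : Fin j, a i.succ * sg 𝕜 (s i) - a 0)) := by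
  rw [← (Fin.consEquiv fun _ : Fin (j + 1) => Bool).sum_comp, Fintype.sum_prod_type,
    Fintype.sum_bool, ← Finset.sum_add_distrib]
  refine Finset.sum_congr rfl fun s _ => ?_
  simp only [Fin.sum_univ_succ, Fin.consEquiv_apply, Fin.cons_zero, Fin.cons_succ]
  congr 2
  · simp [sg, add_comm]
  · simp [sg]; ring

lemma khin_two (j : ℕ) : ∀ a : Fin j → 𝕜,
    ∑ s : Fin j → Bool, ‖∑ i, a i * sg 𝕜 (s i)‖ ^ 2 = 2 ^ j * ∑ i, ‖a i‖ ^ 2 := by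
  induction j with
  | zero => intro a; simp
  | succ j ih =>
    intro a
    rw [khin_step j a fun z => ‖z‖ ^ 2]
    have h1 : ∀ S : 𝕜, ‖S + a 0‖ ^ 2 + ‖S - a 0‖ ^ 2 = 2 * ‖S‖ ^ 2 + 2 * ‖a 0‖ ^ 2 := by
      intro S
      have := parallelogram_law_with_norm 𝕜 S (a 0)
      nlinarith
    simp_rw [h1]
    rw [Finset.sum_add_distrib, ← Finset.mul_sum, ih fun i => a i.succ, Fin.sum_univ_succ]
    simp
    ring

lemma khin_four (j : ℕ) : ∀ a : Fin j → 𝕜,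
    ∑ s : Fin j → Bool, ‖∑ i, a i * sg 𝕜 (s i)‖ ^ 4 ≤ 3 * 2 ^ j * (∑ i, ‖a i‖ ^ 2) ^ 2 := by
  induction j with
  | zero => intro a; simp
  | succ j ih =>
    intro a
    rw [khin_step j a fun z => ‖z‖ ^ 4]
    have h1 : ∀ S : 𝕜, ‖S + a 0‖ ^ 4 + ‖S - a 0‖ ^ 4 ≤
        2 * ‖S‖ ^ 4 + 12 * ‖a 0‖ ^ 2 * ‖S‖ ^ 2 + 2 * ‖a 0‖ ^ 4 := by
      intro S
      have h2 := norm_add_sq (𝕜 := 𝕜) S (a 0)
      have h3 := norm_sub_sq (𝕜 := 𝕜) S (a 0)
      have h4 : |RCLike.re (inner 𝕜 S (a 0))| ≤ ‖S‖ * ‖a 0‖ :=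
        (RCLike.abs_re_le_norm _).trans (norm_inner_le_norm _ _)
      have h5 : (RCLike.re (inner 𝕜 S (a 0))) ^ 2 ≤ (‖S‖ * ‖a 0‖) ^ 2 := by
        rw [← sq_abs]; gcongr
      have h6 : ‖S + a 0‖ ^ 4 = (‖S + a 0‖ ^ 2) ^ 2 := by ring
      have h7 : ‖S - a 0‖ ^ 4 = (‖S - a 0‖ ^ 2) ^ 2 := by ring
      rw [h6, h7, h2, h3]
      nlinarith
    refine (Finset.sum_le_sum fun s _ => h1 _).trans ?_
    rw [Finset.sum_add_distrib, Finset.sum_add_distrib, ← Finset.mul_sum, ← Finset.mul_sum,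
      khin_two j fun i => a i.succ, Fin.sum_univ_succ]
    have h2 := ih fun i => a i.succ
    simp only [Finset.sum_const, Finset.card_univ, Fintype.card_fun, Fintype.card_bool,
      Fintype.card_fin, nsmul_eq_mul, Nat.cast_pow, Nat.cast_ofNat]
    set σ := ∑ i : Fin j, ‖a i.succ‖ ^ 2
    have h3 : 0 ≤ (2 : ℝ) ^ j * ‖a 0‖ ^ 4 := by positivity
    rw [pow_succ (2 : ℝ) j]
    nlinarith

theorem khin_proof : KhinStmt 𝕜 := by
  refine ⟨fun j a => ?_, fun j f => ?_⟩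
  · set σ := √(∑ i, ‖a i‖ ^ 2) with hσ
    have hσ0 : 0 ≤ σ := Real.sqrt_nonneg _
    have hσ2 : σ ^ 2 = ∑ i, ‖a i‖ ^ 2 := Real.sq_sqrt (Finset.sum_nonneg fun i _ => by positivity)
    rcases hσ0.eq_or_lt with h | h
    · rw [← h, zero_div]; positivity
    have h1 : ∀ t : ℝ, 0 ≤ t → 6 * σ ^ 2 * t ^ 2 - t ^ 4 ≤ 6 * σ ^ 3 * t := by
      intro t ht
      have h2 : 0 ≤ (t - 71 / 50 * σ) ^ 2 * (t + 71 / 25 * σ) := by positivity
      have h3 : 0 ≤ σ ^ 2 * t := by positivity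
      have h4 : 0 ≤ σ ^ 3 := by positivity
      have h5 : 0 ≤ t ^ 3 - 6 * σ ^ 2 * t + 6 * σ ^ 3 := by nlinarith
      nlinarith [mul_nonneg ht h5]
    have h2 := Finset.sum_le_sum fun (s : Fin j → Bool) (_ : s ∈ Finset.univ) =>
      h1 _ (norm_nonneg (∑ i, a i * sg 𝕜 (s i)))
    rw [Finset.sum_sub_distrib, ← Finset.mul_sum, ← Finset.mul_sum, khin_two, ← hσ2] at h2
    have h3 := khin_four j a
    rw [← hσ2] at h3
    rw [le_div_iff₀ (by positivity)]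
    have h4 : 6 * σ ^ 3 * (σ / 2 * 2 ^ j) ≤
        6 * σ ^ 3 * ∑ s : Fin j → Bool, ‖∑ i, a i * sg 𝕜 (s i)‖ := by nlinarith
    exact le_of_mul_le_mul_left h4 (by positivity)
  · set c : Fin j → 𝕜 := fun i => ∑ s : Fin j → Bool, sg 𝕜 (s i) * f s with hc
    set B : ℝ := ∑ i, ‖c i‖ ^ 2 with hB
    have hB0 : 0 ≤ B := Finset.sum_nonneg fun i _ => by positivity
    have h1 : ((B : ℝ) : 𝕜) =
        ∑ s : Fin j → Bool, (∑ i, (starRingEnd 𝕜) (c i) * sg 𝕜 (s i)) * f s := by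
      simp_rw [Finset.sum_mul]
      rw [Finset.sum_comm, hB]
      push_cast
      refine Finset.sum_congr rfl fun i _ => ?_
      rw [← RCLike.conj_mul]
      conv_lhs => rw [hc]
      simp only [Finset.mul_sum, mul_assoc]
      rfl
    have h2 : B ≤ ∑ s : Fin j → Bool, ‖∑ i, (starRingEnd 𝕜) (c i) * sg 𝕜 (s i)‖ * ‖f s‖ := by
      calc B = ‖((B : ℝ) : 𝕜)‖ := by rw [RCLike.norm_ofReal, abs_of_nonneg hB0]
        _ ≤ _ := by
          rw [h1]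
          exact (norm_sum_le _ _).trans (le_of_eq (Finset.sum_congr rfl fun s _ => norm_mul _ _))
    have h3 := Finset.sum_mul_sq_le_sq_mul_sq Finset.univ
      (fun s : Fin j → Bool => ‖∑ i, (starRingEnd 𝕜) (c i) * sg 𝕜 (s i)‖) (fun s => ‖f s‖)
    rw [khin_two] at h3
    simp only [RCLike.norm_conj] at h3
    rw [← hB] at h3
    set F : ℝ := ∑ s : Fin j → Bool, ‖f s‖ ^ 2 with hF
    have hF0 : 0 ≤ F := Finset.sum_nonneg fun i _ => by positivity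
    have h4 : B ^ 2 ≤ 2 ^ j * B * F := le_trans (by gcongr) h3
    have h5 : B ≤ 2 ^ j * F := by
      rcases hB0.eq_or_lt with h | h
      · rw [← h]; positivity
      · refine le_of_mul_le_mul_left ?_ h
        nlinarith
    have h6 : ∀ i, ‖((2 : 𝕜) ^ j)⁻¹ * c i‖ ^ 2 = (((2 : ℝ) ^ j)⁻¹) ^ 2 * ‖c i‖ ^ 2 := by
      intro i
      rw [norm_mul, norm_inv, norm_pow, mul_pow]; simp
    show ∑ i, ‖((2 : 𝕜) ^ j)⁻¹ * c i‖ ^ 2 ≤ F / 2 ^ j
    simp_rw [h6]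
    rw [← Finset.mul_sum, ← hB]
    calc _ ≤ (((2 : ℝ) ^ j)⁻¹) ^ 2 * (2 ^ j * F) := by gcongr
      _ = F / 2 ^ j := by field_simp

end

end Crest.Agent.R114
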