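import Crest.Agent.R114.BHJ

/-! Row 114, task B-L2: the `ℓ²` quotient. -/

set_option autoImplicit false

namespace Crest.Agent.R114

open Filter Topology
open scoped InnerProductSpace

noncomputable section

variable {𝕜 : Type} [RCLike 𝕜] {X : Type*} [NormedAddCommGroup X] [NormedSpace 𝕜 X]

namespace L2

theorem exists_ultra {κ α : Type*} [Countable κ] [Nonempty κ] (B : κ → α → ℕ → Prop)
    (h : ∀ k (N : ℕ → Prop), (∃ᶠ j in atTop, N j) → ∃ x, ∃ᶠ j in atTop, N j ∧ B k x j) :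
    ∃ U : Ultrafilter ℕ, ∀ k, ∃ x, ∀ᶠ j in (U : Filter ℕ), B k x j := by
  obtain ⟨e, he⟩ := exists_surjective_nat κ
  choose f hf using h
  let N : ℕ → {N : ℕ → Prop // ∃ᶠ j in atTop, N j} := fun n =>
    Nat.rec ⟨fun _ => True, Frequently.of_forall fun _ => trivial⟩
      (fun n N => ⟨fun j => N.1 j ∧ B (e n) (f (e n) N.1 N.2) j, hf _ _ _⟩) n
  have hN : Antitone fun n => atTop ⊓ 𝓟 {j | (N n).1 j} :=
    antitone_nat_of_succ_le fun n => inf_le_inf_left _ (principal_mono.2 fun j hj => hj.1)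
  have : (⨅ n, atTop ⊓ 𝓟 {j | (N n).1 j}).NeBot :=
    iInf_neBot_of_directed hN.directed_ge fun n => frequently_iff_neBot.1 (N n).2
  refine ⟨Ultrafilter.of (⨅ n, atTop ⊓ 𝓟 {j | (N n).1 j}), fun k => ?_⟩
  obtain ⟨n, rfl⟩ := he k
  refine ⟨f (e n) (N n).1 (N n).2, ?_⟩
  have h1 := ((Ultrafilter.of_le _).trans (iInf_le (fun n => atTop ⊓ 𝓟 {j | (N n).1 j})
    (n + 1))).trans inf_le_right
  exact mem_of_superset (le_principal_iff.1 h1) fun j hj => hj.2

/-- enumeration of the sign patterns -/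
def io (j : ℕ) (s : Fin j → Bool) : ℕ :=
  2 ^ j + (Fintype.equivFinOfCardEq (n := 2 ^ j) (by simp) s : ℕ)

theorem io_inj (j : ℕ) : Function.Injective (io j) := fun _ _ h =>
  (Fintype.equivFinOfCardEq _).injective (Fin.ext (Nat.add_left_cancel h))

theorem io_lt {j k : ℕ} (h : j < k) (s : Fin j → Bool) (t : Fin k → Bool) : io j s < io k t := by
  have h1 := (Fintype.equivFinOfCardEq (α := Fin j → Bool) (n := 2 ^ j) (by simp) s).2
  have h2 : 2 ^ (j + 1) ≤ 2 ^ k := Nat.pow_le_pow_right two_pos h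
  unfold io
  omega

/-- Rademacher averages -/
def Rd (w : ℕ → StrongDual 𝕜 X) (j i : ℕ) : StrongDual 𝕜 X :=
  if h : i < j then ((2 : 𝕜) ^ j)⁻¹ • ∑ s : Fin j → Bool, sg 𝕜 (s ⟨i, h⟩) • w (io j s) else 0

theorem bessel (hK : KhinStmt 𝕜) {w : ℕ → StrongDual 𝕜 X} (hw : ∀ n, ‖w n‖ ≤ 1) (j : ℕ) (x : X)
    (A : Finset ℕ) : ∑ i ∈ A, ‖Rd w j i x‖ ^ 2 ≤ ‖x‖ ^ 2 := by
  have h1 : ∑ i ∈ A, ‖Rd w j i x‖ ^ 2 ≤ ∑ i ∈ Finset.range j, ‖Rd w j i x‖ ^ 2 := by
    rw [← Finset.sum_filter_of_ne (s := A) (p := fun i => i < j) fun i _ hi => by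
      by_contra h
      simp [Rd, h] at hi]
    exact Finset.sum_le_sum_of_subset_of_nonneg
      (fun i hi => Finset.mem_range.2 (Finset.mem_filter.1 hi).2) fun _ _ _ => sq_nonneg _
  refine h1.trans ?_
  rw [Finset.sum_range]
  have h2 := hK.2 j fun s => w (io j s) x
  have h3 : ∑ s : Fin j → Bool, ‖w (io j s) x‖ ^ 2 ≤ ∑ _s : Fin j → Bool, ‖x‖ ^ 2 :=
    Finset.sum_le_sum fun s _ => pow_le_pow_left₀ (norm_nonneg _)
      (((w _).le_opNorm x).trans (mul_le_of_le_one_left (norm_nonneg _) (hw _))) 2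
  refine le_trans (le_of_eq ?_) (h2.trans ?_)
  · refine Finset.sum_congr rfl fun i _ => ?_
    simp [Rd, i.2]
  · rw [div_le_iff₀ (by positivity)]
    simpa [mul_comm] using h3

theorem hsum {M : Type*} [AddCommMonoid M] {n : ℕ} (j : ℕ) (hj : n ≤ j) (F : ℕ → M) :
    ∑ i ∈ Finset.range n, F i = ∑ i : Fin j, if (i : ℕ) < n then F i else 0 := by
  rw [← Finset.sum_range fun i => if i < n then F i else 0, ← Finset.sum_filter]
  congr 1
  ext i
  simp only [Finset.mem_range, Finset.mem_filter]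
  omega

theorem key (hK : KhinStmt 𝕜) {w : ℕ → StrongDual 𝕜 X} {δ : ℝ} (hδ : 0 < δ)
    (h : ∀ v, Blk v w → ∃ x : X, ‖x‖ ≤ 1 ∧ ∃ᶠ n in atTop, δ ≤ ‖v n x‖) (n : ℕ) (b : ℕ → 𝕜)
    (N : ℕ → Prop) (hN : ∃ᶠ j in atTop, N j) :
    ∃ x : X, ∃ᶠ j in atTop, N j ∧ ‖x‖ ≤ 1 ∧
      δ / 2 * √(∑ i ∈ Finset.range n, ‖b i‖ ^ 2) ≤ ‖∑ i ∈ Finset.range n, b i * Rd w j i x‖ := by
  classical
  set r := √(∑ i ∈ Finset.range n, ‖b i‖ ^ 2) with hr
  rcases (show 0 ≤ r from Real.sqrt_nonneg _).eq_or_lt with h0 | h0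
  · exact ⟨0, hN.mono fun j hj => ⟨hj, by simp, by rw [← h0, mul_zero]; exact norm_nonneg _⟩⟩
  set σ : (j : ℕ) → (Fin j → Bool) → 𝕜 := fun j s =>
    ∑ i : Fin j, (if (i : ℕ) < n then b i else 0) * sg 𝕜 (s i) with hσ
  set K : ℕ → ℝ := fun j => (∑ s, ‖σ j s‖) / 2 ^ j with hKdef
  have hK1 : ∀ j, n ≤ j → r / 2 ≤ K j := by
    intro j hj
    have h1 := hK.1 j fun i => if (i : ℕ) < n then b i else 0
    refine le_trans (le_of_eq ?_) h1
    rw [hr, hsum j hj]
    congr 2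
    refine Finset.sum_congr rfl fun i _ => ?_
    split_ifs <;> simp
  have hV : ∀ j, n ≤ j → ∑ i ∈ Finset.range n, b i • Rd w j i =
      ∑ s, (((2 : 𝕜) ^ j)⁻¹ * σ j s) • w (io j s) := by
    intro j hj
    rw [hsum j hj]
    have h1 : ∀ (F : Fin j → 𝕜) (v : StrongDual 𝕜 X), (∑ i, F i) • v = ∑ i, F i • v :=
      fun F v => by ext x; simp [Finset.sum_mul]
    simp only [hσ, Finset.mul_sum, h1]
    rw [Finset.sum_comm]
    refine Finset.sum_congr rfl fun i _ => ?_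
    split_ifs with hi
    · simp only [Rd, dif_pos i.2, Finset.smul_sum, smul_smul]
      exact Finset.sum_congr rfl fun s _ => by rw [mul_left_comm]
    · ext x; simp
  obtain ⟨φ, hφ, hφN⟩ := extraction_of_frequently_atTop
    (hN.and_eventually (eventually_ge_atTop n))
  have hKpos : ∀ m, 0 < K (φ m) := fun m => (half_pos h0).trans_le (hK1 _ (hφN m).2)
  obtain ⟨x, hx, hfr⟩ := h (fun m => ((K (φ m) : 𝕜))⁻¹ • ∑ i ∈ Finset.range n, b i • Rd w (φ m) i)
    (HJ.blk_of (S := fun m => Finset.univ.map ⟨io (φ m), io_inj _⟩) (fun m m' hm i hi j hj => by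
      obtain ⟨s, -, rfl⟩ := Finset.mem_map.1 hi
      obtain ⟨t, -, rfl⟩ := Finset.mem_map.1 hj
      exact io_lt (hφ hm) s t) fun m => by
      refine ⟨Function.extend (io (φ m))
        (fun s => ((K (φ m) : 𝕜))⁻¹ * (((2 : 𝕜) ^ φ m)⁻¹ * σ (φ m) s)) 0, ?_, ?_⟩
      · simp only [Finset.sum_map, Function.Embedding.coeFn_mk, (io_inj _).extend_apply, norm_mul,
          ← Finset.mul_sum, norm_inv, norm_pow, RCLike.norm_ofReal, abs_of_pos (hKpos m),
          RCLike.norm_ofNat]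
        rw [← div_eq_inv_mul (∑ s, ‖σ (φ m) s‖)]
        exact inv_mul_cancel₀ (hKpos m).ne'
      · simp only [Finset.sum_map, Function.Embedding.coeFn_mk, (io_inj _).extend_apply]
        rw [hV _ (hφN m).2, Finset.smul_sum]
        simp only [smul_smul])
  refine ⟨x, hφ.tendsto_atTop.frequently (hfr.mono fun m hm => ⟨(hφN m).1, hx, ?_⟩)⟩
  simp only [_root_.smul_apply, _root_.sum_apply, smul_eq_mul, norm_mul, norm_inv,
    RCLike.norm_ofReal, abs_of_pos (hKpos m)] at hm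
  rw [le_inv_mul_iff₀ (hKpos m)] at hm
  have := mul_le_mul_of_nonneg_right (hK1 _ (hφN m).2) hδ.le
  linarith

theorem sep_lp : TopologicalSpace.SeparableSpace (lp (fun _ : ℕ => 𝕜) 2) := by
  rw [← TopologicalSpace.isSeparable_univ_iff]
  have h := (TopologicalSpace.isSeparable_iUnion.2 fun y : ℕ => TopologicalSpace.isSeparable_range
    (lp.singleContinuousLinearMap 𝕜 (fun _ : ℕ => 𝕜) 2 y).continuous).span (R := 𝕜).closure
  refine h.mono fun ξ _ => ?_
  refine mem_closure_of_tendsto (lp.hasSum_single (p := 2) (by norm_num) ξ)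
    (Filter.Eventually.of_forall fun F => Submodule.sum_mem _ fun y _ => Submodule.subset_span ?_)
  exact Set.mem_iUnion.2 ⟨y, ξ y, rfl⟩

theorem inf_lp : ¬ FiniteDimensional 𝕜 (lp (fun _ : ℕ => 𝕜) 2) := fun _ =>
  not_finite_iff_infinite.2 (inferInstanceAs (Infinite ℕ))
    (default : HilbertBasis ℕ 𝕜 (lp (fun _ : ℕ => 𝕜) 2)).orthonormal.linearIndependent.finite

end L2

open L2 in
theorem l2_proof (hS : SurjStmt 𝕜 X) (hK : KhinStmt 𝕜) : L2Stmt 𝕜 X := by
  intro hX w δ hδ hw h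
  obtain ⟨U, hU⟩ := exists_ultra (κ := ℕ × ℕ) (fun k (x : X) j => ‖x‖ ≤ 1 ∧
      δ / 2 * √(∑ i ∈ Finset.range k.1,
        ‖(starRingEnd 𝕜) (TopologicalSpace.denseSeq (ℕ → 𝕜) k.2 i)‖ ^ 2) ≤
        ‖∑ i ∈ Finset.range k.1,
          (starRingEnd 𝕜) (TopologicalSpace.denseSeq (ℕ → 𝕜) k.2 i) * Rd w j i x‖)
    fun k N hN => key hK hδ h k.1 _ N hN
  have hlim : ∀ (x : X) (i : ℕ), ∃ c : 𝕜, Tendsto (fun j => Rd w j i x) U (𝓝 c) := by
    intro x i
    obtain ⟨c, -, hc⟩ := (isCompact_closedBall (0 : 𝕜) ‖x‖).ultrafilter_le_nhds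
      (U.map fun j => Rd w j i x) (le_principal_iff.2 (mem_map.2 (univ_mem' fun j => by
        have := bessel hK hw j x {i}
        rw [Finset.sum_singleton] at this
        exact mem_closedBall_zero_iff.2
          ((sq_le_sq₀ (norm_nonneg _) (norm_nonneg _)).1 this))))
    exact ⟨c, hc⟩
  choose L hL using hlim
  have hLb : ∀ x (A : Finset ℕ), ∑ i ∈ A, ‖L x i‖ ^ (2 : ENNReal).toReal ≤
      ‖x‖ ^ (2 : ENNReal).toReal := by
    intro x A
    simp only [ENNReal.toReal_ofNat, Real.rpow_two]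
    exact le_of_tendsto' (tendsto_finsetSum A fun i _ => (hL x i).norm.pow 2)
      fun j => bessel hK hw j x A
  let T₀ : X →ₗ[𝕜] lp (fun _ : ℕ => 𝕜) 2 :=
    { toFun := fun x => ⟨L x, memℓp_gen' (hLb x)⟩
      map_add' := fun x y => lp.ext (funext fun i => tendsto_nhds_unique (hL (x + y) i)
        (by simpa only [map_add] using! (hL x i).add (hL y i)))
      map_smul' := fun c x => lp.ext (funext fun i => tendsto_nhds_unique (hL (c • x) i)
        (by simpa only [map_smul] using! (hL x i).const_smul c)) }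
  let T : X →L[𝕜] lp (fun _ : ℕ => 𝕜) 2 := T₀.mkContinuous 1 fun x => by
    rw [one_mul]
    exact lp.norm_le_of_forall_sum_le (by norm_num) (norm_nonneg _) (hLb x)
  have hT : ∀ x i, T x i = L x i := fun _ _ => rfl
  have := @sep_lp 𝕜 _
  refine hS hX (lp (fun _ : ℕ => 𝕜) 2) inf_lp T (δ / 2) (half_pos hδ) fun φ => ?_
  obtain ⟨y, rfl⟩ := (InnerProductSpace.toDual 𝕜 (lp (fun _ : ℕ => 𝕜) 2)).surjective φ
  have hcl : IsClosed {y : lp (fun _ : ℕ => 𝕜) 2 |
      δ / 2 * ‖y‖ ≤ ‖(InnerProductSpace.toDual 𝕜 _ y).comp T‖} :=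
    isClosed_le (by fun_prop)
      ((InnerProductSpace.toDual 𝕜 _).continuous.clm_comp continuous_const).norm
  have h1 : ∀ (n : ℕ) (a : ℕ → 𝕜), (∑ i ∈ Finset.range n, lp.single 2 i (a i)) ∈
      {y : lp (fun _ : ℕ => 𝕜) 2 | δ / 2 * ‖y‖ ≤ ‖(InnerProductSpace.toDual 𝕜 _ y).comp T‖} := by
    intro n a
    refine (TopologicalSpace.denseRange_denseSeq (ℕ → 𝕜)).induction_on a
      (hcl.preimage (continuous_finsetSum _ fun i _ =>
        (lp.isometry_single (E := fun _ : ℕ => 𝕜) (p := 2) i).continuous.comp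
          (continuous_apply i))) fun m => ?_
    obtain ⟨x, hx⟩ := hU (n, m)
    set a := TopologicalSpace.denseSeq (ℕ → 𝕜) m
    have hx1 : ‖x‖ ≤ 1 := hx.exists.choose_spec.1
    have h2 := ge_of_tendsto (tendsto_finsetSum (Finset.range n) fun i _ =>
      (hL x i).const_mul ((starRingEnd 𝕜) (a i))).norm (hx.mono fun j hj => hj.2)
    have h3 : ‖∑ i ∈ Finset.range n, lp.single (E := fun _ : ℕ => 𝕜) 2 i (a i)‖ =
        √(∑ i ∈ Finset.range n, ‖(starRingEnd 𝕜) (a i)‖ ^ 2) := by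
      have h4 := lp.norm_sum_single (E := fun _ : ℕ => 𝕜) (p := 2) (by norm_num) a
        (Finset.range n)
      simp only [ENNReal.toReal_ofNat, Real.rpow_two] at h4
      simp only [RCLike.norm_conj, ← h4, Real.sqrt_sq (norm_nonneg _)]
    show δ / 2 * _ ≤ _
    rw [h3]
    refine h2.trans (le_trans (le_of_eq ?_) (ContinuousLinearMap.unit_le_opNorm _ x hx1))
    simp only [ContinuousLinearMap.comp_apply, InnerProductSpace.toDual_apply_apply, sum_inner,
      lp.inner_single_left, hT, RCLike.inner_apply']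
  rw [LinearIsometryEquiv.norm_map]
  exact hcl.mem_of_tendsto (lp.hasSum_single (p := 2) (by norm_num) y).tendsto_sum_nat
    (Eventually.of_forall fun n => h1 n y)

end

end Crest.Agent.R114
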