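import Crest.Agent.R114.DefsB

/-! Row 114, task B-PART. -/

set_option autoImplicit false

namespace Crest.Agent.R114

open Filter Topology MeasureTheory Set
open scoped ENNReal

namespace PartAux

theorem real_ivt (ν : Measure ℝ) [IsFiniteMeasure ν] [NullSingletonClass ν] (r : ℝ≥0∞)
    (h0 : 0 < r) (h1 : r < ν univ) : ∃ x : ℝ, ν (Iic x) = r := by
  have ha : Tendsto (fun x : ℝ => ν (Iic x)) atBot (𝓝 0) := by
    have h := tendsto_measure_iInter_atBot (μ := ν) (s := fun x : ℝ => Iic x)
      (fun x => measurableSet_Iic.nullMeasurableSet) monotone_Iic ⟨0, measure_ne_top _ _⟩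
    have he : (⋂ x : ℝ, Iic x) = ∅ := by
      ext y
      simp only [mem_iInter, mem_Iic, mem_empty_iff_false, iff_false, not_forall, not_le]
      exact ⟨y - 1, by linarith⟩
    rw [he, measure_empty] at h
    exact h
  obtain ⟨a, ha⟩ := (ha.eventually (gt_mem_nhds h0)).exists
  obtain ⟨b, hb, hab⟩ := (((tendsto_measure_Iic_atTop ν).eventually (lt_mem_nhds h1)).and
    (eventually_ge_atTop a)).exists
  have hc : ContinuousOn (fun b => ∫ _x in Iic b, (1 : ℝ) ∂ν) (Iic b) :=
    (integrable_const (1 : ℝ)).integrableOn.continuousOn_Iic_primitive_Iic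
  have hc2 : ContinuousOn (fun b => ν.real (Iic b)) (Icc a b) := by
    simpa using hc.mono Icc_subset_Iic_self
  have hr : r ≠ ∞ := (h1.trans_le le_top).ne
  obtain ⟨x, -, hx⟩ := intermediate_value_Icc hab hc2 (show r.toReal ∈ _ from
    ⟨ENNReal.toReal_mono hr ha.le, ENNReal.toReal_mono (measure_ne_top _ _) hb.le⟩)
  exact ⟨x, (ENNReal.toReal_eq_toReal_iff' (measure_ne_top _ _) hr).1 hx⟩

/-- the identity `TR → ℝ` -/
def toR : TR → ℝ := fun x => x

theorem sub_mass (μ : Measure TR) [IsFiniteMeasure μ] (h0 : ∀ x, μ {x} = 0) (B : Set TR) (r : ℝ≥0∞)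
    (hr : r ≤ μ B) : ∃ B' ⊆ B, μ B' = r := by
  rcases hr.eq_or_lt with h | h
  · exact ⟨B, subset_rfl, h.symm⟩
  rcases (zero_le (a := r)).eq_or_lt with h' | h'
  · exact ⟨∅, empty_subset _, by rw [measure_empty, h']⟩
  have hm : Measurable toR := Measurable.of_discrete
  set ν := (μ.restrict B).map toR with hν
  have hs : ∀ s : Set ℝ, MeasurableSet s → ν s = μ (toR ⁻¹' s ∩ B) := fun s hs => by
    rw [hν, Measure.map_apply hm hs, Measure.restrict_apply MeasurableSet.of_discrete]
  have : NullSingletonClass ν := ⟨fun x => by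
    rw [hs _ (measurableSet_singleton x)]
    exact measure_mono_null (t := {(x : TR)}) (fun y hy => hy.1) (h0 x)⟩
  obtain ⟨x, hx⟩ := real_ivt ν r h' (by rw [hs _ MeasurableSet.univ]; simpa using h)
  exact ⟨toR ⁻¹' Iic x ∩ B, inter_subset_right, by rw [← hs _ measurableSet_Iic, hx]⟩

theorem cut (μ : Measure TR) [IsFiniteMeasure μ] (h0 : ∀ x, μ {x} = 0) (n : ℕ) :
    ∀ (p : Fin (n + 1) → ℝ≥0∞) (B : Set TR), ∑ i, p i = μ B →
      ∃ c : TR → Fin (n + 1), ∀ i, μ (B ∩ c ⁻¹' {i}) = p i := by
  induction n with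
  | zero =>
    intro p B h
    refine ⟨fun _ => 0, fun i => ?_⟩
    obtain rfl : i = 0 := Subsingleton.elim (α := Fin 1) _ _
    simpa using h.symm
  | succ n ih =>
    intro p B h
    classical
    rw [Fin.sum_univ_succ] at h
    obtain ⟨B', hB', hm⟩ := sub_mass μ h0 B (p 0) (by rw [← h]; exact le_self_add)
    have hd : μ (B \ B') = ∑ i : Fin (n + 1), p i.succ := by
      rw [measure_sdiff hB' MeasurableSet.of_discrete.nullMeasurableSet (measure_ne_top _ _), ← h, hm]
      exact ENNReal.add_sub_cancel_left (hm ▸ measure_ne_top _ _)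
    obtain ⟨c, hc⟩ := ih (fun i => p i.succ) (B \ B') hd.symm
    refine ⟨fun x => if x ∈ B' then 0 else (c x).succ, fun i => ?_⟩
    refine Fin.cases ?_ (fun i => ?_) i
    · rw [← hm]
      congr 1
      ext x
      by_cases hx : x ∈ B'
      · simp [hx, hB' hx]
      · simp [hx]
    · rw [← hc i]
      congr 1
      ext x
      by_cases hx : x ∈ B'
      · simp [hx, (Fin.succ_ne_zero i).symm]
      · simp [hx]

end PartAux

theorem part_proof : PartStmt := by
  rintro ⟨m, h1, h0, hU⟩
  have he : m ∅ = 0 := by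
    have := hU Empty (fun _ => ∅) (by simpa using Cardinal.continuum_pos) (fun i => i.elim)
    simpa using this
  let μ : Measure TR := Measure.ofMeasurable (fun s _ => m s) he (fun f _ hd =>
    hU ℕ f (by simpa using Cardinal.aleph0_lt_continuum) hd)
  have hμ : ∀ s : Set TR, μ s = m s := fun s =>
    Measure.ofMeasurable_apply s MeasurableSet.of_discrete
  have hP : IsProbabilityMeasure μ := ⟨by rw [hμ]; exact h1⟩
  refine ⟨μ, hP, fun n p hp hs => ?_⟩
  cases n with
  | zero => simp at hs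
  | succ n =>
    obtain ⟨c, hc⟩ := PartAux.cut μ (fun x => by rw [hμ]; exact h0 x) n
      (fun i => ENNReal.ofReal (p i)) univ (by
        rw [← ENNReal.ofReal_sum_of_nonneg fun i _ => hp i, hs]; simp)
    exact ⟨c, fun i => by simpa using hc i⟩

end Crest.Agent.R114
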