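import Crest.Agent.R114.DefsB

/-! Row 114 part B, task Q0. -/

set_option autoImplicit false

namespace Crest.Agent.R114

open Filter Topology TopologicalSpace

noncomputable section

lemma q0_fd {𝕜 : Type} [Field 𝕜] {V W U : Type*} [AddCommGroup V] [Module 𝕜 V] [AddCommGroup W]
    [Module 𝕜 W] [AddCommGroup U] [Module 𝕜 U] [FiniteDimensional 𝕜 W] (f : V →ₗ[𝕜] W)
    (h : V →ₗ[𝕜] U) (hle : LinearMap.ker f ≤ LinearMap.ker h) :
    FiniteDimensional 𝕜 (LinearMap.range h) := by
  haveI : FiniteDimensional 𝕜 (V ⧸ LinearMap.ker f) :=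
    LinearEquiv.finiteDimensional f.quotKerEquivRange.symm
  rw [← Submodule.range_liftQ _ h hle]
  infer_instance

variable {𝕜 : Type} [RCLike 𝕜] {X : Type*} [NormedAddCommGroup X] [NormedSpace 𝕜 X]

/-- vectors killed by all `g i`, `i ≥ n` -/
def q0X (g : ℕ → StrongDual 𝕜 X) (n : ℕ) : Submodule 𝕜 X where
  carrier := {x | ∀ i, n ≤ i → g i x = 0}
  add_mem' := fun {a b} ha hb i hi => by rw [map_add, ha i hi, hb i hi, add_zero]
  zero_mem' := fun i _ => map_zero _
  smul_mem' := fun c a ha i hi => by rw [map_smul, ha i hi, smul_zero]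

theorem q0_proof : Q0Stmt 𝕜 X := by
  intro g hg hd
  set M : Submodule 𝕜 X := q0X g 0 with hM
  have hMc : IsClosed (M : Set X) := by
    have : (M : Set X) = ⋂ i, {x | g i x = 0} := by
      ext x
      simp only [Set.mem_iInter]
      exact ⟨fun h i => h i (Nat.zero_le _), fun h i _ => h i⟩
    rw [this]
    exact isClosed_iInter fun i => isClosed_eq (g i).continuous continuous_const
  haveI := hMc
  set Y : ℕ → Submodule 𝕜 (X ⧸ M) := fun n => (q0X g n).map M.mkQ with hY
  have hfd : ∀ n, FiniteDimensional 𝕜 (Y n) := by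
    intro n
    have h1 : Y n = LinearMap.range (M.mkQ ∘ₗ (q0X g n).subtype) := by
      rw [LinearMap.range_comp, Submodule.range_subtype]
    rw [h1]
    refine q0_fd (W := Fin n → 𝕜)
      ((LinearMap.pi fun i : Fin n => (g i : X →ₗ[𝕜] 𝕜)) ∘ₗ (q0X g n).subtype) _ ?_
    intro x hx
    rw [LinearMap.mem_ker] at hx ⊢
    simp only [LinearMap.comp_apply, Submodule.subtype_apply, Submodule.mkQ_apply,
      Submodule.Quotient.mk_eq_zero]
    intro i _
    by_cases hi : n ≤ i
    · exact x.2 i hi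
    · exact congrFun hx ⟨i, not_le.1 hi⟩
  have hmono : Monotone Y := fun a b hab =>
    Submodule.map_mono fun x hx i hi => hx i (hab.trans hi)
  have hdense : Dense (⋃ n, (Y n : Set (X ⧸ M))) := by
    have h1 : DenseRange M.mkQ := M.mkQ_surjective.denseRange
    refine (h1.dense_image M.mkQL.continuous hd).mono ?_
    rintro _ ⟨x, hx, rfl⟩
    obtain ⟨n, hn⟩ := eventually_atTop.1 hx
    exact Set.mem_iUnion.2 ⟨n, x, hn, rfl⟩
  refine ⟨M, hMc, ?_, fun hfin => ?_⟩
  · rw [← isSeparable_univ_iff, ← hdense.closure_eq]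
    refine IsSeparable.closure (IsSeparable.iUnion fun n => ?_)
    haveI := hfd n
    haveI : ProperSpace (Y n) := FiniteDimensional.proper_rclike 𝕜 _
    exact IsSeparable.of_subtype _
  · obtain ⟨N, hN⟩ := monotone_stabilizes_iff_noetherian.mpr
      (inferInstance : IsNoetherian 𝕜 (X ⧸ M)) ⟨Y, hmono⟩
    have h1 : (⋃ n, (Y n : Set (X ⧸ M))) ⊆ Y N := by
      refine Set.iUnion_subset fun n => ?_
      rcases le_total n N with h | h
      · exact hmono h
      · exact (hN n h).ge
    have h2 : ∀ z, z ∈ Y N := fun z =>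
      closure_minimal h1 (Y N).closed_of_finiteDimensional (hdense z)
    obtain ⟨i, hi, hiN⟩ := (hg.and_eventually (eventually_ge_atTop N)).exists
    apply hi
    ext x
    obtain ⟨x', hx', he⟩ := h2 (M.mkQ x)
    have h3 : x' - x ∈ M := (Submodule.Quotient.eq M).1 he
    have h4 := h3 i (Nat.zero_le _)
    rw [map_sub, hx' i hiN, zero_sub, neg_eq_zero] at h4
    exact h4

end

end Crest.Agent.R114
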