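import Crest.Agent.R114.DefsB

/-! Row 114, task B-Q1. -/

set_option autoImplicit false

namespace Crest.Agent.R114

open Filter Topology

noncomputable section

variable {𝕜 : Type} [RCLike 𝕜] {X : Type*} [NormedAddCommGroup X] [NormedSpace 𝕜 X]

namespace Q1

theorem tail {f : ℕ → ℝ} (hf : Summable f) {ε : ℝ} (hε : 0 < ε) :
    ∃ M, ∀ B : Finset ℕ, (∀ i ∈ B, M ≤ i) → ∑ i ∈ B, f i ≤ ε := by
  obtain ⟨s, hs⟩ := summable_iff_vanishing_norm.1 hf ε hε
  refine ⟨s.sup id + 1, fun B hB => (le_abs_self _).trans (hs B ?_).le⟩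
  refine Finset.disjoint_left.2 fun i hi hi' => ?_
  have h1 : i ≤ s.sup id := Finset.le_sup (f := id) hi'
  have := hB i hi
  omega

theorem smul_mem {g : ℕ → StrongDual 𝕜 X} {x : X} (h : Summable fun j => ‖g j x‖) (c : 𝕜) :
    Summable fun j => ‖g j (c • x)‖ := by
  simpa only [map_smul, norm_smul] using h.mul_left ‖c‖

theorem step1 {g : ℕ → StrongDual 𝕜 X} (hg : ∀ j, ‖g j‖ = 1)
    (hE : Dense {x : X | Summable fun j => ‖g j x‖}) (j : ℕ) :
    ∃ z : X, (Summable fun i => ‖g i z‖) ∧ ‖z‖ ≤ 2 ∧ g j z = 1 := by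
  obtain ⟨x, hx⟩ := (g j).exists_lt_apply_of_lt_opNorm (r := 1 / 2) (by rw [hg]; norm_num)
  obtain ⟨z, ⟨h1, h2⟩, hz⟩ := hE.inter_open_nonempty {x : X | ‖x‖ < 1 ∧ 1 / 2 < ‖g j x‖}
    ((isOpen_lt continuous_norm continuous_const).inter
      (isOpen_lt continuous_const (g j).continuous.norm)) ⟨x, hx⟩
  have h3 : 0 < ‖g j z‖ := by linarith
  refine ⟨(g j z)⁻¹ • z, smul_mem hz _, ?_, ?_⟩
  · rw [norm_smul, norm_inv, inv_mul_le_iff₀ h3]
    linarith
  · rw [map_smul, smul_eq_mul, inv_mul_cancel₀ (norm_pos_iff.1 h3)]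

theorem step2 {g : ℕ → StrongDual 𝕜 X} (hg : ∀ j, ‖g j‖ = 1)
    (hE : Dense {x : X | Summable fun j => ‖g j x‖}) (N : ℕ) :
    ∃ (j M : ℕ) (x : X), N ≤ j ∧ j < M ∧ ‖x‖ ≤ 8 ∧ g j x = 1 ∧
      ∀ B : Finset ℕ, (∀ i ∈ B, i < N ∨ M ≤ i) → ∑ i ∈ B, ‖g i x‖ ≤ 1 / 2 := by
  choose z hz hz2 hz1 using step1 hg hE
  obtain ⟨c, -, hc⟩ := (isCompact_closedBall (0 : Fin N → 𝕜) 2).exists_mapClusterPt
    (f := atTop) (u := fun j (l : Fin N) => g l (z j))
    (le_principal_iff.2 (mem_map.2 (univ_mem' fun j => mem_closedBall_zero_iff.2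
      ((pi_norm_le_iff_of_nonneg zero_le_two).2 fun l =>
        ((g l).le_opNorm _).trans (by rw [hg, one_mul]; exact hz2 j)))))
  have h1 : ∃ᶠ j in atTop, ∑ l : Fin N, ‖g l (z j) - c l‖ < 1 / 16 :=
    hc.frequently (p := fun v : Fin N → 𝕜 => ∑ l, ‖v l - c l‖ < 1 / 16)
      ((isOpen_lt (by fun_prop) continuous_const).mem_nhds (by simp))
  obtain ⟨j₀, h0⟩ := h1.exists
  obtain ⟨j, h2, h3, h4⟩ := (h1.and_eventually ((eventually_ge_atTop N).and
    ((hz j₀).tendsto_atTop_zero.eventually (gt_mem_nhds one_half_pos)))).exists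
  have h5 : 1 / 2 ≤ ‖g j (z j - z j₀)‖ := by
    have := norm_sub_norm_le (1 : 𝕜) (g j (z j₀))
    rw [map_sub, hz1]
    rw [norm_one] at this
    linarith
  have h6 : 0 < ‖g j (z j - z j₀)‖ := by linarith
  have h7 : ‖(g j (z j - z j₀))⁻¹‖ ≤ 2 := by
    rw [norm_inv, inv_le_comm₀ h6 two_pos]
    linarith
  have hs : Summable fun i => ‖g i (z j - z j₀)‖ :=
    Summable.of_nonneg_of_le (fun _ => norm_nonneg _)
      (fun i => by rw [map_sub]; exact norm_sub_le _ _) ((hz j).add (hz j₀))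
  obtain ⟨M, hM⟩ := tail (smul_mem hs (g j (z j - z j₀))⁻¹) (ε := 1 / 4) (by norm_num)
  refine ⟨j, max M (j + 1), (g j (z j - z j₀))⁻¹ • (z j - z j₀), h3,
    (Nat.lt_succ_self j).trans_le (le_max_right _ _), ?_, ?_, fun B hB => ?_⟩
  · rw [norm_smul]
    have := (norm_sub_le _ _).trans (add_le_add (hz2 j) (hz2 j₀))
    nlinarith [norm_nonneg (z j - z j₀), norm_nonneg (g j (z j - z j₀))⁻¹]
  · rw [map_smul, smul_eq_mul, inv_mul_cancel₀ (norm_pos_iff.1 h6)]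
  · rw [← Finset.sum_filter_add_sum_filter_not B (fun i => i < N)]
    have h8 := hM (B.filter fun i => ¬ i < N) fun i hi => (le_max_left _ _).trans
      ((hB i (Finset.mem_filter.1 hi).1).resolve_left (Finset.mem_filter.1 hi).2)
    have h9 : ∑ i ∈ B.filter (fun i => i < N), ‖g i ((g j (z j - z j₀))⁻¹ • (z j - z j₀))‖ ≤
        ∑ i ∈ Finset.range N, ‖g i ((g j (z j - z j₀))⁻¹ • (z j - z j₀))‖ :=
      Finset.sum_le_sum_of_subset_of_nonneg
        (fun i hi => Finset.mem_range.2 (Finset.mem_filter.1 hi).2) fun _ _ _ => norm_nonneg _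
    have h10 : ∑ i ∈ Finset.range N, ‖g i ((g j (z j - z j₀))⁻¹ • (z j - z j₀))‖ ≤
        2 * (∑ l : Fin N, ‖g l (z j) - c l‖ + ∑ l : Fin N, ‖g l (z j₀) - c l‖) := by
      rw [Finset.sum_range, ← Finset.sum_add_distrib, Finset.mul_sum]
      refine Finset.sum_le_sum fun l _ => ?_
      rw [map_smul, norm_smul]
      refine mul_le_mul h7 ?_ (norm_nonneg _) zero_le_two
      rw [map_sub, ← sub_sub_sub_cancel_right _ _ (c l)]
      exact norm_sub_le _ _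
    linarith

theorem step3 {g : ℕ → StrongDual 𝕜 X} (hg : ∀ j, ‖g j‖ = 1)
    (hE : Dense {x : X | Summable fun j => ‖g j x‖}) :
    ∃ (j : ℕ → ℕ) (x : ℕ → X), StrictMono j ∧ (∀ k, ‖x k‖ ≤ 8) ∧ (∀ k, g (j k) (x k) = 1) ∧
      ∀ k (A : Finset ℕ), k ∉ A → ∑ l ∈ A, ‖g (j l) (x k)‖ ≤ 1 / 2 := by
  choose J M x h1 h2 h3 h4 h5 using step2 hg hE
  let N : ℕ → ℕ := fun k => M^[k] 0
  have hN : ∀ k, N (k + 1) = M (N k) := fun k => Function.iterate_succ_apply' M k 0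
  have hmono : Monotone N := monotone_nat_of_le_succ fun k => by
    rw [hN]; exact (h1 _).trans (h2 _).le
  have hj : StrictMono fun k => J (N k) := strictMono_nat_of_lt_succ fun k =>
    (h2 _).trans_le (by rw [← hN]; exact h1 _)
  refine ⟨fun k => J (N k), fun k => x (N k), hj, fun k => h3 _, fun k => h4 _, fun k A hA => ?_⟩
  have := h5 (N k) (A.map ⟨_, hj.injective⟩) fun i hi => by
    obtain ⟨l, hl, rfl⟩ := Finset.mem_map.1 hi
    rcases lt_or_gt_of_ne (show l ≠ k from fun h => hA (h ▸ hl)) with h | h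
    · exact Or.inl ((h2 _).trans_le (by rw [← hN]; exact hmono h))
    · exact Or.inr (by rw [← hN]; exact (hmono h).trans (h1 _))
  rwa [Finset.sum_map] at this

theorem step4 [CompleteSpace X] {G : ℕ → StrongDual 𝕜 X} {x : ℕ → X} (hx : ∀ k, ‖x k‖ ≤ 8)
    (h1 : ∀ k, G k (x k) = 1) (h2 : ∀ k (A : Finset ℕ), k ∉ A → ∑ l ∈ A, ‖G l (x k)‖ ≤ 1 / 2)
    {y : X} {t : ℝ} (hy : ∀ A : Finset ℕ, ∑ l ∈ A, ‖G l y‖ ≤ t) :
    ∃ y' : X, ‖y - y'‖ ≤ 8 * t ∧ ∀ A : Finset ℕ, ∑ l ∈ A, ‖G l y'‖ ≤ t / 2 := by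
  have hb : ∀ k, ‖G k y • x k‖ ≤ 8 * ‖G k y‖ := fun k => by
    rw [norm_smul, mul_comm]
    exact mul_le_mul_of_nonneg_right (hx k) (norm_nonneg _)
  obtain ⟨u, hu⟩ : Summable fun k => G k y • x k :=
    Summable.of_norm_bounded ((summable_of_sum_le (fun _ => norm_nonneg _) hy).mul_left 8) hb
  have hu' : Tendsto (fun K : Finset ℕ => ∑ k ∈ K, G k y • x k) atTop (𝓝 u) := hu
  refine ⟨y - u, ?_, fun A => ?_⟩
  · rw [sub_sub_cancel]
    refine le_of_tendsto' hu'.norm fun K => (norm_sum_le _ _).trans ?_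
    refine (Finset.sum_le_sum fun k _ => hb k).trans ?_
    rw [← Finset.mul_sum]
    linarith [hy K]
  · refine le_of_tendsto (tendsto_finsetSum A fun l _ =>
      (((G l).continuous.tendsto _).comp (hu'.const_sub y)).norm) ?_
    filter_upwards [eventually_ge_atTop A] with K hK
    have h3 : ∀ l ∈ A, ‖G l (y - ∑ k ∈ K, G k y • x k)‖ ≤
        ∑ k ∈ K, if l ≠ k then ‖G k y‖ * ‖G l (x k)‖ else 0 := by
      intro l hl
      rw [map_sub, map_sum, ← Finset.add_sum_erase _ _ (hK hl), map_smul, h1, smul_eq_mul, mul_one,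
        sub_add_cancel_left, norm_neg, ← Finset.sum_filter, Finset.filter_ne]
      refine (norm_sum_le _ _).trans (le_of_eq (Finset.sum_congr rfl fun k _ => ?_))
      rw [map_smul, norm_smul]
    refine (Finset.sum_le_sum h3).trans ?_
    rw [Finset.sum_comm]
    have h4 : ∀ k ∈ K, (∑ l ∈ A, if l ≠ k then ‖G k y‖ * ‖G l (x k)‖ else 0) ≤
        ‖G k y‖ * (1 / 2) := by
      intro k _
      rw [← Finset.sum_filter, ← Finset.mul_sum]
      exact mul_le_mul_of_nonneg_left (h2 k _ (by simp)) (norm_nonneg _)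
    refine (Finset.sum_le_sum h4).trans ?_
    rw [← Finset.sum_mul]
    linarith [hy K]

theorem step5 [CompleteSpace X] {G : ℕ → StrongDual 𝕜 X} {x : ℕ → X} (hx : ∀ k, ‖x k‖ ≤ 8)
    (h1 : ∀ k, G k (x k) = 1) (h2 : ∀ k (A : Finset ℕ), k ∉ A → ∑ l ∈ A, ‖G l (x k)‖ ≤ 1 / 2)
    {y : X} {t : ℝ} (hy : ∀ A : Finset ℕ, ∑ l ∈ A, ‖G l y‖ ≤ t) :
    ∃ y' : X, dist y y' ≤ 16 * t ∧ ∀ l, G l y' = 0 := by
  have H : ∀ (m : ℕ) (y : {y : X // ∀ A : Finset ℕ, ∑ l ∈ A, ‖G l y‖ ≤ t / 2 ^ m}),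
      ∃ y' : {y : X // ∀ A : Finset ℕ, ∑ l ∈ A, ‖G l y‖ ≤ t / 2 ^ (m + 1)},
        dist y.1 y'.1 ≤ 16 * t / 2 / 2 ^ m := by
    intro m y
    obtain ⟨y', h3, h4⟩ := step4 hx h1 h2 y.2
    refine ⟨⟨y', fun A => (h4 A).trans_eq (by ring)⟩, ?_⟩
    rw [dist_eq_norm]
    exact h3.trans_eq (by ring)
  choose f hf using H
  let Y : ∀ m : ℕ, {y : X // ∀ A : Finset ℕ, ∑ l ∈ A, ‖G l y‖ ≤ t / 2 ^ m} := fun m =>
    Nat.rec ⟨y, by simpa using hy⟩ f m
  have hY : ∀ m, dist (Y m).1 (Y (m + 1)).1 ≤ 16 * t / 2 / 2 ^ m := fun m => hf m (Y m)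
  obtain ⟨y', hy'⟩ := cauchySeq_tendsto_of_complete (cauchySeq_of_le_geometric_two hY)
  refine ⟨y', dist_le_of_le_geometric_two_of_tendsto₀ hY hy', fun l => ?_⟩
  have h3 : Tendsto (fun m : ℕ => t / 2 ^ m) atTop (𝓝 0) :=
    tendsto_const_nhds.div_atTop (tendsto_pow_atTop_atTop_of_one_lt one_lt_two)
  refine norm_le_zero_iff.1 (le_of_tendsto_of_tendsto'
    (((G l).continuous.tendsto _).comp hy').norm h3 fun m => ?_)
  simpa using (Y m).2 {l}

end Q1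

open Q1 in
theorem q1_proof (h0 : Q0Stmt 𝕜 X) : Q1Stmt 𝕜 X := by
  intro hX g hg hE
  obtain ⟨j, x, hj, hx, h1, h2⟩ := step3 hg hE
  refine h0 (fun l => g (j l)) (Frequently.of_forall fun l h => ?_)
    (hE.mono fun y hy => Metric.mem_closure_iff.2 fun ε hε => ?_).of_closure
  · simpa [h] using hg (j l)
  · obtain ⟨n, hn⟩ := tail (Summable.comp_injective hy hj.injective) (ε := ε / 32) (by positivity)
    obtain ⟨y', h3, h4⟩ := step5 (G := fun l => g (j (l + n))) (x := fun k => x (k + n))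
      (fun k => hx _) (fun k => h1 _) (fun k A hA => by
        have := h2 (k + n) (A.map (addRightEmbedding n)) (by simpa using hA)
        rwa [Finset.sum_map] at this) (y := y) (t := ε / 32) fun A => by
        have := hn (A.map (addRightEmbedding n)) fun i hi => by
          obtain ⟨l, -, rfl⟩ := Finset.mem_map.1 hi
          exact Nat.le_add_left n l
        rwa [Finset.sum_map] at this
    refine ⟨y', eventually_atTop.2 ⟨n, fun l hl => ?_⟩, by linarith⟩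
    obtain ⟨l, rfl⟩ := Nat.exists_eq_add_of_le' hl
    exact h4 l

end

end Crest.Agent.R114
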