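import Crest.Agent.R114.DefsB

/-! Row 114 part B, task SELECT. -/

set_option autoImplicit false

namespace Crest.Agent.R114

open Filter Topology MeasureTheory
open scoped ENNReal

noncomputable section

/-- nested almost-everywhere quantifiers -/
def selAE (μ : Measure TR) (P : List TR → Prop) : ℕ → List TR → Prop
  | 0, l => P l
  | n + 1, l => ∀ᵐ t ∂μ, selAE μ P n (l ++ [t])

/-- the list underlying a point of `TL` -/
def selL (s : TL) : List TR := s

/-- the empty list in `TL` -/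
def selNil : TL := ([] : List TR)

/-- cons as a map on `TL` -/
def selCons (t : TR) (s : TL) : TL := (t :: selL s : List TR)

lemma selL_nil : selL selNil = [] := rfl
lemma selL_cons (t : TR) (s : TL) : selL (selCons t s) = t :: selL s := rfl

lemma sel_nu (μ : Measure TR) [IsProbabilityMeasure μ] (n : ℕ) :
    ∃ ν : Measure TL, IsProbabilityMeasure ν ∧ ∀ (P : List TR → Prop) (l : List TR),
      (∀ᵐ s ∂ν, P (l ++ selL s)) → selAE μ P n l := by
  induction n with
  | zero =>
    refine ⟨Measure.dirac selNil, inferInstance, fun P l h => ?_⟩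
    rw [ae_dirac_iff MeasurableSet.of_discrete] at h
    simpa [selAE, selL_nil] using h
  | succ n ih =>
    obtain ⟨ν, hν, h⟩ := ih
    refine ⟨μ.bind fun t => ν.map (selCons t), ?_, fun P l hP => ?_⟩
    · refine isProbabilityMeasure_bind Measurable.of_discrete.aemeasurable
        (Eventually.of_forall fun t => ?_)
      exact Measure.isProbabilityMeasure_map Measurable.of_discrete.aemeasurable
    · have h1 := Measure.ae_ae_of_ae_bind Measurable.of_discrete.aemeasurable hP
      show ∀ᵐ t ∂μ, selAE μ P n (l ++ [t])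
      filter_upwards [h1] with t ht
      refine h P _ ?_
      have h2 := ae_of_ae_map Measurable.of_discrete.aemeasurable ht
      filter_upwards [h2] with s hs
      simpa [selL_cons] using hs

lemma sel_add (μ : Measure TR) (P : List TR → Prop) (a b : ℕ) : ∀ l : List TR,
    (∀ l' : List TR, l'.length = a → selAE μ P b (l ++ l')) → selAE μ P (a + b) l := by
  induction a with
  | zero => intro l h; simpa using h [] rfl
  | succ a ih =>
    intro l h
    rw [Nat.add_right_comm]
    show ∀ᵐ t ∂μ, selAE μ P (a + b) (l ++ [t])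
    refine Eventually.of_forall fun t => ih _ fun l' hl' => ?_
    have := h (t :: l') (by simp [hl'])
    simpa using this

lemma sel_seq (μ : Measure TR) [IsProbabilityMeasure μ] {C : Type} [Countable C]
    (P : C → List TR → Prop) (N : C → ℕ) (h : ∀ c, selAE μ (P c) (N c) []) (d : TR) :
    ∃ t : ℕ → TR, ∀ c, ∃ l : List TR, P c l ∧ ∀ i < N c, l.getD i d = t i := by
  set Inv : List TR → Prop := fun l => ∀ c, l.length ≤ N c → selAE μ (P c) (N c - l.length) l
    with hInv
  have step : ∀ l, Inv l → ∃ t, Inv (l ++ [t]) := by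
    intro l hl
    have h1 : ∀ᵐ t ∂μ, ∀ c, (l ++ [t]).length ≤ N c →
        selAE μ (P c) (N c - (l ++ [t]).length) (l ++ [t]) := by
      rw [ae_all_iff]
      intro c
      by_cases hc : l.length + 1 ≤ N c
      · have h2 := hl c (by omega)
        have h3 : N c - l.length = (N c - (l.length + 1)) + 1 := by omega
        rw [h3] at h2
        have h4 : ∀ᵐ t ∂μ, selAE μ (P c) (N c - (l.length + 1)) (l ++ [t]) := h2
        filter_upwards [h4] with t ht _
        simpa using ht
      · refine Eventually.of_forall fun t ht => ?_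
        simp at ht; omega
    exact h1.exists
  choose τ hτ using step
  have h0 : Inv [] := fun c _ => by simpa using h c
  let L : ℕ → {l // Inv l} := fun n =>
    Nat.rec ⟨[], h0⟩ (fun _ p => ⟨p.1 ++ [τ p.1 p.2], hτ p.1 p.2⟩) n
  have hL : ∀ n, (L (n + 1)).1 = (L n).1 ++ [τ (L n).1 (L n).2] := fun n => rfl
  have hlen : ∀ n, (L n).1.length = n := by
    intro n
    induction n with
    | zero => rfl
    | succ n ih => rw [hL]; simp [ih]
  have hget : ∀ n, ∀ i < n, (L n).1.getD i d = τ (L i).1 (L i).2 := by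
    intro n
    induction n with
    | zero => intro i hi; omega
    | succ n ih =>
      intro i hi
      rw [hL]
      rcases Nat.lt_succ_iff_lt_or_eq.1 hi with h1 | h1
      · rw [List.getD_append _ _ _ _ (by rw [hlen]; exact h1)]; exact ih i h1
      · subst h1
        rw [List.getD_append_right _ _ _ _ (by rw [hlen]), hlen]; simp
  refine ⟨fun i => τ (L i).1 (L i).2, fun c => ⟨(L (N c)).1, ?_, hget _⟩⟩
  have := (L (N c)).2 c (by rw [hlen])
  rw [hlen, Nat.sub_self] at this
  exact this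

lemma sel_getD (l0 s : List TR) (t d : TR) (i : ℕ) (hi : i ≠ l0.length) :
    (l0 ++ [t] ++ s).getD i d = (l0 ++ [d] ++ s).getD i d := by
  rcases lt_or_gt_of_ne hi with h | h
  · rw [List.append_assoc, List.append_assoc, List.getD_append _ _ _ _ h,
      List.getD_append _ _ _ _ h]
  · rw [List.getD_append_right _ _ _ _ (by simp; omega),
      List.getD_append_right _ _ _ _ (by simp; omega)]
    simp

variable {𝕜 : Type} [RCLike 𝕜] {X : Type*} [NormedAddCommGroup X] [NormedSpace 𝕜 X]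

lemma sel_wit (Φ : StrongDual 𝕜 X) : ∃ x : X, ‖x‖ ≤ 1 ∧ ‖Φ‖ ≤ 3 / 2 * ‖Φ x‖ := by
  by_cases h : Φ = 0
  · exact ⟨0, by simp, by simp [h]⟩
  have hn : 0 < ‖Φ‖ := norm_pos_iff.2 h
  obtain ⟨x, hx, hx'⟩ := Φ.exists_lt_apply_of_lt_opNorm (r := 2 / 3 * ‖Φ‖) (by linarith)
  exact ⟨x, hx.le, by linarith⟩

theorem select_proof : SelectStmt 𝕜 X := by
  intro μ hμ ψ hψ
  obtain ⟨hψ1, hψ0⟩ := hψ
  choose wit hw1 hw2 using sel_wit (𝕜 := 𝕜) (X := X)
  set d : TR := (0 : ℝ) with hd
  set q : ℕ → 𝕜 := TopologicalSpace.denseSeq 𝕜 with hq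
  have hqd : DenseRange q := TopologicalSpace.denseRange_denseSeq 𝕜
  let C : Type := ((A : Finset ℕ) × (A → ℕ)) × ℕ
  let P : C → List TR → Prop := fun c l => c.2 ∉ c.1.1 →
    ψ (l.getD c.2 d) (wit (∑ i : c.1.1, q (c.1.2 i) • ψ (l.getD i d))) = 0
  let N : C → ℕ := fun c => c.2 + (c.1.1.sup id + 1)
  have hP : ∀ c, selAE μ (P c) (N c) [] := by
    rintro ⟨⟨A, b⟩, j⟩
    refine sel_add μ _ _ _ _ fun l0 hl0 => ?_
    obtain ⟨ν, hν, hνP⟩ := sel_nu μ (A.sup id)
    show ∀ᵐ t ∂μ, selAE μ _ (A.sup id) ([] ++ l0 ++ [t])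
    filter_upwards [hψ0 ν hν fun s => wit (∑ i : A, q (b i) •
      ψ ((l0 ++ [d] ++ selL s).getD i d))] with t ht
    refine hνP _ _ ?_
    filter_upwards [ht] with s hs hj
    simp only [List.nil_append] at hj ⊢
    have h1 : (l0 ++ [t] ++ selL s).getD j d = t := by
      rw [List.append_assoc, List.getD_append_right _ _ _ _ (by simp at hl0; omega)]
      simp at hl0; simp [hl0]
    have h2 : ∀ i : A, (l0 ++ [t] ++ selL s).getD i d =
        (l0 ++ [d] ++ selL s).getD i d := by
      intro i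
      refine sel_getD _ _ _ _ _ fun h => hj ?_
      simp at hl0
      rw [← hl0, ← h]; exact i.2
    rw [h1]
    simp_rw [h2]
    exact hs
  obtain ⟨t, ht⟩ := sel_seq μ P N hP d
  refine ⟨fun i => ψ (t i), fun i => hψ1 _, fun A a => ?_⟩
  set Φ : StrongDual 𝕜 X := ∑ i ∈ A, a i • ψ (t i) with hΦ
  by_cases h0 : Φ = 0
  · exact ⟨0, by simp, by rw [h0, norm_zero]; positivity, fun j _ => map_zero _⟩
  have hn : 0 < ‖Φ‖ := norm_pos_iff.2 h0
  set δ : ℝ := ‖Φ‖ / 10 / (A.card + 1) with hδ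
  have hδ0 : 0 < δ := by positivity
  choose b hb using fun i : A => hqd.exists_dist_lt (a i) hδ0
  set Φ' : StrongDual 𝕜 X := ∑ i : A, q (b i) • ψ (t i) with hΦ'
  have hdist : ‖Φ - Φ'‖ ≤ ‖Φ‖ / 10 := by
    have h1 : Φ - Φ' = ∑ i : A, (a i - q (b i)) • ψ (t i) := by
      rw [hΦ, hΦ', ← Finset.sum_coe_sort A, ← Finset.sum_sub_distrib]
      exact Finset.sum_congr rfl fun i _ => (sub_smul _ _ _).symm
    rw [h1]
    calc _ ≤ ∑ i : A, ‖(a i - q (b i)) • ψ (t i)‖ := norm_sum_le _ _
      _ ≤ ∑ _i : A, δ := Finset.sum_le_sum fun i _ => by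
        rw [norm_smul, hψ1, mul_one, ← dist_eq_norm]; exact (hb i).le
      _ = A.card * δ := by simp
      _ ≤ (A.card + 1) * δ := by gcongr; linarith
      _ = ‖Φ‖ / 10 := by rw [hδ]; field_simp
  refine ⟨wit Φ', hw1 _, ?_, fun j hj => ?_⟩
  · have h1 : ∑ i ∈ A, a i * ψ (t i) (wit Φ') = Φ (wit Φ') := by
      rw [hΦ]; simp
    rw [h1]
    have h2 := hw2 Φ'
    have h3 : ‖Φ‖ ≤ ‖Φ'‖ + ‖Φ‖ / 10 := by
      have := norm_le_norm_add_norm_sub' Φ Φ'
      linarith
    have h4 : ‖Φ' (wit Φ')‖ ≤ ‖Φ (wit Φ')‖ + ‖Φ‖ / 10 := by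
      have h5 := norm_le_norm_add_norm_sub (Φ (wit Φ')) (Φ' (wit Φ'))
      have h6 : ‖Φ (wit Φ') - Φ' (wit Φ')‖ ≤ ‖Φ‖ / 10 := by
        have h7 := (Φ - Φ').le_opNorm (wit Φ')
        have h8 : ‖Φ - Φ'‖ * ‖wit Φ'‖ ≤ ‖Φ‖ / 10 * 1 :=
          mul_le_mul hdist (hw1 _) (norm_nonneg _) (by positivity)
        rw [sub_apply] at h7
        linarith
      linarith
    linarith
  · obtain ⟨l, hl, hget⟩ := ht (⟨A, b⟩, j)
    have h1 := hl hj
    have h2 : l.getD j d = t j := hget j (by simp [N])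
    have h3 : ∀ i : A, l.getD i d = t i := fun i => hget i (by
      have : (i : ℕ) ≤ A.sup id := Finset.le_sup (f := id) i.2
      simp only [N]; omega)
    simp only [h2, h3] at h1
    exact h1

end

end Crest.Agent.R114
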