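import Crest.Agent.R114.DefsB

/-! Row 114, task B-SUPP. -/

set_option autoImplicit false

namespace Crest.Agent.R114

open Filter Topology

namespace SuppAux

variable {𝕜 : Type} [RCLike 𝕜] {X : Type*} [NormedAddCommGroup X] [NormedSpace 𝕜 X]

theorem sum_apply' (ψ : ℕ → StrongDual 𝕜 X) (A : Finset ℕ) (a : ℕ → 𝕜) (x : X) :
    (∑ i ∈ A, a i • ψ i) x = ∑ i ∈ A, a i * ψ i x := by
  simp

theorem suppress {ψ : ℕ → StrongDual 𝕜 X} (h : Star ψ) {A B : Finset ℕ} (hAB : A ⊆ B) (a : ℕ → 𝕜) :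
    ‖∑ i ∈ A, a i • ψ i‖ ≤ 2 * ‖∑ i ∈ B, a i • ψ i‖ := by
  obtain ⟨x, hx, h1, h2⟩ := h.2 A a
  have h3 : ∑ i ∈ A, a i * ψ i x = (∑ i ∈ B, a i • ψ i) x := by
    rw [sum_apply']
    exact Finset.sum_subset hAB fun j _ hj => by rw [h2 j hj, mul_zero]
  rw [h3] at h1
  have h4 := (∑ i ∈ B, a i • ψ i).le_opNorm x
  nlinarith [norm_nonneg (∑ i ∈ B, a i • ψ i)]

theorem sum_abs_le (K : Finset ℕ) (f : ℕ → ℝ) (M : ℝ) (h : ∀ K' ⊆ K, |∑ k ∈ K', f k| ≤ M) :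
    ∑ k ∈ K, |f k| ≤ 2 * M := by
  classical
  rw [← Finset.sum_filter_add_sum_filter_not K (fun k => 0 ≤ f k)]
  have h1 : ∑ k ∈ K.filter (fun k => 0 ≤ f k), |f k| = ∑ k ∈ K.filter (fun k => 0 ≤ f k), f k :=
    Finset.sum_congr rfl fun k hk => abs_of_nonneg (Finset.mem_filter.1 hk).2
  have h2 : ∑ k ∈ K.filter (fun k => ¬ 0 ≤ f k), |f k| =
      -∑ k ∈ K.filter (fun k => ¬ 0 ≤ f k), f k := by
    rw [← Finset.sum_neg_distrib]
    exact Finset.sum_congr rfl fun k hk => abs_of_neg (not_le.1 (Finset.mem_filter.1 hk).2)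
  have h3 := abs_le.1 (h _ (Finset.filter_subset (fun k => 0 ≤ f k) K))
  have h4 := abs_le.1 (h _ (Finset.filter_subset (fun k => ¬ 0 ≤ f k) K))
  linarith [h3.2, h4.1]

theorem sum_norm_le (K : Finset ℕ) (z : ℕ → 𝕜) (M : ℝ) (h : ∀ K' ⊆ K, ‖∑ k ∈ K', z k‖ ≤ M) :
    ∑ k ∈ K, ‖z k‖ ≤ 4 * M := by
  have h1 := sum_abs_le K (fun k => RCLike.re (z k)) M fun K' hK => by
    rw [← map_sum]; exact (RCLike.abs_re_le_norm _).trans (h K' hK)
  have h2 := sum_abs_le K (fun k => RCLike.im (z k)) M fun K' hK => by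
    rw [← map_sum]; exact (RCLike.abs_im_le_norm _).trans (h K' hK)
  have h3 : ∑ k ∈ K, ‖z k‖ ≤ ∑ k ∈ K, (|RCLike.re (z k)| + |RCLike.im (z k)|) :=
    Finset.sum_le_sum fun k _ => by
      have e := RCLike.norm_sq_eq_def (z := z k)
      refine abs_le_of_sq_le_sq' ?_ (by positivity) |>.2
      nlinarith [abs_mul_abs_self (RCLike.re (z k)), abs_mul_abs_self (RCLike.im (z k)),
        mul_nonneg (abs_nonneg (RCLike.re (z k))) (abs_nonneg (RCLike.im (z k)))]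
  rw [Finset.sum_add_distrib] at h3
  linarith

theorem exists_block {n : ℕ → ℕ} (hn : StrictMono n) {i : ℕ} (hi : n 0 ≤ i) :
    ∃ k, n k ≤ i ∧ i < n (k + 1) := by
  classical
  have h : ∃ k, i < n (k + 1) := ⟨i, lt_of_lt_of_le (Nat.lt_succ_self i) (hn.id_le (i + 1))⟩
  refine ⟨Nat.find h, ?_, Nat.find_spec h⟩
  rcases Nat.eq_zero_or_eq_succ_pred (Nat.find h) with h0 | h0
  · rw [h0]; exact hi
  · have := Nat.find_min h (m := (Nat.find h).pred) (by omega)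
    rw [h0]
    exact not_lt.1 this

theorem case1 [CompleteSpace X] (hH : HellyStmt 𝕜 X) {ψ : ℕ → StrongDual 𝕜 X} (hψ : Star ψ)
    (h : ∀ (x : X) (η : ℝ), 0 < η → ∃ n : ℕ, ∀ A : Finset ℕ, (∀ i ∈ A, n ≤ i) → ∀ a : ℕ → 𝕜,
      ‖∑ i ∈ A, a i * ψ i x‖ ≤ η * ‖∑ i ∈ A, a i • ψ i‖) :
    Dense {x : X | ∀ᶠ i in atTop, ψ i x = 0} := by
  rw [Metric.dense_iff]
  intro x r hr
  have h1 : ∀ k : ℕ, ∀ᶠ n in atTop, ∀ A : Finset ℕ, (∀ i ∈ A, n ≤ i) → ∀ a : ℕ → 𝕜,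
      ‖∑ i ∈ A, a i * ψ i x‖ ≤ (r / 7 * (1 / 2) ^ k) * ‖∑ i ∈ A, a i • ψ i‖ := fun k => by
    obtain ⟨n, hn⟩ := h x (r / 7 * (1 / 2) ^ k) (by positivity)
    filter_upwards [eventually_ge_atTop n] with m hm A hA a
    exact hn A (fun i hi => hm.trans (hA i hi)) a
  obtain ⟨n, hn, hP⟩ := extraction_forall_of_eventually h1
  have h2 : ∀ k : ℕ, ∃ y : X, ‖y‖ ≤ 3 * (r / 7 * (1 / 2) ^ k) ∧
      (∀ i ∈ Finset.Ico (n k) (n (k + 1)), ψ i y = ψ i x) ∧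
      ∀ j, j ∉ Finset.Ico (n k) (n (k + 1)) → ψ j y = 0 := fun k =>
    hH ψ hψ (Finset.Ico (n k) (n (k + 1))) (fun i => ψ i x) _ (by positivity)
      (hP k _ fun i hi => (Finset.mem_Ico.1 hi).1)
  choose y hy1 hy2 hy3 using h2
  have hs0 : HasSum (fun k : ℕ => 3 * (r / 7 * (1 / 2 : ℝ) ^ k)) (3 * (r / 7 * 2)) :=
    (hasSum_geometric_two.mul_left _).mul_left _
  have hs : Summable y := Summable.of_norm_bounded hs0.summable hy1
  have hb : ‖∑' k, y k‖ ≤ 3 * (r / 7 * 2) := tsum_of_norm_bounded hs0 hy1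
  refine ⟨x - ∑' k, y k, ?_, ?_⟩
  · rw [Metric.mem_ball, dist_eq_norm, sub_sub_cancel_left, norm_neg]
    linarith
  · filter_upwards [eventually_ge_atTop (n 0)] with i hi
    obtain ⟨k, hk1, hk2⟩ := exists_block hn hi
    rw [map_sub, (ψ i).map_tsum hs, tsum_eq_single k, hy2 k i (Finset.mem_Ico.2 ⟨hk1, hk2⟩), sub_self]
    intro l hl
    refine hy3 l i fun hil => hl ?_
    obtain ⟨h3, h4⟩ := Finset.mem_Ico.1 hil
    have a1 : l < k + 1 := hn.lt_iff_lt.1 (h3.trans_lt hk2)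
    have a2 : k < l + 1 := hn.lt_iff_lt.1 (hk1.trans_lt h4)
    omega

theorem case2 {ψ : ℕ → StrongDual 𝕜 X} (hψ : Star ψ) (x : X) (η : ℝ) (hη : 0 < η)
    (h : ∀ n : ℕ, ∃ A : Finset ℕ, (∀ i ∈ A, n ≤ i) ∧ ∃ a : ℕ → 𝕜,
      η * ‖∑ i ∈ A, a i • ψ i‖ < ‖∑ i ∈ A, a i * ψ i x‖) :
    ∃ (η : ℝ) (u : ℕ → StrongDual 𝕜 X), 0 < η ∧ L1Seq η u := by
  classical
  have h1 : ∀ n : ℕ, ∃ (A : Finset ℕ) (a : ℕ → 𝕜), (∀ i ∈ A, n ≤ i) ∧
      ‖∑ i ∈ A, a i • ψ i‖ ≤ 1 ∧ η ≤ ‖(∑ i ∈ A, a i • ψ i) x‖ := fun n => by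
    obtain ⟨A, hA, a, ha⟩ := h n
    rw [← sum_apply'] at ha
    set Φ := ∑ i ∈ A, a i • ψ i with hΦ
    have hne : Φ ≠ 0 := by
      intro h0
      simp [h0] at ha
    have hpos : 0 < ‖Φ‖ := norm_pos_iff.2 hne
    have he : ∑ i ∈ A, (((‖Φ‖⁻¹ : ℝ) : 𝕜) * a i) • ψ i = ((‖Φ‖⁻¹ : ℝ) : 𝕜) • Φ := by
      rw [hΦ, Finset.smul_sum]
      exact Finset.sum_congr rfl fun i _ => mul_smul _ _ _
    refine ⟨A, fun i => ((‖Φ‖⁻¹ : ℝ) : 𝕜) * a i, hA, ?_, ?_⟩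
    · rw [he, norm_smul, RCLike.norm_ofReal, abs_of_pos (inv_pos.2 hpos), inv_mul_cancel₀ hpos.ne']
    · rw [he, smul_apply, norm_smul, RCLike.norm_ofReal,
        abs_of_pos (inv_pos.2 hpos), le_inv_mul_iff₀ hpos]
      linarith
  choose A a hA hu1 hu2 using h1
  let n : ℕ → ℕ := fun k => Nat.rec 0 (fun _ m => max m ((A m).sup id) + 1) k
  have hn1 : ∀ k, n (k + 1) = max (n k) ((A (n k)).sup id) + 1 := fun k => rfl
  have hmono : StrictMono n := strictMono_nat_of_lt_succ fun k => by rw [hn1]; omega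
  have hlt : ∀ k l, k < l → ∀ i ∈ A (n k), i ∉ A (n l) := fun k l hkl i hi hil => by
    have a1 : i ≤ (A (n k)).sup id := Finset.le_sup (f := id) hi
    have a2 := hA _ i hil
    have a3 : n (k + 1) ≤ n l := hmono.monotone hkl
    rw [hn1] at a3
    omega
  have hdisj : ∀ k l, k ≠ l → ∀ i ∈ A (n k), i ∉ A (n l) := fun k l hkl i hi hil => by
    rcases lt_or_gt_of_ne hkl with h | h
    · exact hlt k l h i hi hil
    · exact hlt l k h i hil hi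
  have hx : 0 < ‖x‖ := by
    rw [norm_pos_iff]
    rintro rfl
    have := hu2 0
    rw [map_zero, norm_zero] at this
    linarith
  let u : ℕ → StrongDual 𝕜 X := fun k => ∑ i ∈ A (n k), a (n k) i • ψ i
  refine ⟨η / (8 * ‖x‖), u, by positivity, fun k => hu1 _, fun K c => ?_⟩
  let b : ℕ → 𝕜 := fun i => ∑ k ∈ K, if i ∈ A (n k) then c k * a (n k) i else 0
  have hb : ∀ K' ⊆ K, ∑ k ∈ K', c k • u k = ∑ i ∈ K'.biUnion fun k => A (n k), b i • ψ i := by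
    intro K' hK
    rw [Finset.sum_biUnion (fun k _ l _ hkl => Finset.disjoint_left.2 (hdisj k l hkl))]
    refine Finset.sum_congr rfl fun k hk => ?_
    simp only [u, Finset.smul_sum]
    refine Finset.sum_congr rfl fun i hi => ?_
    rw [smul_smul]
    congr 1
    simp only [b]
    rw [Finset.sum_eq_single k (fun l _ hl => if_neg (hdisj k l hl.symm i hi))
      (fun h => absurd (hK hk) h), if_pos hi]
  have h2 := sum_norm_le K (fun k => c k * u k x) (2 * ‖∑ k ∈ K, c k • u k‖ * ‖x‖) fun K' hK => by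
    rw [← sum_apply']
    refine (ContinuousLinearMap.le_opNorm _ _).trans ?_
    gcongr
    rw [hb K' hK, hb K subset_rfl]
    exact suppress hψ (Finset.biUnion_subset_biUnion_of_subset_left _ hK) b
  have h3 : η * ∑ k ∈ K, ‖c k‖ ≤ ∑ k ∈ K, ‖c k * u k x‖ := by
    rw [Finset.mul_sum]
    refine Finset.sum_le_sum fun k _ => ?_
    rw [norm_mul, mul_comm]
    exact mul_le_mul_of_nonneg_left (hu2 _) (norm_nonneg _)
  rw [div_mul_eq_mul_div, div_le_iff₀ (by positivity)]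
  linarith

end SuppAux

theorem supp_proof {𝕜 : Type} [RCLike 𝕜] {X : Type*} [NormedAddCommGroup X] [NormedSpace 𝕜 X]
    (hQ0 : Q0Stmt 𝕜 X) (hH : HellyStmt 𝕜 X) : SuppStmt 𝕜 X := by
  intro hX ψ hψ
  by_cases h : ∀ (x : X) (η : ℝ), 0 < η → ∃ n : ℕ, ∀ A : Finset ℕ, (∀ i ∈ A, n ≤ i) →
      ∀ a : ℕ → 𝕜, ‖∑ i ∈ A, a i * ψ i x‖ ≤ η * ‖∑ i ∈ A, a i • ψ i‖
  · refine Or.inl (hQ0 ψ (Frequently.of_forall fun i h0 => ?_) (SuppAux.case1 hH hψ h))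
    have := hψ.1 i
    rw [h0, norm_zero] at this
    exact zero_ne_one this
  · push Not at h
    obtain ⟨x, η, hη, h⟩ := h
    exact Or.inr (SuppAux.case2 hψ x η hη h)

end Crest.Agent.R114
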