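import Crest.Agent.R114.DefsB

/-! Row 114, task B-SURJ (and the separation lemma used by B-HELLY). -/

set_option autoImplicit false

namespace Crest.Agent.R114

open Filter Topology

namespace SurjAux

variable {𝕜 : Type} [RCLike 𝕜] {E : Type*} [NormedAddCommGroup E] [NormedSpace 𝕜 E]
  {Y : Type*} [NormedAddCommGroup Y] [NormedSpace 𝕜 Y]

theorem exists_unit (z : 𝕜) : ∃ c : 𝕜, ‖c‖ ≤ 1 ∧ c * z = (‖z‖ : 𝕜) := by
  by_cases hz : z = 0
  · exact ⟨0, by simp, by simp [hz]⟩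
  · refine ⟨(‖z‖ : 𝕜) / z, ?_, div_mul_cancel₀ _ hz⟩
    rw [norm_div, RCLike.norm_ofReal, abs_norm, div_self (norm_ne_zero_iff.2 hz)]

/-- Hahn-Banach: a vector dominated by the image of the unit ball is in its closure. -/
theorem approx (T : E →L[𝕜] Y) (y : Y)
    (h : ∀ (φ : StrongDual 𝕜 Y) (u : ℝ), (∀ x, ‖x‖ ≤ 1 → ‖φ (T x)‖ ≤ u) → ‖φ y‖ ≤ u)
    {ε : ℝ} (hε : 0 < ε) : ∃ x, ‖x‖ ≤ 1 ∧ ‖T x - y‖ < ε := by
  let _ : NormedSpace ℝ Y := NormedSpace.restrictScalars ℝ 𝕜 Y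
  have _ : IsScalarTower ℝ 𝕜 Y := RestrictScalars.isScalarTower ℝ 𝕜 Y
  have hmem : y ∈ closure (T '' Metric.closedBall 0 1) := by
    by_contra hy
    have hconv : Convex ℝ (T '' Metric.closedBall 0 1) := by
      rintro _ ⟨x₁, h₁, rfl⟩ _ ⟨x₂, h₂, rfl⟩ a b ha hb hab
      refine ⟨(a : 𝕜) • x₁ + (b : 𝕜) • x₂, ?_, ?_⟩
      · rw [mem_closedBall_zero_iff] at h₁ h₂ ⊢
        refine (norm_add_le _ _).trans ?_
        rw [norm_smul, norm_smul, RCLike.norm_ofReal, RCLike.norm_ofReal, abs_of_nonneg ha,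
          abs_of_nonneg hb]
        nlinarith
      · rw [map_add, map_smul, map_smul, RCLike.real_smul_eq_coe_smul (K := 𝕜),
          RCLike.real_smul_eq_coe_smul (K := 𝕜)]
    obtain ⟨f, u, hu, hy'⟩ := RCLike.geometric_hahn_banach_closed_point (𝕜 := 𝕜) hconv.closure
      isClosed_closure hy
    have h1 : ‖f y‖ ≤ u := h f u fun x hx => by
      obtain ⟨c, hc, hcz⟩ := exists_unit (f (T x))
      have := hu (T (c • x)) (subset_closure ⟨c • x, by
        rw [mem_closedBall_zero_iff, norm_smul]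
        exact mul_le_one₀ hc (norm_nonneg _) hx, rfl⟩)
      rw [map_smul, map_smul, smul_eq_mul, hcz, RCLike.ofReal_re] at this
      exact this.le
    linarith [RCLike.re_le_norm (f y)]
  obtain ⟨_, ⟨x, hx, rfl⟩, hd⟩ := Metric.mem_closure_iff.1 hmem ε hε
  exact ⟨x, mem_closedBall_zero_iff.1 hx, by rwa [dist_comm, dist_eq_norm] at hd⟩

theorem surj_of_approx [CompleteSpace E] (f : E →L[𝕜] Y) (C : ℝ) (C0 : 0 ≤ C)
    (hC : ∀ y, ∃ x, ‖f x - y‖ ≤ 1 / 2 * ‖y‖ ∧ ‖x‖ ≤ C * ‖y‖) : Function.Surjective f := by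
  choose g hg using hC
  let h y := y - f (g y)
  have hle : ∀ y, ‖h y‖ ≤ 1 / 2 * ‖y‖ := by
    intro y
    rw [norm_sub_rev]
    exact (hg y).1
  intro y
  have hnle : ∀ n : ℕ, ‖h^[n] y‖ ≤ (1 / 2) ^ n * ‖y‖ := by
    intro n
    induction n with
    | zero => simp
    | succ n IH =>
      rw [Function.iterate_succ_apply']
      apply le_trans (hle _) _
      rw [pow_succ', mul_assoc]
      gcongr
  let u n := g (h^[n] y)
  have ule : ∀ n, ‖u n‖ ≤ (1 / 2) ^ n * (C * ‖y‖) := fun n => by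
    apply le_trans (hg _).2
    calc
      C * ‖h^[n] y‖ ≤ C * ((1 / 2) ^ n * ‖y‖) := by gcongr; exact hnle n
      _ = (1 / 2) ^ n * (C * ‖y‖) := by ring
  have sNu : Summable fun n => ‖u n‖ := by
    refine .of_nonneg_of_le (fun n => norm_nonneg _) ule ?_
    exact Summable.mul_right _ (summable_geometric_of_lt_one (by simp) (by norm_num))
  have su : Summable u := sNu.of_norm
  have fsumeq : ∀ n : ℕ, f (∑ i ∈ Finset.range n, u i) = y - h^[n] y := by
    intro n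
    induction n with
    | zero => simp
    | succ n IH => rw [Finset.sum_range_succ, f.map_add, IH, Function.iterate_succ_apply', sub_add]
  have L₁ : Tendsto (fun n => f (∑ i ∈ Finset.range n, u i)) atTop (𝓝 (f (tsum u))) :=
    (f.continuous.tendsto _).comp su.hasSum.tendsto_sum_nat
  simp only [fsumeq] at L₁
  have L₂ : Tendsto (fun n => y - h^[n] y) atTop (𝓝 (y - 0)) := by
    refine tendsto_const_nhds.sub ?_
    rw [tendsto_iff_norm_sub_tendsto_zero]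
    simp only [sub_zero]
    refine squeeze_zero (fun _ => norm_nonneg _) hnle ?_
    rw [← zero_mul ‖y‖]
    refine (tendsto_pow_atTop_nhds_zero_of_lt_one ?_ ?_).mul tendsto_const_nhds <;> norm_num
  exact ⟨tsum u, by rw [tendsto_nhds_unique L₁ L₂, sub_zero]⟩

theorem surjective [CompleteSpace E] (T : E →L[𝕜] Y) (c : ℝ) (hc : 0 < c)
    (h : ∀ φ : StrongDual 𝕜 Y, c * ‖φ‖ ≤ ‖φ.comp T‖) : Function.Surjective T := by
  refine surj_of_approx T c⁻¹ (by positivity) fun y => ?_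
  by_cases hy : y = 0
  · exact ⟨0, by simp [hy], by simp [hy]⟩
  have hn : 0 < ‖y‖ := norm_pos_iff.2 hy
  obtain ⟨x, hx, hd⟩ := approx T (((c / ‖y‖ : ℝ) : 𝕜) • y) (fun φ u hu => by
    have hu0 : 0 ≤ u := le_trans (norm_nonneg _) (hu 0 (by simp))
    have h1 : ‖φ.comp T‖ ≤ u := ContinuousLinearMap.opNorm_le_of_unit_norm hu0 fun x hx =>
      hu x hx.le
    calc ‖φ (((c / ‖y‖ : ℝ) : 𝕜) • y)‖ ≤ ‖φ‖ * ‖((c / ‖y‖ : ℝ) : 𝕜) • y‖ := φ.le_opNorm _
      _ = c * ‖φ‖ := by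
          rw [norm_smul, RCLike.norm_ofReal, abs_of_pos (by positivity)]
          field_simp
      _ ≤ u := (h φ).trans h1) (half_pos hc)
  refine ⟨((‖y‖ / c : ℝ) : 𝕜) • x, ?_, ?_⟩
  · have : T (((‖y‖ / c : ℝ) : 𝕜) • x) - y =
        ((‖y‖ / c : ℝ) : 𝕜) • (T x - ((c / ‖y‖ : ℝ) : 𝕜) • y) := by
      rw [map_smul, smul_sub, smul_smul, ← RCLike.ofReal_mul,
        show ‖y‖ / c * (c / ‖y‖) = 1 by field_simp, RCLike.ofReal_one, one_smul]
    rw [this, norm_smul, RCLike.norm_ofReal, abs_of_pos (by positivity)]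
    calc ‖y‖ / c * ‖T x - ((c / ‖y‖ : ℝ) : 𝕜) • y‖ ≤ ‖y‖ / c * (c / 2) := by gcongr
      _ = 1 / 2 * ‖y‖ := by field_simp
  · rw [norm_smul, RCLike.norm_ofReal, abs_of_pos (by positivity)]
    calc ‖y‖ / c * ‖x‖ ≤ ‖y‖ / c * 1 := by gcongr
      _ = c⁻¹ * ‖y‖ := by field_simp

end SurjAux

theorem surj_proof {𝕜 : Type} [RCLike 𝕜] {X : Type*} [NormedAddCommGroup X] [NormedSpace 𝕜 X] :
    SurjStmt 𝕜 X := by
  intro hX Y _ _ _ _ hY T c hc h
  have hs := SurjAux.surjective T c hc h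
  set M : Submodule 𝕜 X := LinearMap.ker (T : X →ₗ[𝕜] Y) with hM
  let q : (X ⧸ M) →ₗ[𝕜] Y := M.liftQ (T : X →ₗ[𝕜] Y) le_rfl
  have hq : q ∘ M.mkQ = T := by
    ext x
    simp [q]
  have hinj : Function.Injective q := LinearMap.ker_eq_bot.1 (Submodule.ker_liftQ_eq_bot _ _ _ le_rfl)
  have hsq : Function.Surjective q := Function.Surjective.of_comp (g := M.mkQ) (by rw [hq]; exact hs)
  have hopen : IsOpenMap q :=
    IsOpenMap.of_comp (f := M.mkQ) continuous_quot_mk M.mkQ_surjective (by rw [hq]; exact T.isOpenMap hs)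
  exact ⟨M, T.isClosed_ker, hopen.separableSpace_of_injective hinj,
    fun _ => hY (Module.Finite.of_surjective q hsq)⟩

end Crest.Agent.R114
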