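import Mathlib

/-! Row 114, part A (statement S0152): under CH a Banach space without separable
infinite-dimensional quotient.  Definitions and basic API; the task statements are in
`R114/Tasks.lean` (combinatorial norm) and `R114/TasksF.lean` (functional analysis).

`F = Ω →₀ 𝕜` (`Ω` of order type `ω₁`) is used both for vectors and for functionals, `pr f z` is the
pairing.  `WW c ⊆ ℕ × F` is the set of weighted functionals, `Sp` special sequences, `Row` a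
segment of a special sequence, `Two J` the `ℓ²`-sums of weight-disjoint segments with weights
`≥ J`, `W c` the norming set and `nrm c` the norm. -/

set_option autoImplicit false

namespace Crest.Agent.R114

open Filter Topology Finset

noncomputable section

/-- `Ω` has order type `ω₁` and cardinality continuum. -/
structure Om (Ω : Type) [LinearOrder Ω] : Prop where
  wf : WellFoundedLT Ω
  cnt : ∀ β : Ω, (Set.Iio β).Countable
  card : Cardinal.mk Ω = Cardinal.continuum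

/-! ### numerical parameters -/

def kap (j : ℕ) : ℝ := 1 / (16 * 2 ^ j)

def aa : ℕ → ℕ
  | 0 => 2
  | k + 1 => 2 * aa k ^ 2

def nn (j : ℕ) : ℕ := 2 ^ aa j

theorem eqns_aa : True := by
  have _h := @aa.eq_def; have _h1 := @aa.eq_1; have _h2 := @aa.eq_2; trivial

lemma kap_pos (j : ℕ) : 0 < kap j := by unfold kap; positivity

lemma kap_succ (j : ℕ) : kap (j + 1) = kap j / 2 := by unfold kap; rw [pow_succ]; field_simp

lemma kap_anti : Antitone kap :=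
  antitone_nat_of_succ_le fun j => by rw [kap_succ]; linarith [kap_pos j]

lemma kap_zero : kap 0 = 1 / 16 := by simp [kap]

lemma kap_le (j : ℕ) : kap j ≤ 1 / 16 := kap_zero ▸ kap_anti (Nat.zero_le j)

lemma sum_kap_Ico (J K : ℕ) : ∑ w ∈ Ico J K, kap w ≤ 2 * kap J := by
  have h : ∀ K, J ≤ K → ∑ w ∈ Ico J K, kap w = 2 * kap J - 2 * kap K := by
    intro K hK
    induction K, hK using Nat.le_induction with
    | base => simp
    | succ K hK ih => rw [Finset.sum_Ico_succ_top hK, ih, kap_succ]; ring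
  rcases le_total J K with hK | hK
  · rw [h K hK]; linarith [kap_pos K]
  · rw [Finset.Ico_eq_empty_of_le hK]; simp [(kap_pos J).le]

lemma sum_kap_range (K : ℕ) : ∑ w ∈ range K, kap w ≤ 1 / 8 := by
  have := sum_kap_Ico 0 K
  rw [kap_zero, ← Finset.range_eq_Ico] at this; linarith

lemma summable_kap : Summable kap :=
  summable_of_sum_range_le (fun j => (kap_pos j).le) sum_kap_range

lemma two_le_aa (j : ℕ) : 2 ≤ aa j := by
  induction j with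
  | zero => simp [aa]
  | succ k ih => simp only [aa]; nlinarith

lemma aa_strictMono : StrictMono aa :=
  strictMono_nat_of_lt_succ fun j => by have := two_le_aa j; simp only [aa]; nlinarith

lemma nn_pos (j : ℕ) : 0 < nn j := by unfold nn; positivity

lemma nn_mono : Monotone nn := fun _ _ h =>
  Nat.pow_le_pow_right (by norm_num) (aa_strictMono.monotone h)

section
variable {𝕜 : Type} [RCLike 𝕜] {Ω : Type} [LinearOrder Ω]

/-! ### finitely supported vectors -/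

/-- the bilinear pairing `pr f z = ∑ α, f α * z α`. -/
def pr : (Ω →₀ 𝕜) →ₗ[𝕜] (Ω →₀ 𝕜) →ₗ[𝕜] 𝕜 :=
  Finsupp.linearCombination 𝕜 fun α => Finsupp.lapply α

def l2 (f : Ω →₀ 𝕜) : ℝ := √(∑ α ∈ f.support, ‖f α‖ ^ 2)

open Classical in
def restr (E : Set Ω) (f : Ω →₀ 𝕜) : Ω →₀ 𝕜 := f.filter (· ∈ E)

/-- the support of `f` lies below the support of `g`. -/
def Lt (f g : Ω →₀ 𝕜) : Prop := ∀ α ∈ f.support, ∀ β ∈ g.support, α < β

/-- `g 0 < g 1 < … < g (n-1)`. -/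
def Succ (g : ℕ → Ω →₀ 𝕜) (n : ℕ) : Prop := ∀ r r', r < r' → r' < n → Lt (g r) (g r')

/-- the support of `f` lies in the order-convex hull of the support of `y`. -/
def Hull (f y : Ω →₀ 𝕜) : Prop :=
  ∀ α ∈ f.support, (∃ β ∈ y.support, β ≤ α) ∧ ∃ β ∈ y.support, α ≤ β

/-- block sequence. -/
def Block (z : ℕ → Ω →₀ 𝕜) : Prop := (∀ i j, i < j → Lt (z i) (z j)) ∧ ∀ i, z i ≠ 0

/-- tail subspace. -/
def Tl (z : ℕ → Ω →₀ 𝕜) (N : ℕ) : Submodule 𝕜 (Ω →₀ 𝕜) := Submodule.span 𝕜 (z '' Set.Ici N)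

omit [LinearOrder Ω] in
lemma pr_apply (f z : Ω →₀ 𝕜) : pr f z = ∑ α ∈ f.support, f α * z α := by
  simp [pr, Finsupp.linearCombination_apply, Finsupp.sum, LinearMap.sum_apply]

omit [LinearOrder Ω] in
lemma pr_eq_sum (f z : Ω →₀ 𝕜) (s : Finset Ω) (h : ∀ α, f α ≠ 0 → z α ≠ 0 → α ∈ s) :
    pr f z = ∑ α ∈ s, f α * z α := by
  classical
  have e1 : ∑ α ∈ f.support ∩ s, f α * z α = ∑ α ∈ f.support, f α * z α := by
    refine Finset.sum_subset Finset.inter_subset_left fun α hf hα => ?_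
    by_contra hne
    exact hα (Finset.mem_inter.2 ⟨hf, h α (left_ne_zero_of_mul hne) (right_ne_zero_of_mul hne)⟩)
  have e2 : ∑ α ∈ f.support ∩ s, f α * z α = ∑ α ∈ s, f α * z α := by
    refine Finset.sum_subset Finset.inter_subset_right fun α hs hα => ?_
    have : f α = 0 := by simpa [hs] using hα
    simp [this]
  rw [pr_apply, ← e1, e2]

omit [LinearOrder Ω] in
lemma pr_comm (f z : Ω →₀ 𝕜) : pr f z = pr z f := by
  rw [pr_apply z, pr_eq_sum f z z.support fun α _ h => Finsupp.mem_support_iff.2 h]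
  exact Finset.sum_congr rfl fun _ _ => mul_comm _ _

omit [LinearOrder Ω] in
lemma pr_eq_zero {f z : Ω →₀ 𝕜} (h : ∀ α ∈ f.support, α ∉ z.support) : pr f z = 0 := by
  rw [pr_eq_sum f z ∅ fun α h1 h2 =>
    absurd (Finsupp.mem_support_iff.2 h2) (h α (Finsupp.mem_support_iff.2 h1))]
  simp

lemma Lt.pr_eq_zero {f z : Ω →₀ 𝕜} (h : Lt f z) : pr f z = 0 :=
  R114.pr_eq_zero fun α h1 h2 => lt_irrefl _ (h α h1 α h2)

lemma Lt.pr_eq_zero' {f z : Ω →₀ 𝕜} (h : Lt z f) : pr f z = 0 :=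
  R114.pr_eq_zero fun α h1 h2 => lt_irrefl _ (h α h2 α h1)

omit [LinearOrder Ω] in
@[simp] lemma pr_single (α : Ω) (a : 𝕜) (z : Ω →₀ 𝕜) : pr (Finsupp.single α a) z = a * z α := by
  simp [pr]

omit [LinearOrder Ω] in
lemma restr_of_mem {E : Set Ω} {α : Ω} (f : Ω →₀ 𝕜) (h : α ∈ E) : restr E f α = f α := by
  simp [restr, h]

omit [LinearOrder Ω] in
lemma restr_of_notMem {E : Set Ω} {α : Ω} (f : Ω →₀ 𝕜) (h : α ∉ E) : restr E f α = 0 := by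
  simp [restr, h]

omit [LinearOrder Ω] in
lemma mem_support_restr {E : Set Ω} {α : Ω} {f : Ω →₀ 𝕜} :
    α ∈ (restr E f).support ↔ α ∈ f.support ∧ α ∈ E := by
  simp [restr, Finsupp.support_filter]

omit [LinearOrder Ω] in
lemma support_restr_subset (E : Set Ω) (f : Ω →₀ 𝕜) : (restr E f).support ⊆ f.support :=
  fun _ h => (mem_support_restr.1 h).1

/-- `restr E` as a linear map. -/
def restrL (E : Set Ω) : (Ω →₀ 𝕜) →ₗ[𝕜] (Ω →₀ 𝕜) where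
  toFun := restr E
  map_add' f g := by
    ext α; by_cases h : α ∈ E <;> simp [restr_of_mem, restr_of_notMem, h]
  map_smul' a f := by
    ext α; by_cases h : α ∈ E <;> simp [restr_of_mem, restr_of_notMem, h]

omit [LinearOrder Ω] in
lemma restr_add (E : Set Ω) (f g : Ω →₀ 𝕜) : restr E (f + g) = restr E f + restr E g :=
  (restrL E).map_add f g

omit [LinearOrder Ω] in
lemma restr_sub (E : Set Ω) (f g : Ω →₀ 𝕜) : restr E (f - g) = restr E f - restr E g :=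
  (restrL E).map_sub f g

omit [LinearOrder Ω] in
lemma restr_smul (E : Set Ω) (a : 𝕜) (f : Ω →₀ 𝕜) : restr E (a • f) = a • restr E f :=
  (restrL E).map_smul a f

omit [LinearOrder Ω] in
lemma restr_sum {ι : Type} (E : Set Ω) (s : Finset ι) (f : ι → Ω →₀ 𝕜) :
    restr E (∑ i ∈ s, f i) = ∑ i ∈ s, restr E (f i) := map_sum (restrL E) f s

omit [LinearOrder Ω] in
@[simp] lemma restr_zero (E : Set Ω) : restr E (0 : Ω →₀ 𝕜) = 0 := (restrL E).map_zero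

omit [LinearOrder Ω] in
lemma restr_restr (E E' : Set Ω) (f : Ω →₀ 𝕜) : restr E (restr E' f) = restr (E' ∩ E) f := by
  ext α
  by_cases h : α ∈ E <;> by_cases h' : α ∈ E' <;> simp [restr_of_mem, restr_of_notMem, h, h']

omit [LinearOrder Ω] in
lemma restr_eq_self {E : Set Ω} {f : Ω →₀ 𝕜} (h : ∀ α ∈ f.support, α ∈ E) : restr E f = f := by
  ext α
  by_cases h' : α ∈ E
  · exact restr_of_mem f h'
  · rw [restr_of_notMem f h']
    by_contra hne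
    exact h' (h α (Finsupp.mem_support_iff.2 (Ne.symm hne)))

omit [LinearOrder Ω] in
@[simp] lemma restr_univ (f : Ω →₀ 𝕜) : restr Set.univ f = f := restr_eq_self fun _ _ => trivial

omit [LinearOrder Ω] in
lemma pr_restr (E : Set Ω) (f z : Ω →₀ 𝕜) : pr (restr E f) z = pr f (restr E z) := by
  rw [pr_apply f, pr_eq_sum _ z f.support fun α h _ =>
    support_restr_subset E f (Finsupp.mem_support_iff.2 h)]
  refine Finset.sum_congr rfl fun α _ => ?_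
  by_cases h : α ∈ E <;> simp [restr_of_mem, restr_of_notMem, h]

lemma Lt.mono {f g f' g' : Ω →₀ 𝕜} (h : Lt f g) (hf : f'.support ⊆ f.support)
    (hg : g'.support ⊆ g.support) : Lt f' g' := fun α h1 β h2 => h α (hf h1) β (hg h2)

lemma Lt.hull {f g f' g' : Ω →₀ 𝕜} (h : Lt f g) (hf : Hull f' f) (hg : Hull g' g) : Lt f' g' :=
  fun α h1 β h2 => by
    obtain ⟨a, ha, haa⟩ := (hf α h1).2
    obtain ⟨b, hb, hbb⟩ := (hg β h2).1
    exact (haa.trans_lt (h a ha b hb)).trans_le hbb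

lemma Hull.refl (f : Ω →₀ 𝕜) : Hull f f := fun α h => ⟨⟨α, h, le_rfl⟩, ⟨α, h, le_rfl⟩⟩

lemma Lt.trans {f g h : Ω →₀ 𝕜} (h1 : Lt f g) (h2 : Lt g h) (hg : g ≠ 0) : Lt f h :=
  fun α ha β hb => by
    obtain ⟨γ, hγ⟩ := Finsupp.support_nonempty_iff.2 hg
    exact (h1 α ha γ hγ).trans (h2 γ hγ β hb)

omit [LinearOrder Ω] in
lemma l2_nonneg (f : Ω →₀ 𝕜) : 0 ≤ l2 f := Real.sqrt_nonneg _

omit [LinearOrder Ω] in
lemma norm_apply_le_l2 (f : Ω →₀ 𝕜) (α : Ω) : ‖f α‖ ≤ l2 f := by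
  by_cases h : α ∈ f.support
  · exact Real.le_sqrt_of_sq_le
      (Finset.single_le_sum (f := fun α => ‖f α‖ ^ 2) (fun _ _ => by positivity) h)
  · rw [Finsupp.notMem_support_iff.1 h]; simpa using l2_nonneg f

omit [LinearOrder Ω] in
lemma norm_pr_le (f z : Ω →₀ 𝕜) : ‖pr f z‖ ≤ l2 f * l2 z := by
  classical
  rw [pr_eq_sum f z (f.support ∩ z.support) fun α h1 h2 => by simp [h1, h2]]
  refine (norm_sum_le _ _).trans ?_
  simp only [norm_mul]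
  refine (Real.sum_mul_le_sqrt_mul_sqrt _ _ _).trans ?_
  unfold l2
  gcongr
  · exact Finset.inter_subset_left
  · exact Finset.inter_subset_right

omit [LinearOrder Ω] in
lemma Tl_anti (z : ℕ → Ω →₀ 𝕜) {N N' : ℕ} (h : N ≤ N') : Tl z N' ≤ Tl z N :=
  Submodule.span_mono (Set.image_mono (Set.Ici_subset_Ici.2 h))

omit [LinearOrder Ω] in
lemma mem_Tl {z : ℕ → Ω →₀ 𝕜} {N : ℕ} {y : Ω →₀ 𝕜} : y ∈ Tl z N ↔
    ∃ (s : Finset ℕ) (a : ℕ → 𝕜), (∀ i ∈ s, N ≤ i) ∧ y = ∑ i ∈ s, a i • z i := by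
  constructor
  · intro h
    obtain ⟨l, hl, rfl⟩ := (Finsupp.mem_span_image_iff_linearCombination 𝕜).1 h
    exact ⟨l.support, l, fun i hi => (Finsupp.mem_supported _ _).1 hl hi, by
      simp [Finsupp.linearCombination_apply, Finsupp.sum]⟩
  · rintro ⟨s, a, hs, rfl⟩
    exact Submodule.sum_mem _ fun i hi =>
      Submodule.smul_mem _ _ (Submodule.subset_span ⟨i, hs i hi, rfl⟩)

omit [LinearOrder Ω] in
lemma support_of_mem_Tl {z : ℕ → Ω →₀ 𝕜} {N : ℕ} {y : Ω →₀ 𝕜} (h : y ∈ Tl z N) :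
    ∃ N', ∀ α ∈ y.support, ∃ i, N ≤ i ∧ i < N' ∧ α ∈ (z i).support := by
  classical
  obtain ⟨s, a, hs, rfl⟩ := mem_Tl.1 h
  refine ⟨s.sup id + 1, fun α hα => ?_⟩
  obtain ⟨i, hi, hα⟩ := Finset.mem_biUnion.1 (Finsupp.support_finsetSum hα)
  exact ⟨i, hs i hi, Nat.lt_succ_of_le (Finset.le_sup (f := id) hi), Finsupp.support_smul hα⟩

/-- a vector of the tail `N` lies above `z i`, `i < N`, and below `z i` for large `i`. -/
lemma Block.between {z : ℕ → Ω →₀ 𝕜} (hz : Block z) {N : ℕ} {y : Ω →₀ 𝕜} (h : y ∈ Tl z N) :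
    (∀ i < N, Lt (z i) y) ∧ ∃ N', (∀ i, N' ≤ i → Lt y (z i)) ∧ ∀ y' ∈ Tl z N', Lt y y' := by
  obtain ⟨N', h'⟩ := support_of_mem_Tl h
  refine ⟨fun i hi α hα β hβ => ?_, N', fun i hi α hα β hβ => ?_, fun y' hy' α hα β hβ => ?_⟩
  · obtain ⟨j, hj, -, hb⟩ := h' β hβ
    exact hz.1 i j (hi.trans_le hj) α hα β hb
  · obtain ⟨j, -, hj, ha⟩ := h' α hα
    exact hz.1 j i (hj.trans_le hi) α ha β hβ
  · obtain ⟨j, -, hj, ha⟩ := h' α hα
    obtain ⟨N'', h''⟩ := support_of_mem_Tl hy'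
    obtain ⟨i, hi, -, hb⟩ := h'' β hβ
    exact hz.1 j i (hj.trans_le hi) α ha β hb

end

/-! ### coding -/

/-- coding of finite sequences of weighted functionals by natural numbers. -/
structure Coding (𝕜 : Type) [RCLike 𝕜] (Ω : Type) [LinearOrder Ω] where
  R0 : Subfield 𝕜
  dense : Dense (R0 : Set 𝕜)
  code : ℕ → (ℕ → ℕ × (Ω →₀ 𝕜)) → ℕ
  congr : ∀ l τ τ', (∀ b < l, τ b = τ' b) → code l τ = code l τ'
  gt : ∀ l τ, ∀ b < l, (τ b).1 < code l τ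
  c2 : ∀ l τ l' τ', code l τ = code l' τ' → l = l' ∧ ∀ b < l, (τ b).1 = (τ' b).1
  c3 : ∀ (a b v : ℕ) (β : Ω), b < a → Set.Finite {f | ∃ τ : ℕ → ℕ × (Ω →₀ 𝕜),
    (∀ α, (τ b).2 α ∈ R0) ∧ Lt (τ b).2 (τ a).2 ∧ code (a + 1) τ = v ∧ β ∈ (τ a).2.support ∧
      (τ b).2 = f}
  c4 : ∀ (b : ℕ) (f f' : Ω →₀ 𝕜), (∀ α, f α ∈ R0) → (∀ α, f' α ∈ R0) →
    (∀ N, ∃ l τ τ', N ≤ l ∧ code l τ = code l τ' ∧ (τ b).2 = f ∧ (τ' b).2 = f') → f = f'

/-- a segment of a special sequence: indices `l < L` with weight in `[lo, hi)`, cut to `E`. -/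
structure Row (𝕜 : Type) [RCLike 𝕜] (Ω : Type) where
  τ : ℕ → ℕ × (Ω →₀ 𝕜)
  L : ℕ
  lo : ℕ
  hi : ℕ
  E : Set Ω

section
variable {𝕜 : Type} [RCLike 𝕜] {Ω : Type} [LinearOrder Ω]

def Row.idx (ρ : Row 𝕜 Ω) : Finset ℕ :=
  (range ρ.L).filter fun l => ρ.lo ≤ (ρ.τ l).1 ∧ (ρ.τ l).1 < ρ.hi

def Row.wts (ρ : Row 𝕜 Ω) : Finset ℕ := ρ.idx.image fun l => (ρ.τ l).1

def Row.seg (ρ : Row 𝕜 Ω) : Ω →₀ 𝕜 := restr ρ.E (∑ l ∈ ρ.idx, (ρ.τ l).2)

/-- keep only the weights in `[a, b)`. -/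
def Row.cut (ρ : Row 𝕜 Ω) (a b : ℕ) : Row 𝕜 Ω := ⟨ρ.τ, ρ.L, max ρ.lo a, min ρ.hi b, ρ.E⟩

variable (c : Coding 𝕜 Ω)

/-- special sequence of length `L` with terms in `A`. -/
def Sp (A : Set (ℕ × (Ω →₀ 𝕜))) (τ : ℕ → ℕ × (Ω →₀ 𝕜)) (L : ℕ) : Prop :=
  (∀ l < L, τ l ∈ A) ∧ Succ (fun l => (τ l).2) L ∧ ∀ l, 0 < l → l < L → (τ l).1 = c.code l τ

def Row.OK (A : Set (ℕ × (Ω →₀ 𝕜))) (ρ : Row 𝕜 Ω) : Prop := Sp c A ρ.τ ρ.L ∧ ρ.E.OrdConnected

/-- `ℓ²`-sums of weight-disjoint segments with all weights `≥ J`. -/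
def Two (A : Set (ℕ × (Ω →₀ 𝕜))) (J : ℕ) (h : Ω →₀ 𝕜) : Prop :=
  ∃ (s : Finset ℕ) (ρ : ℕ → Row 𝕜 Ω) (lam : ℕ → 𝕜),
    (∀ r ∈ s, (ρ r).OK c A ∧ J ≤ (ρ r).lo ∧ lam r ∈ c.R0) ∧ ∑ r ∈ s, ‖lam r‖ ^ 2 ≤ 1 ∧
    (∀ r ∈ s, ∀ r' ∈ s, r ≠ r' → Disjoint (ρ r).wts (ρ r').wts) ∧
    h = ∑ r ∈ s, lam r • (ρ r).seg

def Base (g : Ω →₀ 𝕜) : Prop := ∃ α lam, lam ∈ c.R0 ∧ ‖lam‖ ≤ 1 ∧ g = Finsupp.single α lam

def Wof (A : Set (ℕ × (Ω →₀ 𝕜))) (g : Ω →₀ 𝕜) : Prop := Base c g ∨ Two c A 0 g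

/-- growth index of the `r`-th term in an operation of type A. -/
def gr (g : ℕ → Ω →₀ 𝕜) (r : ℕ) : ℕ := r + ∑ r' ∈ range r, (g r').support.card

/-- one operation of weight `q.1`: type B (`ℓ²` coefficients) or type A (fast growing). -/
def Step (A : Set (ℕ × (Ω →₀ 𝕜))) : Set (ℕ × (Ω →₀ 𝕜)) :=
  {q | ∃ (g : ℕ → Ω →₀ 𝕜) (lam : ℕ → 𝕜), Succ g (nn q.1) ∧
    q.2 = ((kap q.1 : ℝ) : 𝕜) • ∑ r ∈ range (nn q.1), lam r • g r ∧
    (((∀ r < nn q.1, lam r ∈ c.R0 ∧ Wof c A (g r)) ∧ ∑ r ∈ range (nn q.1), ‖lam r‖ ^ 2 ≤ 1) ∨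
      ∀ r < nn q.1, lam r = 1 ∧ Two c A (gr g r) (g r))}

variable {c}

lemma Sp.mono {A B : Set (ℕ × (Ω →₀ 𝕜))} (h : A ⊆ B) {τ L} (hs : Sp c A τ L) : Sp c B τ L :=
  ⟨fun l hl => h (hs.1 l hl), hs.2⟩

lemma Two.mono {A B : Set (ℕ × (Ω →₀ 𝕜))} (h : A ⊆ B) {J g} (hs : Two c A J g) : Two c B J g := by
  obtain ⟨s, ρ, lam, h1, h2⟩ := hs
  exact ⟨s, ρ, lam, fun r hr => ⟨⟨(h1 r hr).1.1.mono h, (h1 r hr).1.2⟩, (h1 r hr).2⟩, h2⟩

lemma Wof.mono {A B : Set (ℕ × (Ω →₀ 𝕜))} (h : A ⊆ B) {g} (hs : Wof c A g) : Wof c B g :=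
  hs.imp id (Two.mono h)

lemma Step_mono : Monotone (Step c) := by
  rintro A B h q ⟨g, lam, h1, h2, h3⟩
  refine ⟨g, lam, h1, h2, h3.imp ?_ ?_⟩
  · exact fun h4 => ⟨fun r hr => ⟨(h4.1 r hr).1, (h4.1 r hr).2.mono h⟩, h4.2⟩
  · exact fun h4 r hr => ⟨(h4 r hr).1, (h4 r hr).2.mono h⟩

variable (c)

/-- the weighted functionals. -/
def WW : Set (ℕ × (Ω →₀ 𝕜)) := OrderHom.lfp ⟨Step c, Step_mono⟩

/-- the norming set. -/
def W (g : Ω →₀ 𝕜) : Prop := Wof c (WW c) g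

/-- the norm. -/
def nrm (z : Ω →₀ 𝕜) : ℝ := sSup {t | ∃ g, W c g ∧ t = ‖pr g z‖}

/-- `ℓ¹`-average property. -/
def Avg (n : ℕ) (C : ℝ) (y : Ω →₀ 𝕜) : Prop :=
  ∀ g : ℕ → Ω →₀ 𝕜, Succ g n → (∀ r < n, W c (g r)) → ∑ r ∈ range n, ‖pr (g r) y‖ ≤ C

lemma Step_WW : Step c (WW c) = WW c := OrderHom.map_lfp ⟨Step c, Step_mono⟩

variable {c}

/-- induction principle for `WW`. -/
lemma WW_ind {P : Set (ℕ × (Ω →₀ 𝕜))} (h : Step c P ⊆ P) : WW c ⊆ P :=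
  OrderHom.lfp_le ⟨Step c, Step_mono⟩ h

lemma kap_mem (j : ℕ) : ((kap j : ℝ) : 𝕜) ∈ c.R0 := by
  have : ((kap j : ℝ) : 𝕜) = ((16 * 2 ^ j : ℕ) : 𝕜)⁻¹ := by
    unfold kap; push_cast; rw [one_div]
  rw [this]; exact inv_mem (natCast_mem _ _)

lemma Sp.le {A : Set (ℕ × (Ω →₀ 𝕜))} {τ L L'} (hs : Sp c A τ L) (h : L' ≤ L) : Sp c A τ L' :=
  ⟨fun l hl => hs.1 l (hl.trans_le h), fun r r' h1 h2 => hs.2.1 r r' h1 (h2.trans_le h),
    fun l h1 h2 => hs.2.2 l h1 (h2.trans_le h)⟩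

lemma Sp.congr {A : Set (ℕ × (Ω →₀ 𝕜))} {τ τ' L} (hs : Sp c A τ L) (h : ∀ l < L, τ l = τ' l) :
    Sp c A τ' L := by
  refine ⟨fun l hl => h l hl ▸ hs.1 l hl, fun r r' h1 h2 => ?_, fun l h1 h2 => ?_⟩
  · have := hs.2.1 r r' h1 h2
    simpa only [h r (h1.trans h2), h r' h2] using this
  · rw [← h l h2, hs.2.2 l h1 h2]
    exact c.congr l τ τ' fun b hb => h b (hb.trans h2)

/-- the weights of a special sequence are strictly increasing. -/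
lemma Sp.lt {A : Set (ℕ × (Ω →₀ 𝕜))} {τ L} (hs : Sp c A τ L) {l l' : ℕ} (h : l < l') (h' : l' < L) :
    (τ l).1 < (τ l').1 := by
  rw [hs.2.2 l' (by omega) h']; exact c.gt l' τ l h

lemma Sp.le_wt {A : Set (ℕ × (Ω →₀ 𝕜))} {τ L} (hs : Sp c A τ L) {l : ℕ} (h : l < L) :
    l ≤ (τ l).1 := by
  induction l with
  | zero => exact Nat.zero_le _
  | succ l ih =>
    have h1 : (τ l).1 < (τ (l + 1)).1 := hs.lt (Nat.lt_succ_self l) h
    have := ih (by omega); omega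

lemma Sp.injOn {A : Set (ℕ × (Ω →₀ 𝕜))} {τ L} (hs : Sp c A τ L) {l l' : ℕ} (h : l < L)
    (h' : l' < L) (e : (τ l).1 = (τ l').1) : l = l' := by
  rcases lt_trichotomy l l' with h1 | h1 | h1
  · exact absurd e (hs.lt h1 h').ne
  · exact h1
  · exact absurd e (hs.lt h1 h).ne'

omit [LinearOrder Ω] in
lemma Row.mem_idx {ρ : Row 𝕜 Ω} {l : ℕ} :
    l ∈ ρ.idx ↔ l < ρ.L ∧ ρ.lo ≤ (ρ.τ l).1 ∧ (ρ.τ l).1 < ρ.hi := by simp [Row.idx]

omit [LinearOrder Ω] in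
lemma Row.idx_cut (ρ : Row 𝕜 Ω) (a b : ℕ) :
    (ρ.cut a b).idx = ρ.idx.filter fun l => a ≤ (ρ.τ l).1 ∧ (ρ.τ l).1 < b := by
  ext l; simp only [Row.mem_idx, Finset.mem_filter, Row.cut, max_le_iff, lt_min_iff]; tauto

omit [LinearOrder Ω] in
lemma Row.wts_cut_subset (ρ : Row 𝕜 Ω) (a b : ℕ) : (ρ.cut a b).wts ⊆ ρ.wts := by
  unfold Row.wts; rw [Row.idx_cut]; exact Finset.image_subset_image (Finset.filter_subset _ _)

lemma Row.OK.cut {A : Set (ℕ × (Ω →₀ 𝕜))} {ρ : Row 𝕜 Ω} (h : ρ.OK c A) (a b : ℕ) :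
    (ρ.cut a b).OK c A := h

omit [LinearOrder Ω] in
lemma Row.pr_seg (ρ : Row 𝕜 Ω) (z : Ω →₀ 𝕜) :
    pr ρ.seg z = ∑ l ∈ ρ.idx, pr (restr ρ.E (ρ.τ l).2) z := by
  rw [Row.seg, restr_sum, map_sum, LinearMap.sum_apply]

lemma Two.anti {A : Set (ℕ × (Ω →₀ 𝕜))} {J J' g} (hs : Two c A J g) (h : J' ≤ J) :
    Two c A J' g := by
  obtain ⟨s, ρ, lam, h1, h2⟩ := hs
  exact ⟨s, ρ, lam, fun r hr => ⟨(h1 r hr).1, h.trans (h1 r hr).2.1, (h1 r hr).2.2⟩, h2⟩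

lemma Two.zero (A : Set (ℕ × (Ω →₀ 𝕜))) (J : ℕ) : Two c A J 0 :=
  ⟨∅, fun _ => ⟨fun _ => (0, 0), 0, 0, 0, ∅⟩, fun _ => 0, by simp, by simp, by simp, by simp⟩

lemma Two.W {J g} (hs : Two c (WW c) J g) : W c g := Or.inr (hs.anti (Nat.zero_le J))

lemma W_zero : W c 0 := (Two.zero _ 0).W

lemma Two.restr {A : Set (ℕ × (Ω →₀ 𝕜))} {J g} (hs : Two c A J g) {E : Set Ω}
    (hE : E.OrdConnected) : Two c A J (restr E g) := by
  obtain ⟨s, ρ, lam, h1, h2, h3, rfl⟩ := hs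
  refine ⟨s, fun r => ⟨(ρ r).τ, (ρ r).L, (ρ r).lo, (ρ r).hi, (ρ r).E ∩ E⟩, lam,
    fun r hr => ⟨⟨(h1 r hr).1.1, (h1 r hr).1.2.inter hE⟩, (h1 r hr).2⟩, h2, h3, ?_⟩
  rw [restr_sum]
  refine Finset.sum_congr rfl fun r _ => ?_
  rw [restr_smul, Row.seg, restr_restr]; rfl

lemma Wof.restr {A : Set (ℕ × (Ω →₀ 𝕜))} {g} (hs : Wof c A g) {E : Set Ω}
    (hE : E.OrdConnected) : Wof c A (restr E g) := by
  rcases hs with ⟨α, lam, h1, h2, rfl⟩ | hs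
  · by_cases h : α ∈ E
    · rw [restr_eq_self fun β hβ => by
        rwa [Finset.mem_singleton.1 (Finsupp.support_single_subset hβ)]]
      exact Or.inl ⟨α, lam, h1, h2, rfl⟩
    · have : R114.restr E (Finsupp.single α lam) = 0 := by
        ext β
        by_cases hb : β ∈ E
        · rw [restr_of_mem _ hb, Finsupp.single_eq_of_ne (by rintro rfl; exact h hb)]; rfl
        · exact restr_of_notMem _ hb
      rw [this]; exact Or.inr (Two.zero _ _)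
  · exact Or.inr (hs.restr hE)

lemma Two.smul {A : Set (ℕ × (Ω →₀ 𝕜))} {J g} (hs : Two c A J g) {a : 𝕜} (ha : a ∈ c.R0)
    (ha1 : ‖a‖ ≤ 1) : Two c A J (a • g) := by
  obtain ⟨s, ρ, lam, h1, h2, h3, rfl⟩ := hs
  refine ⟨s, ρ, fun r => a * lam r,
    fun r hr => ⟨(h1 r hr).1, (h1 r hr).2.1, mul_mem ha (h1 r hr).2.2⟩, ?_, h3, ?_⟩
  · refine le_trans (Finset.sum_le_sum fun r _ => ?_) h2
    rw [norm_mul]
    exact pow_le_pow_left₀ (by positivity) (mul_le_of_le_one_left (norm_nonneg _) ha1) 2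
  · simp [Finset.smul_sum, mul_smul]

lemma Wof.smul {A : Set (ℕ × (Ω →₀ 𝕜))} {g} (hs : Wof c A g) {a : 𝕜} (ha : a ∈ c.R0)
    (ha1 : ‖a‖ ≤ 1) : Wof c A (a • g) := by
  rcases hs with ⟨α, lam, h1, h2, rfl⟩ | hs
  · refine Or.inl ⟨α, a * lam, mul_mem ha h1, ?_, by simp⟩
    rw [norm_mul]; exact mul_le_one₀ ha1 (norm_nonneg _) h2
  · exact Or.inr (hs.smul ha ha1)

/-- a single row is in `Two`. -/
lemma Row.OK.two {A : Set (ℕ × (Ω →₀ 𝕜))} {ρ : Row 𝕜 Ω} (h : ρ.OK c A) : Two c A ρ.lo ρ.seg :=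
  ⟨{0}, fun _ => ρ, fun _ => 1, fun _ _ => ⟨h, le_rfl, one_mem _⟩, by simp, by simp, by simp⟩

/-- a weighted functional is in `Two` of its weight. -/
lemma two_of_mem {A : Set (ℕ × (Ω →₀ 𝕜))} {j f} (h : (j, f) ∈ A) : Two c A j f := by
  have hρ : Row.OK c A ⟨fun _ => (j, f), 1, j, j + 1, Set.univ⟩ :=
    ⟨⟨fun _ _ => h, fun r r' h1 (h2 : r' < 1) => by omega, fun l h1 (h2 : l < 1) => by omega⟩,
      Set.ordConnected_univ⟩
  simpa [Row.seg, Row.idx] using hρ.two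

lemma W_of_WW {j f} (h : (j, f) ∈ WW c) : W c f := (two_of_mem h).W

/-- `WW` is closed under restriction to intervals. -/
lemma WW_restr {j f} (h : (j, f) ∈ WW c) {E : Set Ω} (hE : E.OrdConnected) :
    (j, restr E f) ∈ WW c := by
  rw [← Step_WW] at h ⊢
  obtain ⟨g, lam, h1, h2, h3⟩ := h
  refine ⟨fun r => restr E (g r), lam, fun r r' a b =>
    (h1 r r' a b).mono (support_restr_subset _ _) (support_restr_subset _ _), ?_, h3.imp ?_ ?_⟩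
  · simp only at h2 ⊢
    rw [h2, restr_smul, restr_sum]; simp only [restr_smul]
  · exact fun h4 => ⟨fun r hr => ⟨(h4.1 r hr).1, (h4.1 r hr).2.restr hE⟩, h4.2⟩
  · refine fun h4 r hr => ⟨(h4 r hr).1, ((h4 r hr).2.restr hE).anti ?_⟩
    exact Nat.add_le_add_left
      (Finset.sum_le_sum fun r' _ => Finset.card_le_card (support_restr_subset _ _)) r

/-- unfolding a weighted functional: terms in `W`, coefficients of norm `≤ 1`. -/
lemma WW_unfold {j f} (h : (j, f) ∈ WW c) : ∃ (g : ℕ → Ω →₀ 𝕜) (lam : ℕ → 𝕜), Succ g (nn j) ∧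
    f = ((kap j : ℝ) : 𝕜) • ∑ r ∈ range (nn j), lam r • g r ∧
    ∀ r < nn j, W c (g r) ∧ ‖lam r‖ ≤ 1 := by
  rw [← Step_WW] at h
  obtain ⟨g, lam, h1, h2, h3⟩ := h
  refine ⟨g, lam, h1, h2, fun r hr => ?_⟩
  rcases h3 with h3 | h3
  · refine ⟨(h3.1 r hr).2, ?_⟩
    have := (Finset.single_le_sum (f := fun r => ‖lam r‖ ^ 2) (fun _ _ => by positivity)
      (Finset.mem_range.2 hr)).trans h3.2
    exact (sq_le_one_iff₀ (norm_nonneg _)).1 this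
  · exact ⟨(h3 r hr).2.W, by simp [(h3 r hr).1]⟩

/-- the type A operation. -/
lemma WW_typeA {j : ℕ} {g : ℕ → Ω →₀ 𝕜} (h1 : Succ g (nn j))
    (h2 : ∀ r < nn j, Two c (WW c) (gr g r) (g r)) :
    (j, ((kap j : ℝ) : 𝕜) • ∑ r ∈ range (nn j), g r) ∈ WW c := by
  rw [← Step_WW]
  exact ⟨g, fun _ => 1, h1, by simp, Or.inr fun r hr => ⟨rfl, h2 r hr⟩⟩

lemma Avg.mono {n n' : ℕ} {C : ℝ} {y : Ω →₀ 𝕜} (h : Avg c n C y) (hn : n' ≤ n) :
    Avg c n' C y := by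
  intro g h1 h2
  have := h (fun r => if r < n' then g r else 0) (fun r r' a b => ?_) (fun r _ => ?_)
  · refine le_trans (le_of_eq ?_) this
    rw [← Finset.sum_subset (Finset.range_subset_range.2 hn)]
    · exact Finset.sum_congr rfl fun r hr => by simp [Finset.mem_range.1 hr]
    · intro r _ hr
      simp [show ¬ r < n' by simpa using hr]
  · by_cases hb : r' < n'
    · simpa [hb, a.trans hb] using h1 r r' a hb
    · simp [hb, Lt]
  · by_cases hb : r < n'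
    · simpa [hb] using h2 r hb
    · simpa [hb] using W_zero

lemma Avg.norm_pr_le {n : ℕ} {C : ℝ} {y : Ω →₀ 𝕜} (h : Avg c n C y) (hn : 1 ≤ n) {g}
    (hg : W c g) : ‖pr g y‖ ≤ C := by
  simpa using h.mono hn (fun _ => g) (fun r r' a b => by omega) fun _ _ => hg

lemma Avg.ww {n : ℕ} {C : ℝ} {y : Ω →₀ 𝕜} (h : Avg c n C y) {w f} (hf : (w, f) ∈ WW c)
    (hn : nn w ≤ n) : ‖pr f y‖ ≤ kap w * C := by
  obtain ⟨g, lam, h1, rfl, h3⟩ := WW_unfold hf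
  have := h.mono hn g h1 fun r hr => (h3 r hr).1
  simp only [map_smul, map_sum, LinearMap.smul_apply, LinearMap.sum_apply, smul_eq_mul, norm_mul,
    RCLike.norm_ofReal, abs_of_pos (kap_pos w)]
  refine mul_le_mul_of_nonneg_left ((norm_sum_le _ _).trans (le_trans ?_ this)) (kap_pos w).le
  refine Finset.sum_le_sum fun r hr => ?_
  rw [norm_mul]
  exact mul_le_of_le_one_left (norm_nonneg _) (h3 r (Finset.mem_range.1 hr)).2

end

end

end Crest.Agent.R114
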