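import Mathlib
import Crest.Prelude.Def_ContinuumRVM

/-! Row 114, part B (statement S0153): under `ContinuumRVM` every infinite-dimensional Banach space
has a separable infinite-dimensional quotient.  Definitions and task statements.

Plan.  Assume `¬ SQ`.  `DR` + `Part` give random norm one functionals `g j t`; `Q1` gives norm one
`ψ t` vanishing on `E t = {x | ∑ j, ‖g j t x‖ < ∞}` (`Key`); `Select` picks a sequence with `Star`;
`Supp` gives an `ℓ¹`-sequence in the dual; `HJ`, `C0`, `L2` finish. -/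

set_option autoImplicit false

namespace Crest.Agent.R114

open Filter Topology MeasureTheory
open scoped ENNReal

noncomputable section

section
variable (𝕜 : Type) [RCLike 𝕜] (X : Type*) [NormedAddCommGroup X] [NormedSpace 𝕜 X]

/-- `X` has a separable infinite-dimensional quotient. -/
def SQ : Prop :=
  ∃ M : Submodule 𝕜 X, IsClosed (M : Set X) ∧
    TopologicalSpace.SeparableSpace (X ⧸ M) ∧ ¬ FiniteDimensional 𝕜 (X ⧸ M)

variable {𝕜 X}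

/-- suppression-unconditional sequence with witnesses. -/
def Star (ψ : ℕ → StrongDual 𝕜 X) : Prop :=
  (∀ i, ‖ψ i‖ = 1) ∧ ∀ (A : Finset ℕ) (a : ℕ → 𝕜), ∃ x : X, ‖x‖ ≤ 1 ∧
    ‖∑ i ∈ A, a i • ψ i‖ ≤ 2 * ‖∑ i ∈ A, a i * ψ i x‖ ∧ ∀ j, j ∉ A → ψ j x = 0

/-- `w` is a sequence in the dual ball with a lower `ℓ¹` estimate. -/
def L1Seq (η : ℝ) (w : ℕ → StrongDual 𝕜 X) : Prop :=
  (∀ n, ‖w n‖ ≤ 1) ∧ ∀ (A : Finset ℕ) (a : ℕ → 𝕜), η * ∑ n ∈ A, ‖a n‖ ≤ ‖∑ n ∈ A, a n • w n‖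

/-- `v` is an `ℓ¹`-normalised block sequence of `w`. -/
def Blk (v w : ℕ → StrongDual 𝕜 X) : Prop :=
  ∃ (S : ℕ → Finset ℕ) (a : ℕ → 𝕜), (∀ n m, n < m → ∀ i ∈ S n, ∀ j ∈ S m, i < j) ∧
    (∀ n, ∑ i ∈ S n, ‖a i‖ = 1) ∧ ∀ n, v n = ∑ i ∈ S n, a i • w i

end

/-- the real line with the discrete σ-algebra (every set and every function is measurable). -/
def TR : Type := ℝ

instance : MeasurableSpace TR := ⊤
instance : DiscreteMeasurableSpace TR := ⟨fun _ => trivial⟩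

/-- lists of points of `TR`, discrete σ-algebra. -/
def TL : Type := List TR

instance : MeasurableSpace TL := ⊤
instance : DiscreteMeasurableSpace TL := ⟨fun _ => trivial⟩

/-- `μ` can be cut into finitely many pieces of prescribed masses. -/
def Cuts (μ : Measure TR) : Prop :=
  ∀ (n : ℕ) (p : Fin n → ℝ), (∀ i, 0 ≤ p i) → ∑ i, p i = 1 →
    ∃ c : TR → Fin n, ∀ i, μ (c ⁻¹' {i}) = ENNReal.ofReal (p i)

/-- Rademacher sign. -/
def sg (𝕜 : Type) [RCLike 𝕜] (b : Bool) : 𝕜 := if b then 1 else -1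

/-- **B-PART.**  `m` of `ContinuumRVM` is countably additive (`ι = ℕ`, `#ℕ < 𝔠`; `m ∅ = 0` from the
family `ι = Empty` or from `m ∅ = m ∅ + m ∅ ≤ m univ = 1`), so `Measure.ofMeasurable` gives a
probability measure `μ` on `TR` with `μ {x} = 0`.  `F x = μ (Iic x)` (order of `ℝ`) is continuous
(continuity from above/below, no atoms; or push `μ` forward to Borel `ℝ` and use
`ProbabilityTheory.cdf`/`StieltjesFunction`), tends to `0`, `1` at `∓∞`.  Hence by the IVT each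
`r ∈ [0,1]` is the mass of a down-set `D r` (`∅`, `Iic x` or `univ`), and `r ≤ r'` may be realised
with nested sets (down-sets of `ℝ` are linearly ordered by inclusion).  One way: induct on `n`,
proving for every set `B` and `0 ≤ r ≤ μ B` that some `B' ⊆ B` has mass `r`
(IVT for `x ↦ μ (B ∩ Iic x)`), then cut off the pieces one by one. -/
def PartStmt : Prop :=
  Crest.AnalysisR.ContinuumRVM → ∃ μ : Measure TR, IsProbabilityMeasure μ ∧ Cuts μ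

/-- **B-KHIN.**  Khintchine lower bound and Bessel inequality for Rademacher signs.
Let `S s = ∑ i, a i * sg (s i)`, `σ² = ∑ ‖a i‖²`, `E` = average over `s : Fin j → Bool`.
Induction on `j` (`Fin.consEquiv`/`Fin.insertNthEquiv`, `Fintype.sum_prod_type`):
`E‖S‖² = σ²` and `E‖S‖⁴ ≤ 3σ⁴`, because `‖S ± a‖² = ‖S‖² + ‖a‖² ± 2 re (S conj a)` and
`|re (S conj a)| ≤ ‖S‖‖a‖`.  Pointwise `t ≥ t²/σ - t⁴/(6σ³)` for `t ≥ 0` (i.e. `u - u³/6 ≤ 1`)
gives `E‖S‖ ≥ σ/2`.  Bessel: with `b i = E[sg (s i) f s]`,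
`∑‖b i‖² = E[(∑ conj (b i) sg (s i)) f s] ≤ √(∑‖b i‖²) √(E‖f‖²)` (Cauchy-Schwarz). -/
def KhinStmt (𝕜 : Type) [RCLike 𝕜] : Prop :=
  (∀ (j : ℕ) (a : Fin j → 𝕜), √(∑ i, ‖a i‖ ^ 2) / 2 ≤
    (∑ s : Fin j → Bool, ‖∑ i, a i * sg 𝕜 (s i)‖) / 2 ^ j) ∧
  ∀ (j : ℕ) (f : (Fin j → Bool) → 𝕜),
    ∑ i, ‖((2 : 𝕜) ^ j)⁻¹ * ∑ s : Fin j → Bool, sg 𝕜 (s i) * f s‖ ^ 2 ≤
      (∑ s : Fin j → Bool, ‖f s‖ ^ 2) / 2 ^ j

section
variable (𝕜 : Type) [RCLike 𝕜] (X : Type*) [NormedAddCommGroup X] [NormedSpace 𝕜 X]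

/-- **B-Q0.**  `M = ⨅ i, ker (g i)` is closed.  `X n = {x | ∀ i ≥ n, g i x = 0}` is an increasing
sequence of subspaces containing `M`; the image `Y n` of `X n` in `X ⧸ M` is finite-dimensional
(`x ↦ (g i x)_{i<n}` induces an injective linear map `Y n → (Fin n → 𝕜)`), so separable, and
`⋃ Y n` is dense (`mkQ` is continuous and onto), so `X ⧸ M` is separable
(`TopologicalSpace.IsSeparable.iUnion`, `.closure`).  If `X ⧸ M` were finite-dimensional, the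
chain `Y n` stabilises (`monotone_stabilizes_iff_noetherian`) at a closed dense `Y N = ⊤`, so
`g i = 0` for all `i ≥ N`, a contradiction. -/
def Q0Stmt : Prop :=
  ∀ g : ℕ → StrongDual 𝕜 X, (∃ᶠ i in atTop, g i ≠ 0) →
    Dense {x : X | ∀ᶠ i in atTop, g i x = 0} → SQ 𝕜 X

/-- **B-Q1** (uses Q0).  `E = {x | Summable ‖g j x‖}` is a dense subspace.
Step 1: for each `j` there is `z j ∈ E`, `‖z j‖ ≤ 2`, `g j (z j) = 1` (density, `‖g j‖ = 1`).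
Step 2: given finitely many functionals `h l` and `N` there are `j ≥ N`, `x ∈ E` with `‖x‖ ≤ 8`,
`g j x = 1`, `∑ l, ‖h l x‖ ≤ 1/4`: the vectors `(h l (z j))_l` are bounded in `𝕜^k`, take a
convergent (Cauchy) subsequence, fix `j0` in it far enough, then `j` in it so large that
`‖g j (z j0)‖ ≤ 1/2` (`z j0 ∈ E`), `x = (g j (z j - z j0))⁻¹ • (z j - z j0)`.
Step 3: recursion gives `j k` strictly increasing and `x k ∈ E`, `‖x k‖ ≤ 8`, `g (j k) (x k) = 1`,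
`∑_{l ≠ k} ‖g (j l) (x k)‖ ≤ 1/2` (for `l > k` choose `j (k+1)` beyond a point where the tail sum of
`x k` is `≤ 1/4`).  Step 4: write `G l = g (j l)`, `τ n y = ∑' l, ‖G (l+n) y‖`.  For `y ∈ E` put
`y' = y - ∑' k, G (k+n) y • x (k+n)`; then `‖y - y'‖ ≤ 8 τ n y`, `l ↦ ‖G l y'‖` is summable and
`τ n y' ≤ τ n y / 2` (swap the sums).  Iterating, the limit `y∞` has `G l y∞ = 0` for `l ≥ n` and
`‖y - y∞‖ ≤ 16 τ n y → 0` as `n → ∞`.  So `{x | ∀ᶠ l, G l x = 0}` is dense; apply Q0 to `G`. -/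
def Q1Stmt : Prop :=
  CompleteSpace X → ∀ g : ℕ → StrongDual 𝕜 X, (∀ j, ‖g j‖ = 1) →
    Dense {x : X | Summable fun j => ‖g j x‖} → SQ 𝕜 X

/-- **B-DR** (Dvoretzky-Rogers).  The dual is infinite-dimensional (else `X` embeds in the
finite-dimensional bidual), take `n = 2m` linearly independent `b i` in the dual.  For a matrix
`A` let `u A v = ∑ i, (A *ᵥ v) i • b i` for `v : EuclideanSpace 𝕜 (Fin n)`.  The set
`K = {A | ∀ v, ‖u A v‖ ≤ ‖v‖}` is compact (closed; bounded by independence) and contains a small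
multiple of `1`; let `A ∈ K` maximise `‖det A‖ > 0`.  Claim: for orthonormal `e 0 … e (k-1)`,
`k ≤ m`, there is a unit `v ⟂ e i` with `‖u A v‖ > 1/4`.  Otherwise, with `E` the `n × k` matrix
of columns `e i`, `P = 1 - E Eᴴ`, `T = (1/2) • 1 + 2 • P = (5/2) • (1 - (4/5) • E Eᴴ)`:
`‖u (A T) v‖ ≤ ‖v‖/2 + 2 ‖P v‖/4 ≤ ‖v‖`, and (`Matrix.det_one_sub_mul_comm`, `Eᴴ E = 1`)
`det T = (5/2)^n (1/5)^k`, of norm `≥ (5/4)^m > 1`: contradiction.  So there are orthonormal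
`e i`, `i < m`, with `‖u A (e i)‖ > 1/4`.  Put `y' i = u A (e i)`: for `x`,
`∑‖y' i x‖² = (u A (∑ conj (y' i x) • e i)) x ≤ √(∑‖y' i x‖²) ‖x‖`, while `∑‖y' i‖² ≥ m/16`.
Normalise, `m ≥ 16/ε²`.  (Any other proof is welcome.) -/
def DRStmt : Prop :=
  ¬ FiniteDimensional 𝕜 X → ∀ ε : ℝ, 0 < ε → ∃ (n : ℕ) (y : Fin n → StrongDual 𝕜 X),
    (∀ i, y i ≠ 0) ∧ ∑ i, ‖y i‖ ^ 2 = 1 ∧ ∀ x : X, ∑ i, ‖y i x‖ ^ 2 ≤ ε ^ 2 * ‖x‖ ^ 2

variable {𝕜 X} in
/-- conclusion of `KeyStmt`. -/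
def KeyP (μ : Measure TR) (ψ : TR → StrongDual 𝕜 X) : Prop :=
  (∀ t, ‖ψ t‖ = 1) ∧ ∀ (ν : Measure TL), IsProbabilityMeasure ν → ∀ x : TL → X,
    ∀ᵐ t ∂μ, ∀ᵐ s ∂ν, ψ t (x s) = 0

/-- **B-KEY** (uses DR, Q1).  For each `j` take DR data `y j i` with `ε = 2⁻¹^j`, cut `μ` with
`p i = ‖y j i‖²` by `c j : TR → Fin (n j)`, and put `g j t = ‖y j (c j t)‖⁻¹ • y j (c j t)`
(norm one).  `E t = {x | Summable ‖g j t x‖}` is a subspace, not dense by Q1 and `¬ SQ`, so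
Hahn-Banach gives `ψ t` of norm one vanishing on it.  For `x : TL → X` let
`φ h s = ENNReal.ofReal (‖h (x s)‖ / (1 + ‖x s‖))`.  All functions on `TR`, `TL` are measurable
(`measurable_of_discrete`/`Measurable.of_discrete`).  No Fubini is needed: as `t ↦ g j t` takes
finitely many values,
`∫⁻ t, ∫⁻ s, φ (g j t) s = ∑ i, p i * ∫⁻ s, φ (normalised y j i) s = ∫⁻ s, ∑ i, p i * φ … s`
and `∑ i, ‖y i‖ ‖y i x‖ ≤ √(∑‖y i‖²) √(∑‖y i x‖²) ≤ 2⁻¹^j ‖x‖`, so it is `≤ 2⁻¹^j`.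
`lintegral_tsum` twice: `∫⁻ t, ∫⁻ s, ∑' j, φ (g j t) s ≤ 2 < ∞`; `ae_lt_top` twice gives
`∀ᵐ t, ∀ᵐ s, x s ∈ E t`. -/
def KeyStmt : Prop :=
  CompleteSpace X → ¬ FiniteDimensional 𝕜 X → ¬ SQ 𝕜 X → ∀ μ : Measure TR,
    IsProbabilityMeasure μ → Cuts μ → ∃ ψ : TR → StrongDual 𝕜 X, KeyP μ ψ

/-- **B-SELECT.**  Define nested a.e. `AE 0 P l = P l`, `AE (n+1) P l = ∀ᵐ t ∂μ, AE n P (l ++ [t])`
for `P : List TR → Prop`.  (1) There are probability measures `ν n` on `TL` with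
`(∀ᵐ s ∂ν n, P (l ++ s)) → AE n P l` (`ν 0 = dirac []`, `ν (n+1) = μ.bind fun t => (ν n).map (t :: ·)`;
everything is measurable; `Measure.bind_apply`/`lintegral_eq_zero_iff` or `ae_ae_of_ae_bind`).
(2) Hence for all `j`, `k` and any `x : List TR → X`: `AE (j + 1 + k) (fun l => ψ (l[j]) (x (l.eraseIdx j)) = 0) []`
(first `j` quantifiers: the inner statement holds for every prefix `l₀` of length `j`; then `KeyP`
with `ν k` and `s ↦ x (l₀ ++ s)`).  (3) Countably many `P c` with `AE (N c) (P c) []`: there is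
`t : ℕ → TR` with `P c [t 0, …, t (N c - 1)]` for all `c` (recursion: keep
`∀ c, n ≤ N c → AE (N c - n) (P c) (prefix n)`, using `ae_all_iff` and `μ ≠ 0`).
(4) Let `Q` be a countable dense subset of `𝕜`; for a finite `A`, `a : A → Q`, `j ∉ A`, `N > j, A`,
let `x` be a chosen vector of norm `≤ 1` with `‖Φ‖ ≤ (3/2) ‖Φ x‖`, `Φ = ∑ i ∈ A, a i • ψ (t i)`;
the choice is a function `wit Φ` of `Φ` only, so it depends only on the coordinates in `A`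
and not on `j`.  (5) Approximate an arbitrary `a` by `Q`-valued ones (if `Φ = 0` take `x = 0`).
Any other bookkeeping (e.g. `Fin n → TR`, `Function.update`) is fine. -/
def SelectStmt : Prop :=
  ∀ μ : Measure TR, IsProbabilityMeasure μ → ∀ ψ : TR → StrongDual 𝕜 X, KeyP μ ψ →
    ∃ φ : ℕ → StrongDual 𝕜 X, Star φ

/-- **B-HELLY.**  `XA = {x | ∀ j ∉ A, ψ j x = 0}` is a subspace, `R : XA → (A → 𝕜)`,
`R x i = ψ i x`.  `K = R '' closedBall 0 1` is convex and balanced.  If `N > 0`: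
`(2N)⁻¹ • c ∈ closure K` (else `RCLike.geometric_hahn_banach_closed_point`/`geometric_hahn_banach_point_closed`
gives a functional `v ↦ ∑ a i * v i` with `‖∑ a i * k i‖ ≤ u < re (∑ a i * c i)/(2N)` on `K`
(use balancedness), contradicting `Star`).  `R` is onto (a functional `a` killing the range gives
`∑ a i • ψ i = 0`, and `Star` for singletons `{i}` gives `x` with `ψ i x ≠ 0`, `ψ j x = 0` else; these
vectors even give an explicit linear section of `R`), so `closure K ⊆ (3/2) • K`.  If `N = 0` then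
`c = 0` on `A` (take `a = Pi.single i 1`) and `x = 0` works. -/
def HellyStmt : Prop :=
  ∀ ψ : ℕ → StrongDual 𝕜 X, Star ψ → ∀ (A : Finset ℕ) (c : ℕ → 𝕜) (N : ℝ), 0 ≤ N →
    (∀ a : ℕ → 𝕜, ‖∑ i ∈ A, a i * c i‖ ≤ N * ‖∑ i ∈ A, a i • ψ i‖) →
    ∃ x : X, ‖x‖ ≤ 3 * N ∧ (∀ i ∈ A, ψ i x = c i) ∧ ∀ j, j ∉ A → ψ j x = 0

/-- **B-SUPP** (uses Q0, Helly).  Suppression: `A ⊆ B → ‖∑_A a • ψ‖ ≤ 2 ‖∑_B a • ψ‖` (witness of `A`).
Case 1: for all `x`, `η > 0` there is `n` such that for all finite `A ⊆ Ici n` and `a`,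
`‖∑_A a i * ψ i x‖ ≤ η ‖∑_A a • ψ‖`.  Take `n k` strictly increasing for `η 2⁻¹^k`, lift
`c i = ψ i x` on `Ico (n k) (n (k+1))` by Helly to `x k`, `‖x k‖ ≤ 3 η 2⁻¹^k`; `x - ∑' x k` is
killed by `ψ i`, `i ≥ n 0`.  So Q0 applies.  Case 2: some `x` (wlog `‖x‖ ≤ 1`), `η > 0` and
successive finite `A k`, `u k = ∑_{A k} a • ψ` with `‖u k‖ ≤ 1`, `‖u k x‖ ≥ η`.  For a finite `K` and
`c`, among the four sets `{±re ≥ 0}`, `{±im ≥ 0}` of `z k = c k * u k x` there is `K' ⊆ K` with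
`‖∑_{K'} z‖ ≥ (1/4) ∑_K ‖z‖`; suppression gives `L1Seq (η/8) u`. -/
def SuppStmt : Prop :=
  CompleteSpace X → ∀ ψ : ℕ → StrongDual 𝕜 X, Star ψ →
    SQ 𝕜 X ∨ ∃ (η : ℝ) (u : ℕ → StrongDual 𝕜 X), 0 < η ∧ L1Seq η u

/-- **B-SURJ.**  `closedBall 0 c ⊆ closure (T '' closedBall 0 1)` by Hahn-Banach separation
(`RCLike.geometric_hahn_banach_closed_point`; the closure is closed, convex, balanced), then the
usual iteration (halving the error, `X` complete) shows `T` is onto.  `M = ker T`;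
`ContinuousLinearMap.quotKerEquivRange`-like: the induced continuous linear bijection
`X ⧸ M → Y` of Banach spaces is a homeomorphism (`ContinuousLinearEquiv.ofBijective`). -/
def SurjStmt : Prop :=
  CompleteSpace X → ∀ (Y : Type) [NormedAddCommGroup Y] [NormedSpace 𝕜 Y] [CompleteSpace Y]
    [TopologicalSpace.SeparableSpace Y], ¬ FiniteDimensional 𝕜 Y → ∀ (T : X →L[𝕜] Y) (c : ℝ),
    0 < c → (∀ φ : StrongDual 𝕜 Y, c * ‖φ‖ ≤ ‖φ.comp T‖) → SQ 𝕜 X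

/-- **B-HJ** (Hagler-Johnson dichotomy).  `Blk` is transitive and preserves `L1Seq η`; if
`Blk v w` via `S` then `S n ⊆ Ici n`.  Suppose the second alternative fails.  Then every
`L1Seq η w` and `δ > 0` admit `Blk v w` with `∀ x, ‖x‖ ≤ 1 → ∀ᶠ n, ‖v n x‖ < δ`.  Recursion gives
`w 0 = u`, `Blk (w (k+1)) (w k)` with `δ = 2⁻¹^k`.  Each `w k` is a block of `u` (sets `S k n`);
choose `m k ≥ k` recursively with `S k (m k)` beyond `S (k-1) (m (k-1))`; `d k = w k (m k)` is a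
block of `u`, and for `k ≥ k₀`, `d k` is an absolutely convex combination of `w k₀ n`, `n ≥ k`
(`Blk (w k) (w k₀)` or equality), so `‖d k x‖ ≤ 2⁻¹^(k₀-1)` eventually: `d k x → 0`. -/
def HJStmt : Prop :=
  ∀ (η : ℝ) (u : ℕ → StrongDual 𝕜 X), L1Seq η u →
    (∃ w : ℕ → StrongDual 𝕜 X, L1Seq η w ∧ ∀ x, Tendsto (fun n => w n x) atTop (𝓝 0)) ∨
    ∃ (w : ℕ → StrongDual 𝕜 X) (δ : ℝ), 0 < δ ∧ L1Seq η w ∧
      ∀ v, Blk v w → ∃ x : X, ‖x‖ ≤ 1 ∧ ∃ᶠ n in atTop, δ ≤ ‖v n x‖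

/-- **B-C0** (uses Surj).  `Y = C₀(ℕ, 𝕜)` (`ZeroAtInftyContinuousMap`; or the closed subspace of
`lp _ ∞`/`ℕ →ᵇ 𝕜`), `T x = fun n => w n x`.  For `φ ∈ Y*` put `a n = φ (e n)`;
`∑_{n<N} ‖a n‖ ≤ ‖φ‖`, `φ y = ∑' a n * y n` (`y = lim ∑_{n<N} y n • e n`), so `‖φ‖ ≤ ∑' ‖a n‖`
and `φ ∘ T = lim ∑_{n<N} a n • w n` in norm, whence `η ‖φ‖ ≤ ‖φ ∘ T‖`.  `Y` is separable (span of
`e n` is dense) and infinite-dimensional (`e n` independent). -/
def C0Stmt : Prop :=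
  CompleteSpace X → ∀ (η : ℝ) (w : ℕ → StrongDual 𝕜 X), 0 < η → L1Seq η w →
    (∀ x, Tendsto (fun n => w n x) atTop (𝓝 0)) → SQ 𝕜 X

/-- **B-L2** (uses Surj, Khin).  Index `w` by `ι j s = 2^j + (e j s : ℕ)`, `e j : (Fin j → Bool) ≃ Fin (2^j)`.
`R j i = (2^j)⁻¹ • ∑ s, sg (s i) • w (ι j s)` for `i < j` (else `0`).  Bessel:
`∑ i, ‖R j i x‖² ≤ ‖x‖²`.  For finitely supported `a ≠ 0` and `j ≥ j₀ > supp a`,
`∑ a i • R j i = K j • v j` with `K j = E‖∑ a i sg (s i)‖ ≥ |a|₂/2` (Khintchine) and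
`j ↦ v (j + j₀)`, as well as each of its subsequences, is a `Blk` of `w`.  Enumerate the
finitely supported `a` with values in a countable dense `Q ⊆ 𝕜` as `a 0, a 1, …`; recursively get
infinite sets `N 0 ⊇ N 1 ⊇ …` and `x k`, `‖x k‖ ≤ 1`, with `δ ≤ ‖v j (x k)‖` for `j ∈ N k`.  Take an
ultrafilter `U ≤ atTop` containing all `N k`, `Rl i x = lim_U R j i x` (bounded; linear in `x`),
`T x = (Rl i x)_i ∈ lp _ 2`, `‖T‖ ≤ 1`, `‖∑ a i • Rl i‖ ≥ δ |a|₂ / 2` for `Q`-valued `a`, then for all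
finitely supported `a`, then (`InnerProductSpace.toDual`, density of finitely supported vectors)
`(δ/2) ‖φ‖ ≤ ‖φ ∘ T‖`.  `Y = lp (fun _ : ℕ => 𝕜) 2` is separable and infinite-dimensional. -/
def L2Stmt : Prop :=
  CompleteSpace X → ∀ (w : ℕ → StrongDual 𝕜 X) (δ : ℝ), 0 < δ → (∀ n, ‖w n‖ ≤ 1) →
    (∀ v, Blk v w → ∃ x : X, ‖x‖ ≤ 1 ∧ ∃ᶠ n in atTop, δ ≤ ‖v n x‖) → SQ 𝕜 X

variable {𝕜 X}

theorem assembleB [CompleteSpace X] (hP : PartStmt) (hK : KeyStmt 𝕜 X) (hS : SelectStmt 𝕜 X)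
    (hU : SuppStmt 𝕜 X) (hH : HJStmt 𝕜 X) (hC : C0Stmt 𝕜 X) (hL : L2Stmt 𝕜 X)
    (hc : Crest.AnalysisR.ContinuumRVM) (hX : ¬ FiniteDimensional 𝕜 X) : SQ 𝕜 X := by
  by_contra h
  obtain ⟨μ, hμ, hcut⟩ := hP hc
  obtain ⟨ψ, hψ⟩ := hK inferInstance hX h μ hμ hcut
  obtain ⟨φ, hφ⟩ := hS μ hμ ψ hψ
  rcases hU inferInstance φ hφ with h' | ⟨η, u, hη, hu⟩
  · exact h h'
  rcases hH η u hu with ⟨w, hw, hw0⟩ | ⟨w, δ, hδ, hw, hv⟩
  · exact h (hC inferInstance η w hη hw hw0)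
  · exact h (hL inferInstance w δ hδ hw.1 hv)

end

end

end Crest.Agent.R114
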