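import Crest.Agent.R114.TasksF

/-! Row 114 part F, task ASG. -/

set_option autoImplicit false

namespace Crest.Agent.R114

open Filter Topology Finset Cardinal

noncomputable section

variable {𝕜 : Type} [RCLike 𝕜] {Ω : Type} [LinearOrder Ω]

theorem asg_proof (K : Core 𝕜 Ω) : AsgStmt K := by
  intro hO
  have hunc : ¬ (Set.univ : Set Ω).Countable := by
    rw [← Cardinal.le_aleph0_iff_set_countable, Cardinal.mk_univ, hO.card, not_le]
    exact Cardinal.aleph0_lt_continuum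
  haveI : Infinite Ω := by
    rw [Cardinal.infinite_iff, hO.card]; exact Cardinal.aleph0_le_continuum
  have hk : #𝕜 ≤ 𝔠 := by
    have : #𝕜 ≤ #(ℝ × ℝ) := Cardinal.mk_le_of_injective
      (f := fun z : 𝕜 => (RCLike.re z, RCLike.im z)) fun a b h =>
        RCLike.ext (congrArg Prod.fst h) (congrArg Prod.snd h)
    simpa [Cardinal.mk_real] using this
  have hF : #(Ω →₀ 𝕜) ≤ 𝔠 := by
    rw [Cardinal.mk_finsupp_of_infinite, hO.card]
    exact max_le le_rfl hk
  have hN : #(ℕ → Ω →₀ 𝕜) ≤ 𝔠 := by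
    have h1 : #(ℕ → Ω →₀ 𝕜) = #(Ω →₀ 𝕜) ^ ℵ₀ := by
      rw [← Cardinal.mk_nat, Cardinal.power_def]
    rw [h1, ← Cardinal.continuum_power_aleph0]
    exact Cardinal.power_le_power_right hF
  have hP : #((ℕ → Ω →₀ 𝕜) × Ω) ≤ #Ω := by
    rw [Cardinal.mk_prod, Cardinal.lift_id, Cardinal.lift_id, hO.card]
    calc _ ≤ 𝔠 * 𝔠 := mul_le_mul_left hN _
      _ = 𝔠 := Cardinal.continuum_mul_self
  obtain ⟨i⟩ := (Cardinal.le_def _ _).1 hP
  have hex : ∀ τ : ℕ → Ω →₀ 𝕜, ∃ β, ∀ l, ∀ α ∈ (τ l).support, α < i (τ, β) := by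
    intro τ
    have hB : (⋃ l, ⋃ α ∈ (τ l).support, Set.Iic α).Countable := by
      refine Set.countable_iUnion fun l => Set.Countable.biUnion (Finset.countable_toSet _)
        fun α _ => ?_
      rw [← Set.Iio_insert]
      exact (hO.cnt α).insert α
    have hinj : Function.Injective fun β => i (τ, β) := fun a b h =>
      (Prod.ext_iff.1 (i.injective h)).2
    have h1 := hB.preimage_of_injOn (f := fun β => i (τ, β)) hinj.injOn
    by_contra hcon
    push Not at hcon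
    refine hunc (h1.mono fun β _ => ?_)
    obtain ⟨l, α, hα, hle⟩ := hcon β
    simp only [Set.mem_preimage, Set.mem_iUnion]
    exact ⟨l, α, hα, hle⟩
  choose β hβ using hex
  set γ : (ℕ → Ω →₀ 𝕜) → Ω := fun τ => i (τ, β τ) with hγ
  have hinj : Function.Injective γ := fun a b h => (Prod.ext_iff.1 (i.injective h)).1
  have hinv := Function.leftInverse_invFun hinj
  refine ⟨γ '' K.S, Function.invFun γ, ?_, ?_, fun τ hτ => ⟨γ τ, ⟨τ, hτ, rfl⟩, hinv τ⟩⟩
  · rintro _ ⟨a, -, rfl⟩ _ ⟨b, -, rfl⟩ h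
    rw [hinv, hinv] at h
    rw [h]
  · rintro _ ⟨τ, hτ, rfl⟩
    rw [hinv]
    exact ⟨hτ, hβ τ⟩

end

end Crest.Agent.R114
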