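import Crest.Agent.R114.TasksF

/-! Row 114 part F, task COR. -/

set_option autoImplicit false

namespace Crest.Agent.R114

open Filter Topology Finset

noncomputable section

variable {𝕜 : Type} [RCLike 𝕜] {Ω : Type} [LinearOrder Ω]

lemma cor_tail (d : ℕ → 𝕜) (c : ℝ) (hc : 0 ≤ c) (h : ∀ l, ‖d l‖ ≤ kap l * c) (L : ℕ) :
    ‖∑' l, d l - ∑ l ∈ range L, d l‖ ≤ 2 * kap L * c := by
  have hs : Summable d := Summable.of_norm_bounded (summable_kap.mul_right c) h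
  have h1 := (hs.hasSum.tendsto_sum_nat.sub_const (∑ l ∈ range L, d l)).norm
  refine le_of_tendsto h1 ((eventually_ge_atTop L).mono fun M hM => ?_)
  rw [← Finset.sum_Ico_eq_sub _ hM]
  calc _ ≤ ∑ l ∈ Ico L M, ‖d l‖ := norm_sum_le _ _
    _ ≤ ∑ l ∈ Ico L M, kap l * c := Finset.sum_le_sum fun l _ => h l
    _ = (∑ l ∈ Ico L M, kap l) * c := (Finset.sum_mul _ _ _).symm
    _ ≤ _ := mul_le_mul_of_nonneg_right (sum_kap_Ico L M) hc

theorem cor_proof (K : Core 𝕜 Ω) : CorStmt K := by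
  classical
  intro G T hA x D hD hF f hf ε hε
  have hex : ∀ γ, γ ∈ D → γ ∈ G → ∃ Dc : ℕ → StrongDual 𝕜 (V K), (∀ l, ‖Dc l‖ ≤ kap l) ∧
      (∀ l, ev K (T γ l) + Dc l ∈ Spn x (Set.Iio γ)) ∧
      ∀ z, x γ (toV K z) = z γ + (1 / 2 : 𝕜) * (∑' l, pr (T γ l) z + ∑' l, Dc l (toV K z)) :=
    fun γ h1 h2 => (hF γ h1).2 h2
  choose! Dc hD1 hD2 hD3 using hex
  set A := f.support.filter (· ∈ G) with hAdef
  have hAG : ∀ γ ∈ A, γ ∈ G := fun γ h => (Finset.mem_filter.1 h).2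
  have hAD : ∀ γ ∈ A, γ ∈ D := fun γ h => hf γ (Finset.mem_filter.1 h).1
  obtain ⟨L0, hL0⟩ := K.tails A T (hA.1.mono fun γ h => hAG γ h) fun γ h => (hA.2.1 γ (hAG γ h)).1
  set s : ℝ := ∑ γ ∈ A, ‖f γ‖ with hs
  have hs0 : 0 ≤ s := Finset.sum_nonneg fun _ _ => norm_nonneg _
  obtain ⟨L, hL1, hL2⟩ : ∃ L, L0 ≤ L ∧ s * kap L ≤ ε := by
    have h1 := summable_kap.tendsto_atTop_zero.const_mul s
    rw [mul_zero] at h1
    exact ((eventually_ge_atTop L0).and (h1.eventually (eventually_le_nhds hε))).exists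
  refine ⟨∑ γ ∈ f.support, f γ • x γ -
    (1 / 2 : 𝕜) • ∑ γ ∈ A, f γ • ∑ l ∈ range L, (ev K (T γ l) + Dc γ l), ?_, ?_⟩
  · refine Submodule.sub_mem _ (Submodule.sum_mem _ fun γ hγ => Submodule.smul_mem _ _
      (Submodule.subset_span ⟨γ, hf γ hγ, rfl⟩)) (Submodule.smul_mem _ _ (Submodule.sum_mem _
        fun γ hγ => Submodule.smul_mem _ _ (Submodule.sum_mem _ fun l _ => ?_)))
    exact Submodule.span_mono (Set.image_mono (hD.Iio_subset (hAD γ hγ)))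
      (hD2 γ (hAD γ hγ) (hAG γ hγ) l)
  have hl2 := l2_nonneg f
  refine opNorm_le K (by positivity) fun z => ?_
  have hp : 0 ≤ K.p z := apply_nonneg _ _
  obtain ⟨L', hL'1, hL'2⟩ : ∃ L', L ≤ L' ∧ ∀ γ ∈ A, ∀ l, L' ≤ l → pr (T γ l) z = 0 := by
    have h1 : ∀ᶠ L' in atTop, ∀ γ ∈ A, ∀ l, L' ≤ l → pr (T γ l) z = 0 := by
      rw [eventually_all_finset]
      intro γ hγ
      exact eventually_forall_ge_atTop.2 (K.fin _ (hA.2.1 γ (hAG γ hγ)).1 z)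
    exact ((eventually_ge_atTop L).and h1).exists
  have e1 : ∑ γ ∈ f.support, f γ * x γ (toV K z) = pr f z +
      ∑ γ ∈ A, f γ * ((1 / 2 : 𝕜) * (∑' l, pr (T γ l) z + ∑' l, Dc γ l (toV K z))) := by
    rw [pr_apply, hAdef, Finset.sum_filter, ← Finset.sum_add_distrib]
    refine Finset.sum_congr rfl fun γ hγ => ?_
    split_ifs with h
    · rw [hD3 γ (hf γ hγ) h]; ring
    · rw [(hF γ (hf γ hγ)).1 h]; simp
  have e2 : ∀ γ ∈ A, ∑' l, pr (T γ l) z =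
      ∑ l ∈ range L, pr (T γ l) z + ∑ l ∈ Ico L L', pr (T γ l) z := by
    intro γ hγ
    rw [Finset.sum_range_add_sum_Ico _ hL'1]
    exact tsum_eq_sum fun l hl => hL'2 γ hγ l (by simpa using hl)
  have e3 : (ev K f - (∑ γ ∈ f.support, f γ • x γ -
      (1 / 2 : 𝕜) • ∑ γ ∈ A, f γ • ∑ l ∈ range L, (ev K (T γ l) + Dc γ l))) (toV K z) =
      -(1 / 2 : 𝕜) * (∑ γ ∈ A, f γ * ∑ l ∈ Ico L L', pr (T γ l) z +
        ∑ γ ∈ A, f γ * (∑' l, Dc γ l (toV K z) - ∑ l ∈ range L, Dc γ l (toV K z))) := by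
    simp only [sub_apply, _root_.sum_apply, smul_apply, add_apply, smul_eq_mul, ev_apply]
    rw [e1, ← Finset.sum_add_distrib, Finset.mul_sum, Finset.mul_sum]
    have : ∀ a b c : 𝕜, a - (a + b - c) = c - b := fun a b c => by ring
    rw [this, ← Finset.sum_sub_distrib]
    refine Finset.sum_congr rfl fun γ hγ => ?_
    rw [e2 γ hγ, Finset.sum_add_distrib]
    ring
  rw [e3, norm_mul]
  have h1 := hL0 L hL1 L' f z
  have h2 : √(∑ γ ∈ A, ‖f γ‖ ^ 2) ≤ l2 f := by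
    unfold l2
    gcongr
    exact Finset.filter_subset _ _
  have h3 : ‖∑ γ ∈ A, f γ * (∑' l, Dc γ l (toV K z) - ∑ l ∈ range L, Dc γ l (toV K z))‖ ≤
      s * (2 * kap L * K.p z) := by
    rw [hs, Finset.sum_mul]
    refine (norm_sum_le _ _).trans (Finset.sum_le_sum fun γ hγ => ?_)
    rw [norm_mul]
    refine mul_le_mul_of_nonneg_left (cor_tail _ _ hp (fun l => ?_) L) (norm_nonneg _)
    exact (le_opNorm K _ z).trans
      (mul_le_mul_of_nonneg_right (hD1 γ (hAD γ hγ) (hAG γ hγ) l) hp)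
  have h4 : ‖-(1 / 2 : 𝕜)‖ = 1 / 2 := by simp
  rw [h4]
  have h5 := norm_add_le (∑ γ ∈ A, f γ * ∑ l ∈ Ico L L', pr (T γ l) z)
    (∑ γ ∈ A, f γ * (∑' l, Dc γ l (toV K z) - ∑ l ∈ range L, Dc γ l (toV K z)))
  have h6 := mul_le_mul_of_nonneg_right h2 hp
  have h7 := mul_le_mul_of_nonneg_right hL2 hp
  nlinarith

end

end Crest.Agent.R114
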