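import Crest.Agent.R114.TasksF

/-! Row 114, task F-CUT: the minimal cut. -/

set_option autoImplicit false

namespace Crest.Agent.R114

open Filter Topology Finset

noncomputable section

variable {𝕜 : Type} [RCLike 𝕜] {Ω : Type} [LinearOrder Ω]

/-- an infinite-dimensional subspace cut by finitely many linear conditions stays
infinite-dimensional. -/
lemma fc_not_fd_inf_ker {E F : Type} [AddCommGroup E] [Module 𝕜 E] [AddCommGroup F] [Module 𝕜 F]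
    [FiniteDimensional 𝕜 F] (Y : Submodule 𝕜 E) (hY : ¬ FiniteDimensional 𝕜 Y)
    (f : E →ₗ[𝕜] F) : ¬ FiniteDimensional 𝕜 ↥(Y ⊓ LinearMap.ker f) := by
  intro h
  apply hY
  have h1 : (Y.map f).FG := (Submodule.fg_iff_finiteDimensional _).2 inferInstance
  have h2 : (Y ⊓ LinearMap.ker f).FG := (Submodule.fg_iff_finiteDimensional _).2 h
  exact (Submodule.fg_iff_finiteDimensional _).1 (Submodule.fg_of_fg_map_of_fg_inf_ker f h1 h2)

variable {K : Core 𝕜 Ω}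

lemma fc_small_smul {x : Ω → StrongDual 𝕜 (V K)} {D : Set Ω} {ψ : StrongDual 𝕜 (XS x)} {t : ℝ}
    (h : Small x D ψ t) (a : 𝕜) : Small x D (a • ψ) (‖a‖ * t) := fun ξ hξ => by
  rw [_root_.smul_apply, norm_smul, mul_assoc]
  exact mul_le_mul_of_nonneg_left (h ξ hξ) (norm_nonneg _)

lemma fc_small_mono {x : Ω → StrongDual 𝕜 (V K)} {D : Set Ω} {ψ : StrongDual 𝕜 (XS x)} {t t' : ℝ}
    (h : Small x D ψ t) (ht : t ≤ t') : Small x D ψ t' := fun ξ hξ =>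
  (h ξ hξ).trans (mul_le_mul_of_nonneg_right ht (norm_nonneg _))

lemma fc_norm_le_of_small_univ {x : Ω → StrongDual 𝕜 (V K)} {ψ : StrongDual 𝕜 (XS x)} {t : ℝ}
    (ht : 0 ≤ t) (h : Small x Set.univ ψ t) : ‖ψ‖ ≤ t := by
  refine ψ.opNorm_le_bound ht fun ξ => ?_
  have hc : IsClosed {ξ : XS x | ‖ψ ξ‖ ≤ t * ‖ξ‖} :=
    isClosed_le (by fun_prop) (by fun_prop)
  exact hc.closure_subset_iff.2 (fun ζ hζ => h ζ hζ) (dense_Spn x ξ)

/-- elements of `Spn x (Iio γ)` vanish at `e_γ`. -/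
lemma fc_Spn_Iio_single {x : Ω → StrongDual 𝕜 (V K)} (hx : Sys K x) {γ : Ω}
    {ξ : StrongDual 𝕜 (V K)} (h : ξ ∈ Spn x (Set.Iio γ)) :
    ξ (toV K (Finsupp.single γ 1)) = 0 := by
  induction h using Submodule.span_induction with
  | mem ζ hζ => obtain ⟨β, hβ, rfl⟩ := hζ; exact hx.above β γ hβ
  | zero => rfl
  | add a b _ _ ha hb => rw [_root_.add_apply, ha, hb, add_zero]
  | smul a b _ hb => rw [_root_.smul_apply, hb, smul_zero]

lemma fc_small_Iic {x : Ω → StrongDual 𝕜 (V K)} (hx : Sys K x) {γ : Ω} {ψ : StrongDual 𝕜 (XS x)}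
    {g : XS x} (hg : val x g = x γ) (h0 : ψ g = 0) {t : ℝ} (ht : 0 ≤ t)
    (h : Small x (Set.Iio γ) ψ t) :
    Small x (Set.Iic γ) ψ ((1 + K.p (Finsupp.single γ 1) * ‖x γ‖) * t) := by
  intro ξ hξ
  rw [← Set.Iio_insert, Spn, Set.image_insert_eq, Submodule.mem_span_insert] at hξ
  obtain ⟨a, ζ, hζ, e⟩ := hξ
  have ha : a = val x ξ (toV K (Finsupp.single γ 1)) := by
    rw [e, _root_.add_apply, _root_.smul_apply, hx.diag,
      fc_Spn_Iio_single hx hζ]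
    simp
  have hv : val x (ξ - a • g) = ζ := by rw [map_sub, map_smul, hg, e]; abel
  have h1 := h (ξ - a • g) (by rw [hv]; exact hζ)
  rw [map_sub, map_smul, h0, smul_zero, sub_zero] at h1
  have h2 : ‖a‖ ≤ ‖ξ‖ * K.p (Finsupp.single γ 1) := by
    rw [ha, ← (val x).norm_map]; exact le_opNorm K _ _
  have h3 : ‖g‖ = ‖x γ‖ := by rw [← hg, (val x).norm_map]
  have h4 : ‖ξ - a • g‖ ≤ (1 + K.p (Finsupp.single γ 1) * ‖x γ‖) * ‖ξ‖ := by
    refine (norm_sub_le _ _).trans ?_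
    rw [norm_smul, h3]
    nlinarith [mul_le_mul_of_nonneg_right h2 (norm_nonneg (x γ))]
  calc ‖ψ ξ‖ ≤ t * ‖ξ - a • g‖ := h1
    _ ≤ t * ((1 + K.p (Finsupp.single γ 1) * ‖x γ‖) * ‖ξ‖) := mul_le_mul_of_nonneg_left h4 ht
    _ = _ := by ring

/-- evaluation at a point as a linear map on the dual. -/
def fc_evAt {x : Ω → StrongDual 𝕜 (V K)} (g : XS x) : StrongDual 𝕜 (XS x) →ₗ[𝕜] 𝕜 where
  toFun ψ := ψ g
  map_add' _ _ := rfl
  map_smul' _ _ := rfl

variable (K)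

theorem cut_proof : CutStmt K := by
  intro hO x hx Y hY
  have := hO.wf
  set P : Set Ω → Prop := fun D => ∃ Y' ≤ Y, ¬ FiniteDimensional 𝕜 Y' ∧ ∃ c : ℝ, 0 < c ∧
    Below x D Y' c with hP
  obtain ⟨D, hD, hPD, hmin⟩ : ∃ D, IsLowerSet D ∧ P D ∧ ∀ γ ∈ D, ¬ P (Set.Iio γ) := by
    by_cases h : ∃ γ, P (Set.Iio γ)
    · obtain ⟨γ, hγ, hm⟩ := wellFounded_lt.has_min {γ | P (Set.Iio γ)} h
      exact ⟨Set.Iio γ, isLowerSet_Iio γ, hγ, fun β hβ hb => hm β hb hβ⟩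
    · refine ⟨Set.univ, isLowerSet_univ, ⟨Y, le_rfl, hY, 1, one_pos, fun ψ _ t ht hs => ?_⟩,
        fun γ _ hγ => h ⟨γ, hγ⟩⟩
      rw [one_mul]; exact fc_norm_le_of_small_univ ht hs
  obtain ⟨Y', hY'Y, hY', c, hc, hB⟩ := hPD
  refine ⟨D, Y', c, hD, ?_, ?_, hY'Y, hY', hc, hB, ?_⟩
  · by_contra hne
    rw [Set.not_nonempty_iff_eq_empty] at hne
    apply hY'
    have : Y' = ⊥ := by
      rw [eq_bot_iff]
      intro ψ hψ
      have h1 := hB ψ hψ 0 le_rfl fun ξ hξ => by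
        rw [hne, Spn, Set.image_empty, Submodule.span_empty, Submodule.mem_bot] at hξ
        have : ξ = 0 := (val x).injective (by rw [hξ, map_zero])
        simp [this]
      have h2 : ‖ψ‖ ≤ 0 := by
        by_contra h3
        exact absurd h1 (not_le.2 (mul_pos hc (not_le.1 h3)))
      exact norm_le_zero_iff.1 h2
    rw [this]; infer_instance
  · intro γ hγ
    by_contra hno
    have hDe : D = Set.Iic γ := by
      ext β
      exact ⟨fun hβ => not_lt.1 fun hlt => hno ⟨β, hβ, hlt⟩, fun hβ => hD hβ hγ⟩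
    obtain ⟨g, hg⟩ := exists_val_of_Spn x (D := Set.univ)
      (Submodule.subset_span ⟨γ, Set.mem_univ γ, rfl⟩)
    set M := 1 + K.p (Finsupp.single γ 1) * ‖x γ‖ with hM
    have hM0 : 0 < M := by
      have := mul_nonneg (apply_nonneg K.p (Finsupp.single γ 1)) (norm_nonneg (x γ))
      linarith
    refine hmin γ hγ ⟨Y' ⊓ LinearMap.ker (fc_evAt g), inf_le_left.trans hY'Y,
      fc_not_fd_inf_ker Y' hY' _, c / M, div_pos hc hM0, fun ψ hψ t ht hs => ?_⟩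
    have h1 := fc_small_Iic hx hg hψ.2 ht hs
    rw [← hDe] at h1
    have h2 := hB ψ hψ.1 _ (mul_nonneg hM0.le ht) h1
    rw [div_mul_eq_mul_div, div_le_iff₀ hM0]
    linarith
  · intro γ hγ Y'' hY'' hinf ε hε
    have h1 : ¬ Below x (Set.Iio γ) Y'' ε := fun h =>
      hmin γ hγ ⟨Y'', hY''.trans hY'Y, hinf, ε, hε, h⟩
    simp only [Below, not_forall, not_le] at h1
    obtain ⟨ψ, hψ, t, ht, hs, hlt⟩ := h1
    have hψ0 : 0 < ‖ψ‖ := by
      by_contra h3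
      have : ‖ψ‖ = 0 := le_antisymm (not_lt.1 h3) (norm_nonneg _)
      rw [this, mul_zero] at hlt; linarith
    refine ⟨((‖ψ‖⁻¹ : ℝ) : 𝕜) • ψ, Y''.smul_mem _ hψ, ?_, fc_small_mono (fc_small_smul hs _) ?_⟩
    · rw [norm_smul, RCLike.norm_ofReal, abs_of_pos (inv_pos.2 hψ0), inv_mul_cancel₀ hψ0.ne']
    · rw [RCLike.norm_ofReal, abs_of_pos (inv_pos.2 hψ0), inv_mul_le_iff₀ hψ0]
      linarith

end

end Crest.Agent.R114
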