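import Crest.Agent.R114.TasksF

/-! Row 114 part F, task DENS. -/

set_option autoImplicit false

namespace Crest.Agent.R114

open Filter Topology Finset

noncomputable section

variable {𝕜 : Type} [RCLike 𝕜] {Ω : Type} [LinearOrder Ω]

/-- `z` approximates `Φ` on `Spn x D` up to `ε`. -/
def DensAt {K : Core 𝕜 Ω} (x : Ω → StrongDual 𝕜 (V K)) (Φ : StrongDual 𝕜 (StrongDual 𝕜 (V K)))
    (D : Set Ω) (ε : ℝ) (z : Ω →₀ 𝕜) : Prop :=
  (∀ α ∈ z.support, α ∈ D) ∧ ∀ ξ ∈ Spn x D, ‖Φ ξ - ξ (toV K z)‖ ≤ ε * ‖ξ‖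

variable {K : Core 𝕜 Ω} {x : Ω → StrongDual 𝕜 (V K)} {Φ : StrongDual 𝕜 (StrongDual 𝕜 (V K))}

lemma dens_max (hx : Sys K x) (hL : Loc K x) (γ : Ω)
    (h : ∀ ε : ℝ, 0 < ε → ∃ z, DensAt x Φ (Set.Iio γ) ε z) (ε : ℝ) (hε : 0 < ε) :
    ∃ z, DensAt x Φ (Set.Iic γ) ε z := by
  classical
  set e : Ω →₀ 𝕜 := Finsupp.single γ 1 with he
  set M : ℝ := 1 + K.p e * ‖x γ‖ with hM
  have hp : 0 ≤ K.p e := apply_nonneg _ _
  have hM0 : 0 < M := by positivity
  obtain ⟨z', hz1, hz2⟩ := h (ε / M) (by positivity)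
  refine ⟨z' + (Φ (x γ) - x γ (toV K z')) • e, fun α hα => ?_, fun ξ hξ => ?_⟩
  · rcases Finset.mem_union.1 (Finsupp.support_add hα) with h1 | h1
    · exact le_of_lt (hz1 α h1)
    · exact (Finset.mem_singleton.1 (Finsupp.support_single_subset
        (Finsupp.support_smul h1))).le
  · unfold Spn at hξ
    rw [← Set.Iio_insert, Set.image_insert_eq, Submodule.mem_span_insert] at hξ
    obtain ⟨a, ξ', hξ', rfl⟩ := hξ
    have h0 : ξ' (toV K e) = 0 := by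
      have h1 : restr (Set.Iio γ) e = 0 := by
        ext β
        by_cases hb : β ∈ Set.Iio γ
        · rw [restr_of_mem _ hb, he, Finsupp.single_eq_of_ne (ne_of_lt hb)]; rfl
        · exact restr_of_notMem _ hb
      rw [(hL _ (isLowerSet_Iio γ)).1 ξ' hξ' e, h1, map_zero, map_zero]
    have h1 : x γ (toV K e) = 1 := hx.diag γ
    have h2 : (a • x γ + ξ') (toV K e) = a := by
      rw [add_apply, smul_apply, h0, h1]; simp
    have h3 : ‖a‖ ≤ ‖a • x γ + ξ'‖ * K.p e := by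
      have := le_opNorm K (a • x γ + ξ') e
      rwa [h2] at this
    have h4 : ‖ξ'‖ ≤ M * ‖a • x γ + ξ'‖ := by
      have h5 : ‖ξ'‖ ≤ ‖a • x γ + ξ'‖ + ‖a • x γ‖ := by
        have := norm_sub_le (a • x γ + ξ') (a • x γ)
        rwa [add_sub_cancel_left] at this
      rw [norm_smul] at h5
      have h6 := mul_le_mul_of_nonneg_right h3 (norm_nonneg (x γ))
      rw [hM]; nlinarith
    have h5 : Φ (a • x γ + ξ') - (a • x γ + ξ') (toV K (z' + (Φ (x γ) - x γ (toV K z')) • e)) =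
        Φ ξ' - ξ' (toV K z') := by
      simp only [map_add, map_smul, add_apply, smul_apply, smul_eq_mul, h0, h1]
      ring
    rw [h5]
    calc _ ≤ ε / M * ‖ξ'‖ := hz2 ξ' hξ'
      _ ≤ ε / M * (M * ‖a • x γ + ξ'‖) := by gcongr
      _ = _ := by field_simp

lemma dens_A (hL : Loc K x) {γ γ' : Ω} (hγ : γ ≤ γ') {ε : ℝ} (hε : 0 ≤ ε) {z z' : Ω →₀ 𝕜}
    (h : DensAt x Φ (Set.Iio γ) ε z) (h' : DensAt x Φ (Set.Iio γ') ε z') :
    K.p (restr (Set.Iio γ) z' - z) ≤ 16 * ε := by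
  classical
  obtain ⟨h1, h2⟩ := hL _ (isLowerSet_Iio γ)
  obtain ⟨ξ, hξ, hn, hp⟩ := h2 (restr (Set.Iio γ) z' - z) fun α hα => by
    rcases Finset.mem_union.1 (Finsupp.support_sub hα) with h3 | h3
    · exact (mem_support_restr.1 h3).2
    · exact h.1 α h3
  have h3 := h.2 ξ hξ
  have h4 := h'.2 ξ (Submodule.span_mono (Set.image_mono (Set.Iio_subset_Iio hγ)) hξ)
  have h5 : ξ (toV K (restr (Set.Iio γ) z' - z)) =
      (Φ ξ - ξ (toV K z)) - (Φ ξ - ξ (toV K z')) := by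
    rw [map_sub, map_sub, ← h1 ξ hξ z']; ring
  rw [h5] at hp
  have h6 := norm_sub_le (Φ ξ - ξ (toV K z)) (Φ ξ - ξ (toV K z'))
  have h7 := mul_le_mul_of_nonneg_left hn hε
  linarith

lemma dens_B (hL : Loc K x) {γ : Ω} {ε : ℝ} (hε : 0 ≤ ε) {z : Ω →₀ 𝕜}
    (h : DensAt x Φ (Set.Iio γ) ε z) : K.p z ≤ 8 * (‖Φ‖ + ε) := by
  obtain ⟨ξ, hξ, hn, hp⟩ := (hL _ (isLowerSet_Iio γ)).2 z h.1
  have h3 := h.2 ξ hξ
  have h4 := norm_sub_le (Φ ξ) (Φ ξ - ξ (toV K z))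
  rw [sub_sub_cancel] at h4
  have h5 := Φ.le_opNorm ξ
  have h6 := mul_le_mul_of_nonneg_left hn hε
  have h7 := mul_le_mul_of_nonneg_left hn (norm_nonneg Φ)
  linarith

lemma dens_lim (hL : Loc K x) {D : Set Ω} (hD : IsLowerSet D) (hne : D.Nonempty)
    (hmax : ∀ γ ∈ D, ∃ γ' ∈ D, γ < γ')
    (h : ∀ γ ∈ D, ∀ ε : ℝ, 0 < ε → ∃ z, DensAt x Φ (Set.Iio γ) ε z) (δ : ℝ) (hδ : 0 < δ) :
    ∃ z, DensAt x Φ D δ z := by
  classical
  by_contra hcon
  set ε : ℝ := δ / 34 with hε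
  have hε0 : 0 < ε := by positivity
  choose! Z hZ using fun γ hγ => h γ hγ ε hε0
  have hfin : ∀ ξ ∈ Spn x D, ∃ γ ∈ D, ξ ∈ Spn x (Set.Iio γ) := by
    intro ξ hξ
    induction hξ using Submodule.span_induction with
    | mem ξ hξ =>
      obtain ⟨β, hβ, rfl⟩ := hξ
      obtain ⟨γ, h1, h2⟩ := hmax β hβ
      exact ⟨γ, h1, Submodule.subset_span ⟨β, h2, rfl⟩⟩
    | zero => exact ⟨hne.some, hne.some_mem, Submodule.zero_mem _⟩
    | add a b _ _ ha hb =>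
      obtain ⟨γ, h1, h2⟩ := ha
      obtain ⟨γ', h1', h2'⟩ := hb
      rcases le_total γ γ' with h3 | h3
      · exact ⟨γ', h1', Submodule.add_mem _
          (Submodule.span_mono (Set.image_mono (Set.Iio_subset_Iio h3)) h2) h2'⟩
      · exact ⟨γ, h1, Submodule.add_mem _ h2
          (Submodule.span_mono (Set.image_mono (Set.Iio_subset_Iio h3)) h2')⟩
    | smul c a _ ha =>
      obtain ⟨γ, h1, h2⟩ := ha
      exact ⟨γ, h1, Submodule.smul_mem _ _ h2⟩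
  have hnext : ∀ γ ∈ D, ∃ γ' ∈ D, γ < γ' ∧ δ - ε ≤ K.p (Z γ' - Z γ) := by
    intro γ hγ
    have h1 : ∃ ξ ∈ Spn x D, δ * ‖ξ‖ < ‖Φ ξ - ξ (toV K (Z γ))‖ := by
      by_contra h2
      push Not at h2
      exact hcon ⟨Z γ, fun α hα => hD (le_of_lt ((hZ γ hγ).1 α hα)) hγ, h2⟩
    obtain ⟨ξ, hξ, hlt⟩ := h1
    obtain ⟨γ1, h1, h2⟩ := hfin ξ hξ
    obtain ⟨γ2, h3, h4⟩ := hmax γ hγ
    have hmem : max γ1 γ2 ∈ D := by
      rcases le_total γ1 γ2 with h5 | h5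
      · rwa [max_eq_right h5]
      · rwa [max_eq_left h5]
    refine ⟨max γ1 γ2, hmem, h4.trans_le (le_max_right _ _), ?_⟩
    have h5 := (hZ _ hmem).2 ξ
      (Submodule.span_mono (Set.image_mono (Set.Iio_subset_Iio (le_max_left _ _))) h2)
    have h6 := le_opNorm K ξ (Z (max γ1 γ2) - Z γ)
    have h7 := norm_add_le (Φ ξ - ξ (toV K (Z (max γ1 γ2)))) (ξ (toV K (Z (max γ1 γ2) - Z γ)))
    have h8 : Φ ξ - ξ (toV K (Z (max γ1 γ2))) + ξ (toV K (Z (max γ1 γ2) - Z γ)) =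
        Φ ξ - ξ (toV K (Z γ)) := by rw [map_sub, map_sub]; ring
    rw [h8] at h7
    have h9 : 0 < ‖ξ‖ := by
      rcases (norm_nonneg ξ).eq_or_lt with h10 | h10
      · rw [norm_eq_zero.1 h10.symm] at hlt; simp at hlt
      · exact h10
    refine le_of_mul_le_mul_left ?_ h9
    nlinarith
  choose! nx hn1 hn2 hn3 using hnext
  set g : ℕ → Ω := fun k => nx^[k] hne.some with hg
  have hgs : ∀ k, g (k + 1) = nx (g k) := fun k => Function.iterate_succ_apply' _ _ _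
  have hgD : ∀ k, g k ∈ D := by
    intro k
    induction k with
    | zero => exact hne.some_mem
    | succ k ih => rw [hgs]; exact hn1 _ ih
  have hmono : StrictMono g := strictMono_nat_of_lt_succ fun k => by
    rw [hgs]; exact hn2 _ (hgD k)
  obtain ⟨n, hn⟩ := K.lower (ε⁻¹ * (16 * (‖Φ‖ + ε)) + 1)
  set R : ℕ → Ω →₀ 𝕜 := fun k => restr (Set.Iio (g k)) (Z (g n)) with hR
  have hsupp : ∀ k, ∀ α ∈ (R (k + 1) - R k).support, g k ≤ α ∧ α < g (k + 1) := by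
    intro k α hα
    rw [Finsupp.mem_support_iff, Finsupp.sub_apply] at hα
    have hlt : g k < g (k + 1) := hmono (Nat.lt_succ_self k)
    constructor
    · by_contra h1
      have h2 : α ∈ Set.Iio (g k) := not_le.1 h1
      have h3 : α ∈ Set.Iio (g (k + 1)) := lt_trans h2 hlt
      exact hα (by simp only [hR]; rw [restr_of_mem _ h2, restr_of_mem _ h3, sub_self])
    · by_contra h1
      have h3 : α ∉ Set.Iio (g (k + 1)) := h1
      have h2 : α ∉ Set.Iio (g k) := fun h4 => h1 (lt_trans h4 hlt)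
      exact hα (by simp only [hR]; rw [restr_of_notMem _ h2, restr_of_notMem _ h3, sub_self])
  have hscale : ∀ w : Ω →₀ 𝕜, K.p (((ε⁻¹ : ℝ) : 𝕜) • w) = ε⁻¹ * K.p w := fun w => by
    rw [map_smul_eq_mul, RCLike.norm_ofReal, abs_of_pos (inv_pos.2 hε0)]
  have h1 := hn (fun k => ((ε⁻¹ : ℝ) : 𝕜) • (R (k + 1) - R k)) (fun r r' hr _ α hα β hβ => by
    have h2 := (hsupp r α (Finsupp.support_smul hα)).2
    have h3 := (hsupp r' β (Finsupp.support_smul hβ)).1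
    exact (h2.trans_le (hmono.monotone hr)).trans_le h3) (fun k hk => by
    rw [hscale, le_inv_mul_iff₀ hε0, mul_one]
    have h2 := dens_A hL (hmono.monotone hk.le) hε0.le (hZ _ (hgD k)) (hZ _ (hgD n))
    have h3 := dens_A hL (hmono.monotone hk) hε0.le (hZ _ (hgD (k + 1))) (hZ _ (hgD n))
    have h4 := hn3 _ (hgD k)
    rw [← hgs] at h4
    have h5 : Z (g (k + 1)) - Z (g k) =
        (R (k + 1) - R k) + ((R k - Z (g k)) - (R (k + 1) - Z (g (k + 1)))) := by abel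
    have h6 := map_add_le_add K.p (R (k + 1) - R k)
      ((R k - Z (g k)) - (R (k + 1) - Z (g (k + 1))))
    have h7 := map_sub_le_add K.p (R k - Z (g k)) (R (k + 1) - Z (g (k + 1)))
    rw [← h5] at h6
    have h8 : δ = 34 * ε := by rw [hε]; ring
    simp only [hR] at h6 h7 ⊢
    linarith)
  rw [← Finset.smul_sum, Finset.sum_range_sub, hscale] at h1
  have h2 := map_sub_le_add K.p (R n) (R 0)
  have h3 := K.restr_le _ (Set.ordConnected_Iio (a := g n)) (Z (g n))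
  have h4 := K.restr_le _ (Set.ordConnected_Iio (a := g 0)) (Z (g n))
  have h5 := dens_B hL hε0.le (hZ _ (hgD n))
  have h6 : K.p (R n - R 0) ≤ 16 * (‖Φ‖ + ε) := by
    simp only [hR] at h2 ⊢
    linarith
  have h7 := mul_le_mul_of_nonneg_left h6 (inv_pos.2 hε0).le
  linarith

lemma dens_step (hx : Sys K x) (hL : Loc K x) {D : Set Ω} (hD : IsLowerSet D)
    (h : ∀ γ ∈ D, ∀ ε : ℝ, 0 < ε → ∃ z, DensAt x Φ (Set.Iio γ) ε z) (ε : ℝ) (hε : 0 < ε) :
    ∃ z, DensAt x Φ D ε z := by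
  rcases D.eq_empty_or_nonempty with rfl | hne
  · refine ⟨0, by simp, fun ξ hξ => ?_⟩
    have : ξ = 0 := by simpa [Spn] using hξ
    simp [this]
  by_cases hmax : ∀ γ ∈ D, ∃ γ' ∈ D, γ < γ'
  · exact dens_lim hL hD hne hmax h ε hε
  · push Not at hmax
    obtain ⟨γ, hγ, hle⟩ := hmax
    have : D = Set.Iic γ := Set.Subset.antisymm hle (hD.Iic_subset hγ)
    rw [this]
    exact dens_max hx hL γ (h γ hγ) ε hε

theorem dens_proof (K : Core 𝕜 Ω) : DensStmt K := by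
  intro hO x hx hL Φ D hD ε hε
  haveI := hO.wf
  have h : ∀ β, ∀ ε : ℝ, 0 < ε → ∃ z, DensAt x Φ (Set.Iio β) ε z := by
    intro β
    induction β using WellFoundedLT.induction with
    | ind β ih => exact dens_step hx hL (isLowerSet_Iio β) ih
  exact dens_step hx hL hD (fun γ _ => h γ) ε hε

end

end Crest.Agent.R114
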