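import Crest.Agent.R114.TasksF

/-! Row 114, part F: the tasks OM, LOC, INF. -/

set_option autoImplicit false

namespace Crest.Agent.R114

open Filter Topology Finset

noncomputable section

theorem om_aux (α : Type) (h1 : Cardinal.mk α = Cardinal.aleph 1)
    (h2 : Cardinal.mk α = Cardinal.continuum) : ∃ (_ : LinearOrder α), Om α := by
  obtain ⟨i, w, hw⟩ := Cardinal.exists_ord_eq_type_lt α
  refine ⟨i, w, fun β => ?_, h2⟩
  have := Cardinal.mk_Iio_lt β hw
  rwa [h1, Cardinal.lt_aleph_one_iff, Cardinal.le_aleph0_iff_set_countable] at this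

theorem om_proof : OmStmt := fun h =>
  ⟨ℝ, om_aux ℝ h Cardinal.mk_real⟩

variable {𝕜 : Type} [RCLike 𝕜] {Ω : Type} [LinearOrder Ω] (K : Core 𝕜 Ω)

lemma toV_eq_sum (w : Ω →₀ 𝕜) :
    toV K w = ∑ α ∈ w.support, w α • toV K (Finsupp.single α 1) := by
  conv_lhs => rw [← Finsupp.sum_single w, Finsupp.sum, map_sum]
  refine Finset.sum_congr rfl fun α _ => ?_
  rw [← map_smul, Finsupp.smul_single, smul_eq_mul, mul_one]

lemma Sys.apply_eq_zero {x : Ω → StrongDual 𝕜 (V K)} (hx : Sys K x) {γ : Ω} {w : Ω →₀ 𝕜}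
    (h : ∀ α ∈ w.support, γ < α) : x γ (toV K w) = 0 := by
  rw [toV_eq_sum, map_sum]
  exact Finset.sum_eq_zero fun α hα => by rw [map_smul, hx.above γ α (h α hα), smul_zero]

theorem loc_proof : LocStmt K := by
  intro x hx D hD
  refine ⟨fun ξ hξ z => ?_, fun z hz => ?_⟩
  · induction hξ using Submodule.span_induction with
    | mem ξ hξ =>
      obtain ⟨γ, hγ, rfl⟩ := hξ
      rw [← sub_eq_zero, ← map_sub, ← map_sub]
      refine hx.apply_eq_zero K fun α hα => ?_
      by_contra hle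
      have hαD : α ∈ D := hD (not_lt.1 hle) hγ
      rw [Finsupp.mem_support_iff, Finsupp.sub_apply, restr_of_mem z hαD, sub_self] at hα
      exact hα rfl
    | zero => simp
    | add a b _ _ ha hb => simp only [ContinuousLinearMap.add_apply, ha, hb]
    | smul c a _ ha => simp only [ContinuousLinearMap.smul_apply, ha]
  · rcases (apply_nonneg K.p z).eq_or_lt with h0 | hpos
    · exact ⟨0, Submodule.zero_mem _, by simp, by simp [← h0]⟩
    obtain ⟨f, hf1, hf2, hf3, hf4⟩ := K.normer z (7 / 8 * K.p z) (by linarith)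
    obtain ⟨ξ, hξ, hn⟩ := hx.apx D hD f (fun α hα => by
      obtain ⟨β, hβ, hαβ⟩ := (hf3 α hα).2
      exact hD hαβ (hz β hβ)) (1 / 8) (by norm_num)
    have hev : ‖ev K f‖ ≤ 1 := opNorm_le K zero_le_one fun y => by simpa using hf1 y
    refine ⟨ξ, hξ, ?_, ?_⟩
    · have : ‖ξ‖ ≤ ‖ev K f‖ + ‖ev K f - ξ‖ := by
        simpa using norm_sub_le (ev K f) (ev K f - ξ)
      linarith
    · have h1 := le_opNorm K (ev K f - ξ) z
      rw [ContinuousLinearMap.sub_apply, ev_apply] at h1
      have h2 : ‖pr f z‖ ≤ ‖pr f z - ξ (toV K z)‖ + ‖ξ (toV K z)‖ := by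
        simpa using norm_add_le (pr f z - ξ (toV K z)) (ξ (toV K z))
      have h3 : ‖ev K f - ξ‖ * K.p z ≤ 5 / 8 * K.p z :=
        mul_le_mul_of_nonneg_right (by linarith) hpos.le
      linarith

lemma Sys.linearIndependent {x : Ω → StrongDual 𝕜 (V K)} (hx : Sys K x) :
    LinearIndependent 𝕜 x := by
  classical
  rw [linearIndependent_iff']
  intro s g hs i hi
  by_contra hne
  have hnon : (s.filter fun j => g j ≠ 0).Nonempty := ⟨i, Finset.mem_filter.2 ⟨hi, hne⟩⟩
  obtain ⟨γ, hγ, hmax⟩ := Finset.exists_max_image _ id hnon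
  have h := congrArg (fun φ : StrongDual 𝕜 (V K) => φ (toV K (Finsupp.single γ 1))) hs
  simp only [ContinuousLinearMap.sum_apply, ContinuousLinearMap.smul_apply,
    ContinuousLinearMap.zero_apply] at h
  rw [Finset.sum_eq_single γ] at h
  · rw [hx.diag, smul_eq_mul, mul_one] at h
    exact (Finset.mem_filter.1 hγ).2 h
  · intro j hj hjγ
    by_cases hg : g j = 0
    · simp [hg]
    · have : j ≤ γ := hmax j (Finset.mem_filter.2 ⟨hj, hg⟩)
      rw [hx.above j γ (lt_of_le_of_ne this hjγ), smul_zero]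
  · intro h'
    exact absurd (Finset.mem_filter.1 hγ).1 h'

theorem inf_proof : InfStmt K := by
  intro hO x hx hfin
  have hmem : ∀ γ, x γ ∈ Spn x Set.univ := fun γ => Submodule.subset_span ⟨γ, trivial, rfl⟩
  choose ζ hζ using fun γ => exists_val_of_Spn x (hmem γ)
  have hli : LinearIndependent 𝕜 ζ := by
    refine LinearIndependent.of_comp (val x).toLinearMap ?_
    have : (val x).toLinearMap ∘ ζ = x := funext hζ
    rw [this]
    exact hx.linearIndependent K
  have hΩ : Finite Ω := hli.finite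
  have := Cardinal.lt_aleph0_of_finite Ω
  rw [hO.card] at this
  exact absurd this (not_lt.2 Cardinal.aleph0_le_continuum)

end

end Crest.Agent.R114
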