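import Crest.Agent.R114.FCut

/-! Row 114, task F-HUMP: the gliding hump. -/

set_option autoImplicit false

namespace Crest.Agent.R114

open Filter Topology Finset

noncomputable section

variable {𝕜 : Type} [RCLike 𝕜] {Ω : Type} [LinearOrder Ω] {K : Core 𝕜 Ω}
  {x : Ω → StrongDual 𝕜 (V K)}

lemma fh_restr_le (hL : Loc K x) {D : Set Ω} (hD : IsLowerSet D) {z : Ω →₀ 𝕜} {t : ℝ}
    (ht : 0 ≤ t) (h : Small x D (JJ x z) t) : K.p (restr D z) ≤ 8 * t := by
  obtain ⟨ξ, hξ, h1, h2⟩ := (hL D hD).2 (restr D z) fun α hα => (mem_support_restr.1 hα).2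
  obtain ⟨ζ, rfl⟩ := exists_val_of_Spn x hξ
  rw [← (hL D hD).1 _ hξ z] at h2
  have h3 := h ζ hξ
  rw [JJ_apply] at h3
  rw [(val x).norm_map] at h1
  nlinarith [mul_le_mul_of_nonneg_left h1 ht]

lemma fh_p_le (hL : Loc K x) (z : Ω →₀ 𝕜) : K.p z ≤ 8 * ‖JJ x z‖ := by
  have := fh_restr_le hL isLowerSet_univ (z := z) (norm_nonneg (JJ x z))
    fun ξ _ => (JJ x z).le_opNorm ξ
  rwa [restr_univ] at this

lemma fh_coord (hL : Loc K x) (α : Ω) : ∃ Λ : StrongDual 𝕜 (StrongDual 𝕜 (XS x)),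
    ‖Λ‖ ≤ 8 ∧ ∀ z, Λ (JJ x z) = z α := by
  have hinj : Function.Injective (JL x) := by
    rw [injective_iff_map_eq_zero]
    intro z hz
    have h1 := fh_p_le hL z
    rw [JL_apply] at hz
    rw [hz, norm_zero, mul_zero] at h1
    exact Finsupp.ext fun β => norm_le_zero_iff.1 ((K.coord z β).trans h1)
  set e := LinearEquiv.ofInjective (JL x) hinj with he
  set f0 : LinearMap.range (JL x) →ₗ[𝕜] 𝕜 := (Finsupp.lapply α).comp e.symm.toLinearMap with hf0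
  have hb : ∀ v, ‖f0 v‖ ≤ 8 * ‖v‖ := by
    intro v
    obtain ⟨z, rfl⟩ := e.surjective v
    have h1 : f0 (e z) = z α := by simp [hf0]
    have h2 : ‖e z‖ = ‖JJ x z‖ := rfl
    rw [h1, h2]
    exact (K.coord z α).trans (fh_p_le hL z)
  obtain ⟨g, hg, hn⟩ := exists_extension_norm_eq (LinearMap.range (JL x)) (f0.mkContinuous 8 hb)
  refine ⟨g, hn.le.trans (LinearMap.mkContinuous_norm_le _ (by norm_num) _), fun z => ?_⟩
  have h3 := hg (e z)
  have h1 : f0 (e z) = z α := by simp [hf0]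
  rw [LinearMap.mkContinuous_apply, h1] at h3
  exact h3

lemma fh_dens (hD : Dens K x) (ψ : StrongDual 𝕜 (XS x)) {ε : ℝ} (hε : 0 < ε) :
    ∃ z, ‖ψ - JJ x z‖ ≤ ε := by
  obtain ⟨Φ, hΦ, -⟩ := exists_extension_norm_eq (XM x) ψ
  obtain ⟨z, -, hz⟩ := hD Φ Set.univ isLowerSet_univ ε hε
  refine ⟨z, fc_norm_le_of_small_univ hε.le fun ξ hξ => ?_⟩
  have h1 := hz _ hξ
  have h2 : Φ (val x ξ) = ψ ξ := hΦ ξ
  rw [h2, (val x).norm_map] at h1
  simpa using h1

lemma fh_step (hL : Loc K x) (hD : Dens K x) (d : ℕ → XS x) {D : Set Ω}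
    {Y' : Submodule 𝕜 (StrongDual 𝕜 (XS x))} {c : ℝ} (hl : IsLowerSet D) (hne : D.Nonempty)
    (hY' : ¬ FiniteDimensional 𝕜 Y') (hB : Below x D Y' c)
    (hs : ∀ γ ∈ D, ∀ Y'' ≤ Y', ¬ FiniteDimensional 𝕜 Y'' → ∀ ε : ℝ, 0 < ε →
      ∃ ψ ∈ Y'', ‖ψ‖ = 1 ∧ Small x (Set.Iio γ) ψ ε)
    (B : Finset Ω) (k : ℕ) {η : ℝ} (hη : 0 < η) :
    ∃ (ψ : StrongDual 𝕜 (XS x)) (z : Ω →₀ 𝕜), ψ ∈ Y' ∧ (∀ n < k, ψ (d n) = 0) ∧
      ‖ψ - JJ x z‖ ≤ η ∧ (∀ α ∈ B, α ∉ z.support) ∧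
      (∀ α ∈ B, α ∈ D → ∀ β ∈ z.support, α < β) ∧ c ≤ K.p (restr D z) + η := by
  classical
  choose Λ hΛ hΛz using fh_coord hL
  obtain ⟨γ, hγ, hγB⟩ : ∃ γ ∈ D, ∀ α ∈ B, α ∈ D → α ≤ γ := by
    obtain ⟨γ0, hγ0⟩ := hne
    obtain ⟨γ, h1, h2⟩ := Finset.exists_max_image (insert γ0 (B.filter (· ∈ D))) id
      (Finset.insert_nonempty _ _)
    refine ⟨γ, ?_, fun α ha hd => h2 α (by simp [ha, hd])⟩
    rcases Finset.mem_insert.1 h1 with rfl | h1
    · exact hγ0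
    · exact (Finset.mem_filter.1 h1).2
  set f : StrongDual 𝕜 (XS x) →ₗ[𝕜] (B → 𝕜) × (Fin k → 𝕜) :=
    (LinearMap.pi fun α : B => (Λ α).toLinearMap).prod
      (LinearMap.pi fun n : Fin k => fc_evAt (d n)) with hf
  set S := ∑ α ∈ B, K.p (Finsupp.single α 1) with hS
  have hS0 : 0 ≤ S := Finset.sum_nonneg fun _ _ => apply_nonneg _ _
  set ε := η / (17 + 8 * S) with hε
  have hε0 : 0 < ε := by positivity
  have hεη : ε * (17 + 8 * S) = η := div_mul_cancel₀ _ (by positivity)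
  obtain ⟨ψ, hψ, hψ1, hψs⟩ := hs γ hγ (Y' ⊓ LinearMap.ker f) inf_le_left
    (fc_not_fd_inf_ker Y' hY' f) ε hε0
  have hk : f ψ = 0 := hψ.2
  have hk1 : ∀ α ∈ B, Λ α ψ = 0 := fun α hα => congrFun (congrArg Prod.fst hk) ⟨α, hα⟩
  have hk2 : ∀ n < k, ψ (d n) = 0 := fun n hn => congrFun (congrArg Prod.snd hk) ⟨n, hn⟩
  obtain ⟨w, hw⟩ := fh_dens hD ψ hε0
  have hwB : ∀ α ∈ B, ‖w α‖ ≤ 8 * ε := by
    intro α hα
    have h1 : Λ α (ψ - JJ x w) = - w α := by rw [map_sub, hk1 α hα, hΛz, zero_sub]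
    have h2 := (Λ α).le_opNorm (ψ - JJ x w)
    rw [h1, norm_neg] at h2
    exact h2.trans (mul_le_mul (hΛ α) hw (norm_nonneg _) (by norm_num))
  have hw1 : K.p (restr (Set.Iio γ) w) ≤ 8 * (2 * ε) := by
    refine fh_restr_le hL (isLowerSet_Iio γ) (by positivity) fun ξ hξ => ?_
    have h1 := hψs ξ hξ
    have h2 := ((ψ - JJ x w).le_opNorm ξ).trans (mul_le_mul_of_nonneg_right hw (norm_nonneg _))
    have h3 : JJ x w ξ = ψ ξ - (ψ - JJ x w) ξ := by simp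
    rw [h3]
    linarith [norm_sub_le (ψ ξ) ((ψ - JJ x w) ξ)]
  set w1 := restr (Set.Ici γ) w with hw1d
  set z := restr {α | γ ≤ α ∧ α ∉ B} w with hz
  have hdec : w - z = restr (Set.Iio γ) w + ∑ α ∈ B, w1 α • Finsupp.single α (1 : 𝕜) := by
    ext β
    have e1 : (∑ α ∈ B, w1 α • Finsupp.single α (1 : 𝕜)) β = if β ∈ B then w1 β else 0 := by
      simp [Finsupp.finsetSum_apply, Finsupp.single_apply]
    rw [Finsupp.add_apply, Finsupp.sub_apply, e1]
    by_cases h1 : γ ≤ β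
    · rw [restr_of_notMem w (show β ∉ Set.Iio γ from not_lt.2 h1)]
      by_cases h2 : β ∈ B
      · rw [if_pos h2, hz, restr_of_notMem w (fun h => h.2 h2), hw1d,
          restr_of_mem w (show β ∈ Set.Ici γ from h1)]
        simp
      · rw [if_neg h2, hz, restr_of_mem w (show β ∈ {α | γ ≤ α ∧ α ∉ B} from ⟨h1, h2⟩)]
        simp
    · rw [restr_of_mem w (show β ∈ Set.Iio γ from not_le.1 h1), hz,
        restr_of_notMem w (fun h => h1 h.1), hw1d,
        restr_of_notMem w (show β ∉ Set.Ici γ from h1)]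
      simp
  have hw1B : ∀ α ∈ B, ‖w1 α‖ ≤ 8 * ε := by
    intro α hα
    by_cases h : α ∈ Set.Ici γ
    · rw [hw1d, restr_of_mem w h]; exact hwB α hα
    · rw [hw1d, restr_of_notMem w h, norm_zero]; positivity
  have hsum : K.p (∑ α ∈ B, w1 α • Finsupp.single α (1 : 𝕜)) ≤ 8 * ε * S := by
    have h1 : ‖toV K (∑ α ∈ B, w1 α • Finsupp.single α (1 : 𝕜))‖ ≤ 8 * ε * S := by
      rw [map_sum, hS, Finset.mul_sum]
      refine (norm_sum_le _ _).trans (Finset.sum_le_sum fun α hα => ?_)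
      rw [map_smul, norm_smul, norm_toV]
      exact mul_le_mul_of_nonneg_right (hw1B α hα) (apply_nonneg _ _)
    exact h1
  have hwz : K.p (w - z) ≤ 16 * ε + 8 * ε * S := by
    rw [hdec]
    linarith [map_add_le_add K.p (restr (Set.Iio γ) w) (∑ α ∈ B, w1 α • Finsupp.single α (1 : 𝕜))]
  have hψz : ‖ψ - JJ x z‖ ≤ η := by
    have h1 : ψ - JJ x z = (ψ - JJ x w) + JJ x (w - z) := by
      have := (JL x).map_sub w z
      simp only [JL_apply] at this
      rw [this]; abel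
    rw [h1]
    have := norm_JJ_le x (w - z)
    linarith [norm_add_le (ψ - JJ x w) (JJ x (w - z))]
  refine ⟨ψ, z, hψ.1, hk2, hψz, fun α hα h => (mem_support_restr.1 h).2.2 hα,
    fun α hα hd β hβ => ?_, ?_⟩
  · obtain ⟨-, h1, h2⟩ := mem_support_restr.1 hβ
    exact lt_of_le_of_ne ((hγB α hα hd).trans h1) fun h => h2 (h ▸ hα)
  · have h1 := hB ψ hψ.1 (K.p (restr D z) + η) (add_nonneg (apply_nonneg _ _) hη.le) fun ξ hξ => by
      have h2 : ψ ξ = (ψ - JJ x z) ξ + val x ξ (toV K (restr D z)) := by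
        rw [← (hL D hl).1 _ hξ z]; simp
      have h3 := ((ψ - JJ x z).le_opNorm ξ).trans (mul_le_mul_of_nonneg_right hψz (norm_nonneg _))
      have h4 := le_opNorm K (val x ξ) (restr D z)
      rw [(val x).norm_map] at h4
      rw [h2]
      linarith [norm_add_le ((ψ - JJ x z) ξ) (val x ξ (toV K (restr D z)))]
    rwa [hψ1, mul_one] at h1

variable (K)

theorem hump_proof (h : CutStmt K) : HumpStmt K := by
  classical
  intro hO x hx hL hD Y hY d
  obtain ⟨D, Y', c, hl, hne, -, hYY, hY', hc, hB, hs⟩ := h hO x hx Y hY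
  have hη : ∀ k : ℕ, 0 < min (c / 2) ((1 / 2 : ℝ) ^ k) := fun k => by positivity
  choose ψ z h1 h2 h3 h4 h5 h6 using fun (B : Finset Ω) (k : ℕ) =>
    fh_step hL hD d hl hne hY' hB hs B k (hη k)
  set B : ℕ → Finset Ω := fun k => Nat.rec ∅ (fun k b => b ∪ (z b k).support) k with hBd
  have hBs : ∀ k, B (k + 1) = B k ∪ (z (B k) k).support := fun k => rfl
  have hBm : Monotone B := monotone_nat_of_le_succ fun k => by
    rw [hBs]; exact Finset.subset_union_left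
  have hsub : ∀ i j, i < j → (z (B i) i).support ⊆ B j := fun i j hij =>
    (show (z (B i) i).support ⊆ B (i + 1) from Finset.subset_union_right).trans (hBm hij)
  have hdis : ∀ i j, i < j → Disjoint (z (B i) i).support (z (B j) j).support := fun i j hij =>
    Finset.disjoint_left.2 fun α hα => h4 _ _ α (hsub i j hij hα)
  refine ⟨D, Y', c, fun k => ψ (B k) k, fun k => z (B k) k, hl, hYY, hc, hB, fun k => h1 _ _,
    fun k n hn => h2 _ _ n hn, fun k => (h3 _ _).trans (min_le_right _ _), fun i j hij => ?_,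
    fun i j hij α hα β hβ => ?_, fun k => ?_⟩
  · rcases lt_or_gt_of_ne hij with h' | h'
    · exact hdis i j h'
    · exact (hdis j i h').symm
  · obtain ⟨ha, hd⟩ := mem_support_restr.1 hα
    exact h5 _ _ α (hsub i j hij ha) hd β (mem_support_restr.1 hβ).1
  · have := h6 (B k) k
    linarith [min_le_left (c / 2) ((1 / 2 : ℝ) ^ k)]

end

end Crest.Agent.R114
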