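import Crest.Agent.R114.TasksF

/-! Row 114 part F, task REC. -/

set_option autoImplicit false

namespace Crest.Agent.R114

open Filter Topology Finset

noncomputable section

variable {𝕜 : Type} [RCLike 𝕜] {Ω : Type} [LinearOrder Ω]

lemma rec_congr (K : Core 𝕜 Ω) {x y : Ω → StrongDual 𝕜 (V K)} {A : Set Ω} (h : x '' A = y '' A)
    {γ : Ω} {τ : ℕ → Ω →₀ 𝕜} {ξ : StrongDual 𝕜 (V K)} (hc : Corr K x A γ τ ξ) :
    Corr K y A γ τ ξ := by
  obtain ⟨D, h1, h2, h3⟩ := hc
  refine ⟨D, h1, fun l => ?_, h3⟩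
  have := h2 l
  unfold Spn at this ⊢
  rwa [← h]

lemma rec_sum (K : Core 𝕜 Ω) {τ : ℕ → Ω →₀ 𝕜} (hτ : τ ∈ K.S) :
    ∃ s : StrongDual 𝕜 (V K), ∀ z, s (toV K z) = ∑' l, pr (τ l) z := by
  have hfin : ∀ z, ∃ L, ∀ l ∉ range L, pr (τ l) z = 0 := by
    intro z
    obtain ⟨L, hL⟩ := eventually_atTop.1 (K.fin τ hτ z)
    exact ⟨L, fun l hl => hL l (by simpa using hl)⟩
  have hs : ∀ z, Summable fun l => pr (τ l) z := fun z => by
    obtain ⟨L, hL⟩ := hfin z
    exact summable_of_ne_finset_zero hL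
  let s0 : (Ω →₀ 𝕜) →ₗ[𝕜] 𝕜 :=
    { toFun := fun z => ∑' l, pr (τ l) z
      map_add' := fun a b => by
        simp only [map_add]
        exact (hs a).tsum_add (hs b)
      map_smul' := fun c a => by
        simp only [map_smul, smul_eq_mul, RingHom.id_apply]
        exact tsum_mul_left }
  refine ⟨LinearMap.mkContinuous (s0.comp (toV K).symm.toLinearMap) 1 fun (z : Ω →₀ 𝕜) => ?_,
    fun z => rfl⟩
  change ‖∑' l, pr (τ l) z‖ ≤ 1 * K.p z
  obtain ⟨L, hL⟩ := hfin z
  rw [tsum_eq_sum hL, one_mul, Finset.range_eq_Ico]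
  exact K.seg τ hτ 0 L z

lemma rec_exists (K : Core 𝕜 Ω) {x : Ω → StrongDual 𝕜 (V K)} {γ : Ω} {τ : ℕ → Ω →₀ 𝕜}
    (hτ : τ ∈ K.S) (hs : ∀ l, ∀ α ∈ (τ l).support, α < γ) (hA : Apx K x (Set.Iio γ)) :
    ∃ ξ, Corr K x (Set.Iio γ) γ τ ξ := by
  choose ξ h1 h2 using fun l => hA (τ l) (hs l) (kap l / 2) (by linarith [kap_pos l])
  obtain ⟨s, hs⟩ := rec_sum K hτ
  set D : ℕ → StrongDual 𝕜 (V K) := fun l => ξ l - ev K (τ l) with hD
  have hD1 : ∀ l, ‖D l‖ ≤ kap l := fun l => by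
    have h3 := h2 l
    have h4 := K.small τ hτ l
    rw [hD]; simp only
    rw [norm_sub_rev]; linarith
  have hsum : Summable D := Summable.of_norm_bounded summable_kap hD1
  refine ⟨ev K (Finsupp.single γ 1) + (1 / 2 : 𝕜) • (s + ∑' l, D l), D, hD1, fun l => ?_,
    fun z => ?_⟩
  · rw [hD]; simpa using h1 l
  · have h5 : (∑' l, D l) (toV K z) = ∑' l, D l (toV K z) :=
      (ContinuousLinearMap.apply 𝕜 𝕜 (toV K z)).map_tsum hsum
    simp only [add_apply, smul_apply, smul_eq_mul, ev_apply, pr_single, one_mul, hs, h5]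

theorem rec_proof (K : Core 𝕜 Ω) (hAsg : AsgStmt K) (hCor : CorStmt K) : RecStmt K := by
  classical
  intro hO
  obtain ⟨G, T, hA⟩ := hAsg hO
  haveI := hO.wf
  let ext : ∀ γ : Ω, (∀ β, β < γ → StrongDual 𝕜 (V K)) → Ω → StrongDual 𝕜 (V K) :=
    fun γ r β => if h : β < γ then r β h else 0
  let F : ∀ γ : Ω, (∀ β, β < γ → StrongDual 𝕜 (V K)) → StrongDual 𝕜 (V K) := fun γ r =>
    if γ ∈ G then Classical.epsilon fun ξ => Corr K (ext γ r) (Set.Iio γ) γ (T γ) ξ
    else ev K (Finsupp.single γ 1)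
  let x : Ω → StrongDual 𝕜 (V K) := (wellFounded_lt (α := Ω)).fix F
  have hx : ∀ γ, x γ = F γ fun β _ => x β := fun γ => WellFounded.fix_eq _ _ _
  have himg : ∀ γ, (ext γ fun β _ => x β) '' Set.Iio γ = x '' Set.Iio γ := fun γ =>
    Set.image_congr fun β hβ => dif_pos hβ
  have hF : ∀ γ, Form K G T x γ := by
    intro γ
    induction γ using WellFoundedLT.induction with
    | ind γ ih =>
      refine ⟨fun h => ?_, fun h => ?_⟩
      · rw [hx]; exact if_neg h
      · have h1 : Apx K x (Set.Iio γ) := hCor G T hA x _ (isLowerSet_Iio γ) ih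
        obtain ⟨ξ, hξ⟩ := rec_exists K (hA.2.1 γ h).1 (hA.2.1 γ h).2 h1
        have h2 : x γ = Classical.epsilon fun ξ =>
            Corr K (ext γ fun β _ => x β) (Set.Iio γ) γ (T γ) ξ := by
          rw [hx]; exact if_pos h
        rw [h2]
        exact rec_congr K (himg γ)
          (Classical.epsilon_spec (p := fun ξ =>
            Corr K (ext γ fun β _ => x β) (Set.Iio γ) γ (T γ) ξ) ⟨ξ, rec_congr K (himg γ).symm hξ⟩)
  have hval : ∀ γ β, γ ≤ β → x γ (toV K (Finsupp.single β 1)) = (Finsupp.single β (1 : 𝕜)) γ := by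
    intro γ
    induction γ using WellFoundedLT.induction with
    | ind γ ih =>
      intro β hβ
      by_cases h : γ ∈ G
      · obtain ⟨D, -, h2, h3⟩ := (hF γ).2 h
        have h4 : ∀ l, pr (T γ l) (Finsupp.single β (1 : 𝕜)) = 0 := fun l =>
          pr_eq_zero fun α hα hα' => by
            have h5 := (hA.2.1 γ h).2 l α hα
            rw [Finset.mem_singleton.1 (Finsupp.support_single_subset hα')] at h5
            exact absurd h5 (not_lt.2 hβ)
        have h5 : ∀ ξ ∈ Spn x (Set.Iio γ), ξ (toV K (Finsupp.single β 1)) = 0 := by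
          intro ξ hξ
          induction hξ using Submodule.span_induction with
          | mem ξ hξ =>
            obtain ⟨δ, hδ, rfl⟩ := hξ
            have hδ' : δ < β := lt_of_lt_of_le hδ hβ
            rw [ih δ hδ β hδ'.le, Finsupp.single_eq_of_ne hδ'.ne]
          | zero => rfl
          | add a b _ _ ha hb => rw [add_apply, ha, hb, add_zero]
          | smul c a _ ha => rw [smul_apply, ha, smul_zero]
        have h6 : ∀ l, D l (toV K (Finsupp.single β 1)) = 0 := fun l => by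
          have := h5 _ (h2 l)
          rwa [add_apply, ev_apply, h4, zero_add] at this
        rw [h3]
        simp [h4, h6]
      · rw [(hF γ).1 h]; simp
  refine ⟨x, fun γ β h => ?_, fun γ => ?_, fun D hD => hCor G T hA x D hD fun γ _ => hF γ,
    fun τ hτ => ?_⟩
  · rw [hval γ β h.le, Finsupp.single_eq_of_ne h.ne]
  · rw [hval γ γ le_rfl, Finsupp.single_eq_same]
  · obtain ⟨γ, hγ, rfl⟩ := hA.2.2 τ hτ
    obtain ⟨D, h1, h2, h3⟩ := (hF γ).2 hγ
    exact ⟨γ, D, h1, fun l => Submodule.span_mono (Set.image_mono (Set.subset_univ _)) (h2 l), h3⟩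

end

end Crest.Agent.R114
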