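import Crest.Agent.R114.TasksF

/-! Row 114, part F: the task RED1. -/

set_option autoImplicit false

namespace Crest.Agent.R114

open Filter Topology Finset

noncomputable section

lemma fin_of_dual (𝕜 : Type) [RCLike 𝕜] (E : Type) [NormedAddCommGroup E] [NormedSpace 𝕜 E]
    [FiniteDimensional 𝕜 (StrongDual 𝕜 E)] : FiniteDimensional 𝕜 E := by
  have h : FiniteDimensional 𝕜 (StrongDual 𝕜 (StrongDual 𝕜 E)) := inferInstance
  exact FiniteDimensional.of_injective (V₂ := StrongDual 𝕜 (StrongDual 𝕜 E))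
    (NormedSpace.inclusionInDoubleDualLi (E := E) 𝕜).toLinearMap
    (NormedSpace.inclusionInDoubleDualLi (E := E) 𝕜).injective

theorem red1_proof (𝕜 : Type) [RCLike 𝕜] : Red1Stmt 𝕜 := by
  intro X _ _ M hM hsep hinf
  haveI := hM
  let L : StrongDual 𝕜 (X ⧸ M) →ₗ[𝕜] StrongDual 𝕜 X :=
    { toFun := fun φ => φ.comp M.mkQL
      map_add' := fun a b => by ext ξ; simp
      map_smul' := fun a b => by ext ξ; simp }
  have hL : ∀ φ ξ, L φ ξ = φ (Submodule.Quotient.mk ξ) := fun _ _ => rfl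
  have hinj : Function.Injective L := by
    intro a b hab
    refine ContinuousLinearMap.ext fun q => ?_
    obtain ⟨ξ, rfl⟩ := Submodule.Quotient.mk_surjective M q
    rw [← hL, ← hL, hab]
  choose d hd using fun n =>
    Submodule.Quotient.mk_surjective M (TopologicalSpace.denseSeq (X ⧸ M) n)
  refine ⟨LinearMap.range L, d, fun hfin => hinf ?_, fun w C hw hC hwd ξ => ?_⟩
  · haveI : FiniteDimensional 𝕜 (StrongDual 𝕜 (X ⧸ M)) :=
      Module.Finite.equiv (LinearEquiv.ofInjective L hinj).symm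
    exact fin_of_dual 𝕜 (X ⧸ M)
  · have hC0 : 0 ≤ C := (norm_nonneg _).trans (hC 0)
    rw [Metric.tendsto_atTop]
    intro ε hε
    have hδ : 0 < ε / (2 * (C + 1)) := by positivity
    obtain ⟨n, hn⟩ := (TopologicalSpace.denseRange_denseSeq (X ⧸ M)).exists_dist_lt
      (Submodule.Quotient.mk ξ) hδ
    obtain ⟨η, hη, hηn⟩ := Submodule.Quotient.norm_mk_lt
      ((Submodule.Quotient.mk ξ : X ⧸ M) - TopologicalSpace.denseSeq (X ⧸ M) n) hδ
    rw [dist_eq_norm] at hn
    refine ⟨n + 1, fun k hk => ?_⟩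
    obtain ⟨φ, hφ⟩ := hw k
    have h1 : w k ξ = w k η := by
      have h2 := hwd k n hk
      rw [← hφ, hL] at h2 ⊢
      rw [hL, hη, map_sub, ← hd n, h2, sub_zero]
    rw [dist_zero_right, h1]
    have h3 : ‖η‖ ≤ ε / (C + 1) := by
      have : ε / (C + 1) = ε / (2 * (C + 1)) + ε / (2 * (C + 1)) := by field_simp; ring
      linarith
    calc ‖w k η‖ ≤ C * (ε / (C + 1)) :=
          ((w k).le_opNorm η).trans (mul_le_mul (hC k) h3 (norm_nonneg _) hC0)
      _ < (C + 1) * (ε / (C + 1)) := mul_lt_mul_of_pos_right (by linarith) (by positivity)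
      _ = ε := by field_simp

end

end Crest.Agent.R114
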