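import Crest.Agent.R114.TasksF

/-! Row 114, part F: the task RED3. -/

set_option autoImplicit false

namespace Crest.Agent.R114

open Filter Topology Finset

noncomputable section

variable {𝕜 : Type} [RCLike 𝕜] {Ω : Type} [LinearOrder Ω] (K : Core 𝕜 Ω)

lemma r3_geom (s : Finset ℕ) (k : ℕ) (h : ∀ i ∈ s, k ≤ i) :
    ∑ i ∈ s, (1 / 2 : ℝ) ^ i ≤ 2 * (1 / 2) ^ k := by
  have h1 : ∀ N, ∑ i ∈ Ico k (k + N), (1 / 2 : ℝ) ^ i = 2 * (1 / 2) ^ k - 2 * (1 / 2) ^ (k + N) := by
    intro N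
    induction N with
    | zero => simp
    | succ N ih =>
      rw [← add_assoc, Finset.sum_Ico_succ_top (Nat.le_add_right k N), ih, pow_succ]; ring
  have h2 : s ⊆ Ico k (k + (s.sup id + 1)) := fun i hi =>
    Finset.mem_Ico.2 ⟨h i hi, by have := Finset.le_sup (f := id) hi; simp only [id] at this; omega⟩
  refine (Finset.sum_le_sum_of_subset_of_nonneg h2 fun _ _ _ => by positivity).trans ?_
  rw [h1]
  have : (0 : ℝ) ≤ 2 * (1 / 2) ^ (k + (s.sup id + 1)) := by positivity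
  linarith

lemma r3_coef {z : ℕ → Ω →₀ 𝕜} (hz : ∀ i j, i < j → Lt (z i) (z j)) (s : Finset ℕ) (a : ℕ → 𝕜)
    {i : ℕ} (hi : i ∈ s) : ‖a i‖ * K.p (z i) ≤ K.p (∑ j ∈ s, a j • z j) := by
  let E : Set Ω := {α | (∃ β ∈ (z i).support, β ≤ α) ∧ ∃ β ∈ (z i).support, α ≤ β}
  have hE : E.OrdConnected := ⟨fun α hα β hβ γ hγ => by
    obtain ⟨b, hb, hbα⟩ := hα.1
    obtain ⟨b', hb', hβb⟩ := hβ.2
    exact ⟨⟨b, hb, hbα.trans hγ.1⟩, b', hb', hγ.2.trans hβb⟩⟩
  have h := K.restr_le E hE (∑ j ∈ s, a j • z j)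
  rw [restr_sum, Finset.sum_eq_single_of_mem i hi, restr_smul,
    restr_eq_self (E := E) (f := z i) fun α hα => ⟨⟨α, hα, le_rfl⟩, α, hα, le_rfl⟩,
    map_smul_eq_mul] at h
  · exact h
  · intro j _ hji
    rw [restr_smul]
    have : restr E (z j) = 0 := by
      ext α
      by_contra hne
      obtain ⟨h1, ⟨b, hb, hbα⟩, b', hb', hαb⟩ :=
        mem_support_restr.1 (Finsupp.mem_support_iff.2 hne)
      rcases lt_or_gt_of_ne hji with hlt | hlt
      · exact absurd (hz j i hlt α h1 b hb) (not_lt.2 hbα)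
      · exact absurd (hz i j hlt b' hb' α h1) (not_lt.2 hαb)
    rw [this, smul_zero]

lemma r3_p_le {x : Ω → StrongDual 𝕜 (V K)} (hl : Loc K x) (z : Ω →₀ 𝕜) :
    K.p z ≤ 8 * ‖JJ x z‖ := by
  obtain ⟨ξ, hξ, h2, h4⟩ := (hl Set.univ isLowerSet_univ).2 z fun _ _ => trivial
  obtain ⟨ζ, rfl⟩ := exists_val_of_Spn x hξ
  rw [(val x).norm_map] at h2
  have h := (JJ x z).le_opNorm ζ
  rw [JJ_apply] at h
  have := mul_le_mul_of_nonneg_left h2 (norm_nonneg (JJ x z))
  linarith

theorem red3_proof : Red3Stmt K := by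
  intro x hx hl Y d hw ⟨D, Y', c, y, z, hD, hY', hc, hB, hy, hyd, hyz, hdisj, hlt, hp⟩
  have hblock : Block fun i => restr D (z i) := ⟨hlt, fun i h0 => by
    have := hp i
    simp only at h0
    rw [h0, map_zero] at this
    linarith⟩
  obtain ⟨u, C, τ, hτS, hu, hC, hτ, hnot⟩ := K.main _ hblock
  choose s a hs hua using fun k => mem_Tl.1 (hu k)
  have hC0 : 0 ≤ C := (apply_nonneg K.p _).trans (hC 0)
  set A := 2 * C / c with hA
  have hA0 : 0 ≤ A := by positivity
  have ha : ∀ k, ∀ i ∈ s k, ‖a k i‖ ≤ A := by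
    intro k i hi
    have h1 := r3_coef K hlt (s k) (a k) hi
    rw [← hua k] at h1
    have h2 := mul_le_mul_of_nonneg_left (hp i) (norm_nonneg (a k i))
    rw [hA, le_div_iff₀ hc]
    linarith [hC k]
  let u' : ℕ → Ω →₀ 𝕜 := fun k => ∑ i ∈ s k, a k i • z i
  let w : ℕ → StrongDual 𝕜 (XS x) := fun k => ∑ i ∈ s k, a k i • y i
  have huu : ∀ k, restr D (u' k) = u k := fun k => by
    rw [hua k, restr_sum]
    exact Finset.sum_congr rfl fun i _ => restr_smul _ _ _
  have hwY : ∀ k, w k ∈ Y' := fun k =>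
    Submodule.sum_mem _ fun i _ => Submodule.smul_mem _ _ (hy i)
  have hwJ : ∀ k, ‖w k - JJ x (u' k)‖ ≤ A * (2 * (1 / 2) ^ k) := by
    intro k
    have e : w k - JJ x (u' k) = ∑ i ∈ s k, a k i • (y i - JJ x (z i)) := by
      rw [← JL_apply, map_sum, ← Finset.sum_sub_distrib]
      exact Finset.sum_congr rfl fun i _ => by rw [map_smul, smul_sub, JL_apply]
    rw [e]
    refine (norm_sum_le _ _).trans ?_
    refine le_trans (Finset.sum_le_sum fun i hi => ?_)
      ((Finset.mul_sum _ _ A).symm.le.trans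
        (mul_le_mul_of_nonneg_left (r3_geom (s k) k (hs k)) hA0))
    rw [norm_smul]
    exact mul_le_mul (ha k i hi) (hyz i) (norm_nonneg _) hA0
  have hwJ' : ∀ k, ‖w k - JJ x (u' k)‖ ≤ 2 * A := fun k => by
    have h1 : (1 / 2 : ℝ) ^ k ≤ 1 := pow_le_one₀ (by norm_num) (by norm_num)
    nlinarith [hwJ k]
  have hwB : ∀ k, ‖w k‖ ≤ (C + 2 * A) / c := by
    intro k
    rw [le_div_iff₀ hc, mul_comm]
    refine hB _ (hwY k) _ (by positivity) fun ξ hξ => ?_
    have e : w k ξ = (w k - JJ x (u' k)) ξ + val x ξ (toV K (u k)) := by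
      rw [ContinuousLinearMap.sub_apply, JJ_apply, (hl D hD).1 _ hξ (u' k), huu, sub_add_cancel]
    rw [e]
    have h1 := (w k - JJ x (u' k)).le_opNorm ξ
    have h2 := le_opNorm K (val x ξ) (u k)
    rw [(val x).norm_map] at h2
    have h3 := mul_le_mul_of_nonneg_right (hwJ' k) (norm_nonneg ξ)
    have h4 := mul_le_mul_of_nonneg_left (hC k) (norm_nonneg ξ)
    refine (norm_add_le _ _).trans ?_
    linarith
  have hw0 := hw w _ (fun k => hY' (hwY k)) hwB fun k n hn => by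
    simp only [w, ContinuousLinearMap.sum_apply, ContinuousLinearMap.smul_apply]
    exact Finset.sum_eq_zero fun i hi => by rw [hyd i n (hn.trans_le (hs k i hi)), smul_zero]
  have hnull : ∀ ξ ∈ Spn x Set.univ, Tendsto (fun k => ξ (toV K (u' k))) atTop (𝓝 0) := by
    intro ξ hξ
    obtain ⟨ζ, rfl⟩ := exists_val_of_Spn x hξ
    have h1 : Tendsto (fun k => (w k - JJ x (u' k)) ζ) atTop (𝓝 0) := by
      have h2 : Tendsto (fun k : ℕ => A * (2 * (1 / 2 : ℝ) ^ k) * ‖ζ‖) atTop (𝓝 0) := by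
        have := ((tendsto_pow_atTop_nhds_zero_of_lt_one (r := (1 / 2 : ℝ)) (by norm_num)
          (by norm_num)).const_mul 2).const_mul A |>.mul_const ‖ζ‖
        simpa using this
      refine squeeze_zero_norm (fun k => ?_) h2
      exact ((w k - JJ x (u' k)).le_opNorm ζ).trans
        (mul_le_mul_of_nonneg_right (hwJ k) (norm_nonneg _))
    have h3 := (hw0 ζ).sub h1
    rw [sub_zero] at h3
    refine h3.congr fun k => ?_
    rw [ContinuousLinearMap.sub_apply, JJ_apply, sub_sub_cancel]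
  have hP : ∀ k, K.p (u' k) ≤ 8 * ((C + 2 * A) / c + 2 * A) := by
    intro k
    have h1 := r3_p_le K hl (u' k)
    have h2 : ‖JJ x (u' k)‖ ≤ ‖w k‖ + ‖w k - JJ x (u' k)‖ := by
      simpa using norm_sub_le (w k) (w k - JJ x (u' k))
    linarith [hwB k, hwJ' k]
  have hev : ∀ α, ∀ᶠ k in atTop, u' k α = 0 := by
    intro α
    have : ∃ N, ∀ i, N ≤ i → z i α = 0 := by
      by_cases h : ∃ i, α ∈ (z i).support
      · obtain ⟨i, hi⟩ := h
        refine ⟨i + 1, fun j hj => ?_⟩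
        by_contra hne
        exact Finset.disjoint_left.1 (hdisj i j (by omega)) hi (Finsupp.mem_support_iff.2 hne)
      · exact ⟨0, fun j _ => by
          by_contra hne
          exact h ⟨j, Finsupp.mem_support_iff.2 hne⟩⟩
    obtain ⟨N, hN⟩ := this
    filter_upwards [eventually_ge_atTop N] with k hk
    simp only [u', Finsupp.finsetSum_apply, Finsupp.smul_apply]
    exact Finset.sum_eq_zero fun i hi => by rw [hN i (hk.trans (hs k i hi)), smul_zero]
  have hpr : ∀ f : Ω →₀ 𝕜, ∀ᶠ k in atTop, pr f (u' k) = 0 := by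
    intro f
    filter_upwards [(Filter.eventually_all_finset f.support).2 fun α _ => hev α] with k hk
    rw [pr_apply]
    exact Finset.sum_eq_zero fun α hα => by rw [hk α hα, mul_zero]
  obtain ⟨γ, Dl, hD1, hD2, hD3⟩ := hx.spec τ hτS
  have hDl : ∀ l, Tendsto (fun k => Dl l (toV K (u' k))) atTop (𝓝 0) := by
    intro l
    refine (hnull _ (hD2 l)).congr' ?_
    filter_upwards [hpr (τ l)] with k hk
    rw [ContinuousLinearMap.add_apply, ev_apply, hk, zero_add]
  have hsum : Tendsto (fun k => ∑' l, Dl l (toV K (u' k))) atTop (𝓝 0) := by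
    have := tendsto_tsum_of_dominated_convergence
      (bound := fun l => kap l * (8 * ((C + 2 * A) / c + 2 * A)))
      (summable_kap.mul_right _) hDl (Eventually.of_forall fun k l =>
        (le_opNorm K _ _).trans (mul_le_mul (hD1 l) (hP k) (apply_nonneg _ _) (kap_pos l).le))
    simpa using this
  have hxγ := hnull (x γ) (Submodule.subset_span ⟨γ, trivial, rfl⟩)
  have h1 := (hxγ.const_mul 2).sub hsum
  rw [mul_zero, sub_zero] at h1
  refine hnot (h1.congr' ?_)
  filter_upwards [hev γ] with k hk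
  have e : ∀ l, pr (τ l) (u k) = pr (τ l) (u' k) := fun l => by
    rw [← huu, ← pr_restr, restr_eq_self]
    intro α hα
    obtain ⟨i, β, hβ, hαβ⟩ := hτ l α hα
    exact hD hαβ (mem_support_restr.1 hβ).2
  simp only [e]
  rw [hD3, hk]
  ring

end

end Crest.Agent.R114
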