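import Crest.Agent.R114.AAlpha
import Crest.Agent.R114.ACode
import Crest.Agent.R114.ACore
import Crest.Agent.R114.AExact
import Crest.Agent.R114.AMain
import Crest.Agent.R114.ANum
import Crest.Agent.R114.ARis
import Crest.Agent.R114.ASel
import Crest.Agent.R114.ASpl
import Crest.Agent.R114.ATerm
import Crest.Agent.R114.ATri
import Crest.Agent.R114.ATriA
import Crest.Agent.R114.ATriB
import Crest.Agent.R114.ATriC
import Crest.Agent.R114.AUp
import Crest.Agent.R114.AUpW
import Crest.Agent.R114.FAsg
import Crest.Agent.R114.FCor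
import Crest.Agent.R114.FCut
import Crest.Agent.R114.FDens
import Crest.Agent.R114.FEasy
import Crest.Agent.R114.FHump
import Crest.Agent.R114.FRec
import Crest.Agent.R114.FRed1
import Crest.Agent.R114.FRed3

set_option autoImplicit false

namespace Crest.Agent.R114

variable {𝕜 : Type} [RCLike 𝕜] {Ω : Type} [LinearOrder Ω]

theorem core_of_api (c : Coding 𝕜 Ω) (A : API c) : Nonempty (Core 𝕜 Ω) :=
  core_proof c A (main_proof c (exact_proof c A (alpha_proof c A) (term_proof c A) (ris_proof c)
    (tri_proof c A (triA_proof c A) (trib_proof c A.cost) (triC_proof c A)) sel_proof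
    (up_proof c A (upW_proof c A))))

theorem final_of_core (hO : Om Ω) (K : Core 𝕜 Ω) :
    ∃ (X : Type) (_ : NormedAddCommGroup X) (_ : NormedSpace 𝕜 X),
      CompleteSpace X ∧ ¬ FiniteDimensional 𝕜 X ∧
      ∀ M : Submodule 𝕜 X, IsClosed (M : Set X) →
        TopologicalSpace.SeparableSpace (X ⧸ M) → FiniteDimensional 𝕜 (X ⧸ M) :=
  assembleF K hO (rec_proof K (asg_proof K) (cor_proof K)) (loc_proof K) (dens_proof K)
    (red1_proof 𝕜) (hump_proof K (cut_proof K)) (red3_proof K) (inf_proof K)

end Crest.Agent.R114
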