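import Crest.Agent.R114.TasksF

/-! Row 114, part A: task statements for the combinatorial norm `nrm c`.

Goal: `Concl c z` for every block sequence `z` (`MainStmt`), and the `Core` built from `nrm c`. -/

set_option autoImplicit false

namespace Crest.Agent.R114

open Filter Topology Finset

noncomputable section

/-- **NUM.**  `nn k = 2 ^ aa k`, `aa (k+1) = 2 (aa k)²`, `kap k = 2^(-(k+4))`; `aa k ≥ 2^(k+1)`, even
`aa k / k → ∞`.  `g1`: `kap k ^ 2 * nn k ^ (1-b) = 2 ^ ((1-b) aa k - 2k - 8) → ∞`.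
`g2`: for `k = k'+1` take `b = 1 - 1 / aa k'`; then `nn j ^ (1-b) ≤ nn k' ^ (1-b) = 2` for `j ≤ k'`,
`nn k ^ (1-b) = 2 ^ (2 aa k') = (nn k')²`, `∑_{j<k} nn j + 1 ≤ (k+1) nn k'` and
`M (k+1) 16 · 2^k ≤ nn k'` eventually.  `g3`: `b = 1 - 1/(n+2)` (`n ≤ 2^(n+2)`).
`rpow`: concavity of `t ↦ t^b` (`Real.inner_le_nnorm_mul_nnorm`-type Hölder
`Real.inner_le_Lp_mul_Lq`, or `Real.rpow_arith_mean_le_arith_mean_rpow` with exponent `1/b`, or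
`ConcaveOn.le_map_sum` with `Real.concaveOn_rpow`). -/
structure NumP : Prop where
  g1 : ∀ b M : ℝ, b < 1 → ∀ᶠ k in atTop, M ≤ kap k ^ 2 * (nn k : ℝ) ^ (1 - b)
  g2 : ∀ M : ℝ, ∀ᶠ k in atTop, ∃ b : ℝ, 1 / 2 ≤ b ∧ b < 1 ∧ (∀ j < k, (nn j : ℝ) ^ (1 - b) ≤ 2) ∧
    M * ((∑ j ∈ range k, (nn j : ℝ)) + 1) ≤ kap k * (nn k : ℝ) ^ (1 - b)
  g3 : ∀ n : ℕ, ∃ b : ℝ, 1 / 2 ≤ b ∧ b < 1 ∧ (n : ℝ) ^ (1 - b) ≤ 2
  rpow : ∀ b : ℝ, 0 < b → b ≤ 1 → ∀ (n Q : ℕ) (q : ℕ → ℕ), ∑ r ∈ range n, q r ≤ Q →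
    ∑ r ∈ range n, (q r : ℝ) ^ b ≤ (n : ℝ) ^ (1 - b) * (Q : ℝ) ^ b

/-- **SEL.**  Recursion: having `ι 0 < … < ι (n-1)`, choose `ι n` in the finite intersection of the
`U`-large sets `{i | ι (n-1) < i, N ≤ i}`, `{i | ∀ᶠ i', ∀ᶠ i'', P (ι a) i i' i''}` (`a < n`),
`{i | ∀ᶠ i'', P (ι a) (ι b) i i''}` (`a < b < n`), `{i | P (ι a) (ι b) (ι c) i}` (`a < b < c < n`). -/
def SelStmt : Prop :=
  ∀ (U : Filter ℕ), U.NeBot → U ≤ atTop → ∀ P : ℕ → ℕ → ℕ → ℕ → Prop,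
    (∀ s, ∀ᶠ i in U, ∀ᶠ i' in U, ∀ᶠ i'' in U, P s i i' i'') → ∀ N, ∃ ι : ℕ → ℕ, StrictMono ι ∧
      N ≤ ι 0 ∧ ∀ a b c d, a < b → b < c → c < d → P (ι a) (ι b) (ι c) (ι d)

variable {𝕜 : Type} [RCLike 𝕜] {Ω : Type} [LinearOrder Ω]

/-- **CODE.**  `R0` = `Subfield.closure` of a countable dense set (countable:
`Subfield.cardinalMk_closure_le_max`, or take `{a + b I | a b ∈ ℚ}`), `ix : 𝕜 → ℕ` injective on `R0`;
`e β : Ω → ℕ` injective on `Iio β` (`Om.cnt`); `r : Ω → ℕ → Bool` injective (`#Ω = 𝔠 = 2^ℵ₀`).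
With `U l τ = ⋃_{b<l} supp (τ b).2` put
`size l τ = 1 + ∑_{b<l} (τ b).1 + ∑_{β ∈ U} ∑_{α ∈ U} e β α + ∑_{b<l} ∑_{α ∈ supp (τ b).2} ix ((τ b).2 α)`,
`inv l τ : List (ℕ × Finset (List Bool × ℕ))` = for `b < l` the pair of `(τ b).1` and the image of
`supp (τ b).2` under `α ↦ (List.ofFn fun i : Fin l => r α i, ix ((τ b).2 α))`, and
`code l τ = Nat.pair (size l τ) (Encodable.encode (inv l τ))` (any injection of the countable type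
into `ℕ`).  `gt`, `c3`: `size ≤ code` (`Nat.left_le_pair`); in `c3` the support of `f` lies in the
finite set `{α < β | e β α ≤ v}` and its values in the finite set `{0} ∪ {x ∈ R0 | ix x ≤ v}`.
`c2`: `inv` determines its length and the weights.  `c4`: for `l > b` so large that the prefixes of
length `l` of `r α` separate the points of `supp f ∪ supp f'`. -/
def CodeStmt (𝕜 : Type) [RCLike 𝕜] (Ω : Type) [LinearOrder Ω] : Prop :=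
  Om Ω → Nonempty (Coding 𝕜 Ω)

/-- **SPL** (splitting).  `R i = {r < n | supp (g r) ∩ supp (x i) ≠ ∅}`, `S = {i ∈ I | 2 ≤ #(R i)}`,
`P r = {i ∈ I | R i = {r}}` (pairwise disjoint).  `i ↦ min (R i)` is injective on `S`: if `i < i'`
have the same minimum `r` and `r < r' ∈ R i`, take `α ∈ supp (g r') ∩ supp (x i)`,
`α' ∈ supp (g r) ∩ supp (x i')`; then `α' < α` and `α < α'`.  For `i ∉ S ∪ P r`, `r ∉ R i`. -/
def SplStmt (𝕜 : Type) [RCLike 𝕜] (Ω : Type) [LinearOrder Ω] : Prop :=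
  ∀ (n : ℕ) (g x : ℕ → Ω →₀ 𝕜) (I : Finset ℕ), Succ g n →
    (∀ i ∈ I, ∀ j ∈ I, i < j → Lt (x i) (x j)) →
    ∃ (S : Finset ℕ) (P : ℕ → Finset ℕ), S ⊆ I ∧ S.card ≤ n ∧ (∀ r, P r ⊆ I) ∧
      ∑ r ∈ range n, (P r).card ≤ I.card ∧
      ∀ r < n, pr (g r) (∑ i ∈ I, x i) = pr (g r) (∑ i ∈ P r, x i) + ∑ i ∈ S, pr (g r) (x i)

variable (c : Coding 𝕜 Ω)

/-- **COST.**  `WW_ind` with `P = {(j, f) | l2 f ≤ kap j ∧ ∀ α, f α ∈ R0}`.  For any `A ⊆ P`: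
`Two c A J h` gives `l2 h ≤ ∑ r, ‖lam r‖ ∑_{l ∈ idx r} kap (w l) ≤ ∑_{w ∈ Ico J K} kap w ≤ 2 kap J`
(triangle inequality for `l2`, `l2 (restr E f) ≤ l2 f`, `Sp.injOn`, disjoint `wts`, `sum_kap_Ico`).
For successive (so disjointly supported) `g r`: `l2 (∑ lam r • g r)² = ∑ ‖lam r‖² l2 (g r)²`.
Type B: `≤ 1`.  Type A: `≤ ∑ r, (2 kap r)² ≤ 1` as `r ≤ gr g r`. -/
structure CostP : Prop where
  ww_l2 : ∀ j f, (j, f) ∈ WW c → l2 f ≤ kap j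
  ww_val : ∀ j f, (j, f) ∈ WW c → ∀ α, f α ∈ c.R0
  two_l2 : ∀ J h, Two c (WW c) J h → l2 h ≤ 2 * kap J
  w_l2 : ∀ g, W c g → l2 g ≤ 1

/-- **NRM** (uses Cost).  The set in `nrm` is nonempty (`W_zero`) and bounded by `l2 z`
(`norm_pr_le`).  `coord`: `single α 1` is `Base`.  `restr_le`: `pr_restr`, `Wof.restr`.
`normer`, `rot`: (`t < 0`: take `0`) restrict to the interval
`{α | (∃ β ∈ supp z, β ≤ α) ∧ ∃ β ∈ supp z, α ≤ β}` and multiply (`Wof.smul`, `Two.smul`) by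
`a ∈ R0`, `‖a‖ < 1`, close to `conj (pr g z) / ‖pr g z‖` (`c.dense`; the open ball is open and its
closure contains the unit sphere).  `lowB`: for `lam r ∈ R0`, `∑‖lam r‖² ≤ 1` and `normer`s `g r` of
`b r` (successive by `Lt.hull`), `(j, kap j • ∑ lam r • g r) ∈ Step c (WW c) = WW c`, so
`kap j * ‖∑ lam r * pr (g r) (b r)‖ ≤ nrm (∑ b)`; the open set `{lam | ∑‖lam r‖² < 1}` has dense
`R0`-points, so this holds for all `lam` in the closed `ℓ²` ball; optimise. -/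
structure NrmP : Prop where
  pr_le : ∀ g z, W c g → ‖pr g z‖ ≤ nrm c z
  le_of : ∀ z t, (∀ g, W c g → ‖pr g z‖ ≤ t) → nrm c z ≤ t
  nonneg : ∀ z, 0 ≤ nrm c z
  add_le : ∀ y z, nrm c (y + z) ≤ nrm c y + nrm c z
  smul : ∀ (a : 𝕜) z, nrm c (a • z) = ‖a‖ * nrm c z
  coord : ∀ z α, ‖z α‖ ≤ nrm c z
  restr_le : ∀ E : Set Ω, E.OrdConnected → ∀ z, nrm c (restr E z) ≤ nrm c z
  normer : ∀ z t, t < nrm c z → ∃ g, W c g ∧ Hull g z ∧ t < RCLike.re (pr g z)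
  rot : ∀ J h z t, Two c (WW c) J h → t < ‖pr h z‖ →
    ∃ h', Two c (WW c) J h' ∧ Hull h' z ∧ t < RCLike.re (pr h' z)
  lowB : ∀ j (b : ℕ → Ω →₀ 𝕜), Succ b (nn j) →
    kap j ^ 2 * ∑ i ∈ range (nn j), nrm c (b i) ^ 2 ≤ nrm c (∑ i ∈ range (nn j), b i) ^ 2

/-- **ROW** (uses Nrm).  `l2row`: reindex `s` by `ℕ`; for `lam r ∈ R0`, `∑‖lam r‖² ≤ 1` the sum
`∑ lam r • seg` is in `Two 0`, so `‖∑ lam r * pr seg z‖ ≤ nrm z`; density of `R0`, optimise.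
`terms`: `(w l, restr E f l) ∈ WW` (`WW_restr`); `(r, l) ↦ w` is injective on the index set
(`Sp.injOn`, disjoint `wts`), so the double sum is `≤ ∑_{w ∈ ⋃ wts} A w ≤ B`.
`decomp`: `h = ∑ lam r • ((ρ r).cut K (ρ r).hi).seg`; the difference is
`∑ r, lam r * ∑_{l ∈ (cut 0 K).idx} …`; `terms` for the rows `cut 0 K`. -/
structure RowP : Prop where
  l2row : ∀ (ι : Type) (s : Finset ι) (ρ : ι → Row 𝕜 Ω) (z : Ω →₀ 𝕜),
    (∀ r ∈ s, (ρ r).OK c (WW c)) → (∀ r ∈ s, ∀ r' ∈ s, r ≠ r' → Disjoint (ρ r).wts (ρ r').wts) →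
    ∑ r ∈ s, ‖pr (ρ r).seg z‖ ^ 2 ≤ nrm c z ^ 2
  terms : ∀ (s : Finset ℕ) (ρ : ℕ → Row 𝕜 Ω) (z : ℕ → Ω →₀ 𝕜) (A : ℕ → ℝ) (B : ℝ),
    (∀ r ∈ s, (ρ r).OK c (WW c)) → (∀ r ∈ s, ∀ r' ∈ s, r ≠ r' → Disjoint (ρ r).wts (ρ r').wts) →
    (∀ w, 0 ≤ A w) → (∀ K, ∑ w ∈ range K, A w ≤ B) →
    (∀ r ∈ s, ∀ w ∈ (ρ r).wts, ∀ f, (w, f) ∈ WW c → ‖pr f (z w)‖ ≤ A w) →
    ∑ r ∈ s, ∑ l ∈ (ρ r).idx, ‖pr (restr (ρ r).E ((ρ r).τ l).2) (z ((ρ r).τ l).1)‖ ≤ B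
  decomp : ∀ g, Two c (WW c) 0 g → ∀ K, ∃ h, Two c (WW c) K h ∧ ∀ (z : Ω →₀ 𝕜) (C : ℝ), 0 ≤ C →
    (∀ w < K, ∀ f, (w, f) ∈ WW c → ‖pr f z‖ ≤ kap w * C) → ‖pr g z - pr h z‖ ≤ C / 8

/-- everything elementary. -/
structure API : Prop where
  num : NumP
  spl : SplStmt 𝕜 Ω
  cost : CostP c
  nrm : NrmP c
  row : RowP c

/-- far out in the span of `z`, functionals of large weight see a `δ` part of the norm. -/
def Alpha (z : ℕ → Ω →₀ 𝕜) (δ : ℝ) : Prop :=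
  ∀ N J, ∃ x ∈ Tl z N, ∃ h, nrm c x ≤ 1 ∧ Two c (WW c) J h ∧ δ < ‖pr h x‖

/-- **ALPHA** (uses API).  Otherwise for each `δ > 0` there are `N, J` with `‖pr h x‖ ≤ δ nrm x` for all
`x ∈ Tl z N`, `h ∈ Two J` (scale).  `δ = 1/8`: `N0, J0`; `n' = nn J0`; `δ = 1/n'`: `N1, J1`;
`N = max N0 N1`; `b` from `g3 n'`; `M = max (n'², J1, 2)`; `j` with `M² ≤ kap j ^2 * nn j ^ (1-b)` (`g1`).
`x i = (nrm (z (N+i)))⁻¹ • z (N+i)`, `x_I = ∑_{i ∈ I} x i`.  Let `I0` maximise `nrm (x_I)² / #I ^ b` over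
nonempty `I ⊆ range (nn j)`, value `R2 ≥ kap j ^2 * nn j ^ (1-b) ≥ M²` (`lowB`); `y = x_{I0}`,
`P = nrm y ≥ M`, all coordinates of `y` have norm `≤ 1`.  Claim: `‖pr f y‖ ≤ kap w * (3P)` for
`(w, f) ∈ WW`, `w < J0` (unfold by `Step_WW`; `nn w ≤ n'`).  Type B: `spl`, Cauchy-Schwarz, `rpow`:
`∑‖lam r‖ nrm (x_{P r}) ≤ √(R2 · 2 · #I0^b) = √2 P`, split terms `≤ n'² ≤ P`.  Type A: the `r` with
`J1 ≤ gr g r` contribute `≤ n' · P/n'`; `gr g` is strictly increasing, let `r0` be the largest `r`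
with `gr g r < J1`: `r0` contributes `≤ P`, and `r < r0` contribute
`≤ ∑_{r<r0} #supp (g r) < J1 ≤ P` (`‖g r α‖ ≤ l2 ≤ 1`).  Now let `g ∈ W`.  `Base`: `‖pr g y‖ ≤ 1 ≤ P/2`.
`Two 0`: `decomp` with `K = J0` gives `‖pr g y‖ ≤ P/8 + 3P/8`.  So `P ≤ P/2`, absurd. -/
def AlphaStmt : Prop := ∀ z, Block z → ∃ δ, 0 < δ ∧ Alpha c z δ

/-- one term of a rapidly increasing sequence. -/
def Term (z : ℕ → Ω →₀ 𝕜) : Prop :=
  ∀ N J n, ∃ y ∈ Tl z N, ∃ h, Avg c n 6 y ∧ Two c (WW c) J h ∧ Hull h y ∧ 1 < RCLike.re (pr h y)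

/-- **TERM** (uses API).  `n' = max n (nn J)`, `b` from `g3 n'`, `M = n'² + 2`, `j` with
`M ≤ δ kap j * nn j ^ (1-b)` (`g1`, `kap ≤ 1`).  Recursion (`Alpha`, `rot`, `Block.between`): successive
`x i ∈ Tl z N`, `nrm (x i) ≤ 1`, `h i ∈ Two (gr h i)`, `Hull (h i) (x i)`, `δ < re (pr (h i) (x i))`.
`WW_typeA`, `W_of_WW`: `nrm (∑_{i < nn j} x i) ≥ kap j δ nn j`.  Let `I0` maximise `nrm (x_I) / #I ^ b` over
nonempty `I ⊆ range (nn j)`, value `R ≥ M`; `y0 = x_{I0}`, `P = nrm y0 = R #I0^b ≥ M`.  `spl` + `rpow`: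
for successive `g r ∈ W`, `r < n'`: `∑‖pr (g r) y0‖ ≤ R ∑ #(P r)^b + n'² ≤ 2P + P`: `Avg n' (3P) y0`.
A `g ∈ W` with `‖pr g y0‖ > (7/8) P` is not `Base` (coordinates of `y0` are `≤ 1`); `decomp` with `K = J`,
`C = 3P` (`Avg.ww`) gives `h ∈ Two J` with `‖pr h y0‖ > P/2`.  `y = (2/P) • y0`, `rot`, `Avg.mono`. -/
def TermStmt : Prop := ∀ z δ, Block z → 0 < δ → Alpha c z δ → Term c z

/-- rapidly increasing sequence. -/
structure RIS (z y : ℕ → Ω →₀ 𝕜) (J : ℕ → ℕ) (h : ℕ → Ω →₀ 𝕜) : Prop where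
  mem : ∀ i, y i ∈ Tl z i
  block : Block y
  mono : StrictMono J
  avg : ∀ i, Avg c (nn (J i)) 6 (y i)
  grow : ∀ i, l2 (y i) * kap (J (i + 1)) ≤ (1 / 2) ^ (i + 2)
  two : ∀ i, Two c (WW c) (gr h i) (h i)
  hull : ∀ i, Hull (h i) (y i)
  one : ∀ i, 1 < RCLike.re (pr (h i) (y i))

/-- **RIS.**  Recursion on `i` (state: `N i ≥ i`, `J i`, `gr h i`), `Term` with `(N i, gr h i, nn (J i))`,
`Block.between` for `N (i+1)`, `kap → 0` for `J (i+1)`; `y i ≠ 0` since `1 < re (pr (h i) (y i))`. -/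
def RisStmt : Prop := ∀ z, Block z → Term c z → ∃ y J h, RIS c z y J h

/-- the conclusion needed for `Core.main`. -/
def Concl (z : ℕ → Ω →₀ 𝕜) : Prop :=
  ∃ (u : ℕ → Ω →₀ 𝕜) (C : ℝ) (τ : ℕ → ℕ × (Ω →₀ 𝕜)), (∀ L, Sp c (WW c) τ L) ∧
    (∀ k, u k ∈ Tl z k) ∧ (∀ k, nrm c (u k) ≤ C) ∧
    (∀ l, ∀ α ∈ (τ l).2.support, ∃ i, ∃ β ∈ (z i).support, α ≤ β) ∧
    ¬ Tendsto (fun k => ∑' l, pr (τ l).2 (u k)) atTop (𝓝 0)

variable {c} in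
/-- the action on `y i` of the terms of `ρ` with weight in the window `[J i, J (i+1))`. -/
def win (y : ℕ → Ω →₀ 𝕜) (J : ℕ → ℕ) (ρ : Row 𝕜 Ω) (i : ℕ) : 𝕜 :=
  pr (ρ.cut (J i) (J (i + 1))).seg (y i)

/-- **TRIA** (uses API; counting).  Let `V0` be the set of all such values `(ρ.τ l0).1`.  For a finite
`T ⊆ V0` choose rows `ρ v`, indices `l0 v`.  The rows `(ρ v).cut a b` have disjoint `wts`: an index
`l` of weight `≥ a` has `l ≥ l0 > 0` (`Sp.lt`), so its weight is `code l τ`; a common weight gives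
(`c2`) `l = l'` and equal weights below `l` (and at `l`), so `l0 = l0'` (the first index of weight
`≥ a`) and `v = v'`.  `l2row`: `#T ε² ≤ C²`.  So `V0` is finite of cardinality `≤ ⌈C²/ε²⌉`; enumerate
it (`Q` = that bound, `Finset.equivFin`/`orderEmbOfFin`/`toList.getD`). -/
def TriAStmt : Prop :=
  ∀ C ε : ℝ, 0 < ε → ∃ Q : ℕ, ∀ (y : Ω →₀ 𝕜) (a b : ℕ), nrm c y ≤ C → ∃ v : Fin Q → ℕ,
    ∀ (ρ : Row 𝕜 Ω) (l0 : ℕ), ρ.OK c (WW c) → l0 + 1 < ρ.L → (ρ.τ l0).1 < a →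
      a ≤ (ρ.τ (l0 + 1)).1 → ε < ‖pr (ρ.cut a b).seg y‖ → ∃ q, (ρ.τ (l0 + 1)).1 = v q

/-- hypothesis of the stabilisation lemma. -/
def Good (Φ : ℕ → (ℕ → ℕ × (Ω →₀ 𝕜)) → ℕ → Prop) (B : ℕ → Finset Ω) (J v : ℕ → ℕ)
    (i i' i'' : ℕ) : Prop :=
  ∃ τ L a0 a, Sp c (WW c) τ L ∧ Φ i τ L ∧ a0 < a ∧ a < L ∧ J i' ≤ (τ a0).1 ∧
    (τ a0).1 < J (i' + 1) ∧ (∃ β ∈ B i', β ∈ (τ a0).2.support) ∧ (τ a).1 = v i''

/-- **TRIB** (uses Cost; stabilisation).  Call `(i, i')` good if `∀ᶠ i'' in U, Good i i' i''`; for `U`-many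
`i` there are `U`-many (so arbitrarily large) `i'` with `(i, i')` good.  By `c2` the number
`v i'' = code a τ` determines `a = A i''` and the weights `ω i'' b = (τ b).1`, `b ≤ a` (define them by
choice).  (W) For every `b` there is `cw b` with `∀ᶠ i'', b < A i'' ∧ ω i'' b = cw b`: strong induction;
take a good pair with `J i' > cw b'` for all `b' < b`; for `U`-many `i''` the witness has `a0 ≥ b`, so
`b < a` and `ω i'' b ≤ (τ a0).1 < J (i'+1)` is bounded, and a bounded function is constant on a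
`U`-large set (`Ultrafilter.finite_biUnion_mem_iff`/`eventually_exists_iff`/`Ultrafilter.eventually_exists_mem_iff`).
`cw` is strictly increasing.  (E) For a good pair: `a0 ≤ (τ a0).1 < J (i'+1)` (`Sp.le_wt`) and `β ∈ B i'`
take finitely many values, stabilise them; `code (a0+1) τ = (τ (a0+1)).1 = cw (a0+1)` for `U`-many
`i''`; by `c3` (`ww_val`) each `(τ b).2`, `b < a0`, lies in a fixed finite set; stabilise: there are
`a0`, `σ` with `cw a0 ∈ [J i', J (i'+1))` and for `U`-many `i''` a witness `τ, L` with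
`∀ b < a0, τ b = σ b`, `(τ a0).1 = cw a0`, `code (A i'') τ = v i''`.  (C) For two good pairs and
`b < a0, a0'`: `σ b = σ' b` (weights are `cw b`; `c4` with `l = A i''`, which is `≥ N` for `U`-many `i''`).
(∞) `τ∞ b = σ b` for a good pair with `a0 > b` (`J i' > cw b`).  `Sp.le`, `Sp.congr` give
`Sp τ∞ L`; `(τ∞ b).1 = cw b`.  For `i` take a good pair with `i' > i`. -/
def TriBStmt : Prop :=
  ∀ (U : Ultrafilter ℕ), (U : Filter ℕ) ≤ atTop →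
    ∀ (Φ : ℕ → (ℕ → ℕ × (Ω →₀ 𝕜)) → ℕ → Prop) (B : ℕ → Finset Ω) (J v : ℕ → ℕ), StrictMono J →
    (∀ᶠ i in U, ∀ᶠ i' in U, ∀ᶠ i'' in U, Good c Φ B J v i i' i'') →
    ∃ σ : ℕ → ℕ × (Ω →₀ 𝕜), (∀ L, Sp c (WW c) σ L) ∧ ∀ᶠ i in U, ∃ τ L a0, Sp c (WW c) τ L ∧
      Φ i τ L ∧ a0 < L ∧ (∀ b < a0, τ b = σ b) ∧ (τ a0).1 = (σ a0).1 ∧ J (i + 1) ≤ (σ a0).1

/-- **TRIC** (uses API).  `u = y`, `C = 6` (`Avg.norm_pr_le`, `le_of`).  Write `f l = (σ l).2`,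
`w l = (σ l).1` (strictly increasing, `l ≤ w l`).  Support clause: for `l` take a big `i` with
`J i > w l`; some `l'` in the window has `pr (f l') (y i) ≠ 0`, `l < l'`, so `f l` lies below a point of
`supp (y i) ⊆ ⋃ supp (z _)`.  For a big `i` with its `a`: the series `∑' l, pr (f l) (y i)` is absolutely
summable (`‖pr (f l) (y i)‖ ≤ kap (w l) l2 (y i)`); terms with `w l ≥ J (i+1)` (among them all `l ≥ a`)
sum to at most `2 kap (J (i+1)) l2 (y i) ≤ 2⁻¹^(i+1)`; terms with `w l < J i`: those with `l < l1`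
vanish for large `i` (a finite set meets only finitely many `supp (y i)`), the others are
`≤ ∑_{l ≥ l1} 6 kap l` (`Avg.ww`, `nn_mono`).  So `‖∑' …‖ ≥ ε/2` for infinitely many `i`. -/
def TriCStmt : Prop :=
  ∀ z y J h, Block z → RIS c z y J h → ∀ (σ : ℕ → ℕ × (Ω →₀ 𝕜)) (ε : ℝ), 0 < ε →
    (∀ L, Sp c (WW c) σ L) →
    (∃ᶠ i in atTop, ∃ a, J (i + 1) ≤ (σ a).1 ∧
      ε < ‖∑ l ∈ (range a).filter fun l => J i ≤ (σ l).1 ∧ (σ l).1 < J (i + 1),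
        pr (σ l).2 (y i)‖) → Concl c z

/-- no row that is active at `s` and `i'` is `ε`-big at `i` and `i''`. -/
def NoBig (y : ℕ → Ω →₀ 𝕜) (J : ℕ → ℕ) (ε : ℝ) (s i i' i'' : ℕ) : Prop :=
  ∀ ρ : Row 𝕜 Ω, ρ.OK c (WW c) → win y J ρ s ≠ 0 → ε < ‖win y J ρ i‖ → win y J ρ i' ≠ 0 →
    ‖win y J ρ i''‖ ≤ ε

/-- **TRI** (uses API, TriA, TriB, TriC).  Otherwise (`Ultrafilter.eventually_not`, three times) for
`U`-many `i > s`, `U`-many `i' > i`, `U`-many `i'' > i'` there is a row `ρ` violating `NoBig`.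
`Q`, `v i'' : Fin Q → ℕ` from TriA (`C = 6`, `y i''`, `a = J i''`, `b = J (i''+1)`).  For such a row:
`E` meets `supp (y s)` and `supp (y i'')`, so contains `supp (y i)`; `lo < J (s+1) ≤ J i`,
`J (i+1) ≤ J i'' < hi`; hence `win ρ i = ∑_{l < L, w l ∈ [J i, J (i+1))} pr (f l) (y i)`: this being `> ε`
is `Φ i τ L`.  `a0` = an index in window `i'` with `pr (restr E (f a0)) (y i') ≠ 0`, `B i' = supp (y i')`,
`a = l0 + 1` = the first index of weight `≥ J i''` (`a0 < a < L`), `(τ a).1 = v i'' q`.  Stabilise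
`q : Fin Q` through the three quantifiers (finite `∃` commutes with `∀ᶠ` in an ultrafilter), apply
TriB with `v := fun i'' => v i'' q`, then TriC: indices of `τ` in window `i` are `< a0`
(`Sp.lt`), where `τ = σ`. -/
def TriStmt : Prop :=
  ∀ z y J h, Block z → RIS c z y J h → ¬ Concl c z → ∀ (U : Ultrafilter ℕ),
    (U : Filter ℕ) ≤ atTop → ∀ ε : ℝ, 0 < ε → ∀ s,
      ∀ᶠ i in U, ∀ᶠ i' in U, ∀ᶠ i'' in U, NoBig c y J ε s i i' i''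

/-- the selection property used in the upper estimate, for sums of at most `p` vectors. -/
def Sel (y : ℕ → Ω →₀ 𝕜) (J : ℕ → ℕ) (p : ℕ) (ι : ℕ → ℕ) : Prop :=
  StrictMono ι ∧ ∀ a b d e, a < b → b < d → d < e →
    NoBig c y J (1 / ((p : ℝ) ^ 2 * J (ι a + 1))) (ι a) (ι b) (ι d) (ι e)

/-- **UPW** (uses API; window estimate).  For a row `r` with some `win (ρ r) (ι a) ≠ 0`, `a ∈ I`, let `m r`
be the least such `a`, `ε a = 1/(p² J (ι a + 1))`.  Call `(r, a)` big if `a = m r` or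
`ε (m r) < ‖win (ρ r) (ι a)‖`.  By `Sel` each row has at most 3 big entries.  Small entries: the rows with
`m r = a0` own distinct weights in `[J (ι a0), J (ι a0 + 1))`, so there are at most `J (ι a0 + 1)` of them
(`J (_ + 1) ≥ 1`), total `≤ ∑_{a0 ∈ I} J · p · ε a0 ≤ 1` (`‖lam r‖ ≤ 1`).  Big entries: with
`μ a = ∑_{r big at a} ‖lam r‖²`, Cauchy-Schwarz and `l2row` for the rows `cut` give `≤ ∑ a, 6 √(μ a)`
(`nrm (y _) ≤ 6`), and `∑ a, √(μ a) ≤ √(#I) √(∑ μ a) ≤ √(#I) √3`. -/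
def UpWStmt : Prop :=
  ∀ z y J h, RIS c z y J h → ∀ (p : ℕ) (ι : ℕ → ℕ), Sel c y J p ι → ∀ I ⊆ range p,
    ∀ (s : Finset ℕ) (ρ : ℕ → Row 𝕜 Ω) (lam : ℕ → 𝕜), (∀ r ∈ s, (ρ r).OK c (WW c)) →
    ∑ r ∈ s, ‖lam r‖ ^ 2 ≤ 1 → (∀ r ∈ s, ∀ r' ∈ s, r ≠ r' → Disjoint (ρ r).wts (ρ r').wts) →
    ∑ r ∈ s, ∑ a ∈ I, ‖lam r‖ * ‖win y J (ρ r) (ι a)‖ ≤ 12 * √(I.card : ℝ) + 1

/-- **UP** (uses API, UpW).  `k`, `b` from `g2 28`; `p = nn k`, `Y I = ∑_{a ∈ I} y (ι a)`,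
`T = 28 (∑_{j<k} nn j + 1)`, `ω q = 24 kap k q + T q^b`.  Let `I` maximise `nrm (Y I) / ω #I` over nonempty
`I ⊆ range p`, value `R ≥ 0`, `q = #I`; show `nrm (Y I) ≤ (R + 1)/2 · ω q`, so `R ≤ 1` and
`nrm (Y (range p)) ≤ 24 kap k p + T p^b ≤ 25 kap k p`.  Let `g ∈ W`.  `Base`: `≤ 6 ≤ ω q / 2`.
`g = ∑ lam r • seg`: `pr g (Y I) = ∑ r, lam r * ∑_{l ∈ idx} ∑_{a ∈ I} pr (restr E (f l)) (y (ι a))`; split by
the weight `w` of `l`: `w < J (ι a)` (low), window, `J (ι a + 1) ≤ w` (high).  Window: UpW,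
`≤ 12 √q + 1`.  High: `terms` with `z w = ∑_{a ∈ I, J (ι a + 1) ≤ w} y (ι a)`,
`A w = ∑_{a ∈ I, J (ι a+1) ≤ w} kap w * l2 (y (ι a))`, `B = ∑ a, 2 · 2⁻¹^(ι a + 2) ≤ 1`.  Low: `terms` with
`z w = Y (I.filter (w < J (ι ·)))`; for `w ≥ k`, `A w = 6 q kap w` (`Avg.ww`), sum `≤ 12 kap k q`; for
`w < k`, `WW_unfold` + `spl` + `rpow`: `A w = kap w (R (24 kap k q + 2 T q^b) + 6 nn w)` (split vectors:
`Avg.mono`, at most `nn w` of them), sum `≤ R (3 kap k q + T q^b / 4) + 6 ∑_{w<k} nn w`.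
Total `≤ R ω q / 2 + 12 kap k q + (14 + 6 ∑ nn) q^b` as `1 ≤ √q ≤ q^b`. -/
def UpStmt : Prop :=
  ∀ᶠ k in atTop, ∀ z y J h, RIS c z y J h → ∀ ι : ℕ → ℕ, Sel c y J (nn k) ι →
    nrm c (∑ a ∈ range (nn k), y (ι a)) ≤ 25 * kap k * nn k

/-- exact pairs. -/
def Exact (z : ℕ → Ω →₀ 𝕜) : Prop :=
  ∃ k0, ∀ k, k0 ≤ k → ∀ N, ∃ (f u : Ω →₀ 𝕜) (N' : ℕ), (k, f) ∈ WW c ∧ u ∈ Tl z N ∧
    nrm c u ≤ 25 ∧ 1 ≤ RCLike.re (pr f u) ∧ (∀ i < N, Lt (z i) f ∧ Lt (z i) u) ∧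
    ∀ i, N' ≤ i → Lt f (z i) ∧ Lt u (z i)

/-- **EXACT** (uses API, Alpha, Term, Ris, Tri, Sel, Up).  Take a RIS `y, J, h`, `U = hyperfilter ℕ`
(`Nat.hyperfilter_le_atTop`), `k0` from Up.  For `k ≥ k0`, `N`: Tri + Sel with
`P s = NoBig y J (1/(p² J (s+1))) s`, `p = nn k`, give `ι` with `N ≤ ι 0`.
`f = kap k • ∑_{a<p} h (ι a) ∈ WW` by `WW_typeA` (`gr (h ∘ ι) a ≤ gr h (ι a)`, `Two.anti`, `Lt.hull`),
`u = (kap k * p)⁻¹ • ∑_{a<p} y (ι a)`; cross terms vanish; `Block.between` and `Hull` for the supports. -/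
def ExactStmt : Prop := ∀ z, Block z → ¬ Concl c z → Exact c z

/-- **MAIN** (uses Exact).  By contradiction.  Recursion on `l` (strong recursion; `code l τ` depends only
on `τ b`, `b < l`, by `congr`): weight `w 0 = k0`, `w l = code l τ > w 0`; `N 0 = 0`,
`N (l+1) = max (N' l) (N l) + 1`; `(f l, u l)` an exact pair for `(w l, N l)`.  For `l < l'` the nonzero
`z i`, `i = max (N' l) (N l)`, separates `f l, u l` from `f l', u l'` (`Lt.trans`).  So `τ` is special,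
`∑' l, pr (f l) (u k) = pr (f k) (u k)` (`tsum_eq_single`) has real part `≥ 1`; `l ≤ N l`. -/
def MainStmt : Prop := ∀ z, Block z → Concl c z

/-- **CORE** (uses API, Main).  `p = nrm c` (`Seminorm.of`), `S = {fun l => (τ l).2 | ∀ L, Sp τ L}`.
`normer`: `NrmP.normer`, `w_l2`.  `lower`: `lowB`, `g1` with `b = 0`.  `small`: `ww_l2`, `Sp.le_wt`,
`kap_anti`.  `seg`: the row `⟨τ, b, (τ a).1, (τ b).1, univ⟩` has `idx = Ico a b` (`Sp.lt`), `Row.OK.two`.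
`fin`: each point is in at most one support.  `tails`: choose `τ γ`; for `γ ≠ γ'` in `A` some
`T γ b ≠ T γ' b`, so by `c4` (`ww_val`) there is `N > 0` with `code l (τ γ) ≠ code l (τ γ')` for `l ≥ N`,
and by `c2` the weights with indices `≥ N` are disjoint; `l2row` for the rows with `idx = Ico L L'`
and Cauchy-Schwarz. -/
def CoreStmt : Prop := API c → MainStmt c → Nonempty (Core 𝕜 Ω)

end

end Crest.Agent.R114
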