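import Crest.Agent.R114.Defs

/-! Row 114, part A: the functional analytic part, over an abstract `Core`.

`V K` is `Ω →₀ 𝕜` normed by `K.p`; `x γ ∈ (V K)*` is `e_γ*` or `e_γ* + ½(s + ∑' D l)` with `s` the sum
of a special sequence; `XS x` = closed span of the `x γ` is the space of S0152. -/

set_option autoImplicit false

namespace Crest.Agent.R114

open Filter Topology Finset

noncomputable section

/-- what the functional analytic part needs from the combinatorial norm. -/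
structure Core (𝕜 : Type) [RCLike 𝕜] (Ω : Type) [LinearOrder Ω] where
  p : Seminorm 𝕜 (Ω →₀ 𝕜)
  coord : ∀ z α, ‖z α‖ ≤ p z
  restr_le : ∀ E : Set Ω, E.OrdConnected → ∀ z, p (restr E z) ≤ p z
  normer : ∀ z t, t < p z → ∃ f, (∀ y, ‖pr f y‖ ≤ p y) ∧ l2 f ≤ 1 ∧ Hull f z ∧ t < ‖pr f z‖
  lower : ∀ M : ℝ, ∃ n, ∀ b : ℕ → Ω →₀ 𝕜, Succ b n → (∀ i < n, 1 ≤ p (b i)) →
    M ≤ p (∑ i ∈ range n, b i)
  S : Set (ℕ → Ω →₀ 𝕜)
  small : ∀ τ ∈ S, ∀ l, l2 (τ l) ≤ kap l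
  seg : ∀ τ ∈ S, ∀ a b z, ‖∑ l ∈ Ico a b, pr (τ l) z‖ ≤ p z
  fin : ∀ τ ∈ S, ∀ z, ∀ᶠ l in atTop, pr (τ l) z = 0
  tails : ∀ (A : Finset Ω) (T : Ω → ℕ → Ω →₀ 𝕜), Set.InjOn T A → (∀ γ ∈ A, T γ ∈ S) →
    ∃ L0, ∀ L, L0 ≤ L → ∀ (L' : ℕ) (a : Ω → 𝕜) (z : Ω →₀ 𝕜),
      ‖∑ γ ∈ A, a γ * ∑ l ∈ Ico L L', pr (T γ l) z‖ ≤ √(∑ γ ∈ A, ‖a γ‖ ^ 2) * p z
  main : ∀ z : ℕ → Ω →₀ 𝕜, Block z → ∃ (u : ℕ → Ω →₀ 𝕜) (C : ℝ), ∃ τ ∈ S,
    (∀ k, u k ∈ Tl z k) ∧ (∀ k, p (u k) ≤ C) ∧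
    (∀ l, ∀ α ∈ (τ l).support, ∃ i, ∃ β ∈ (z i).support, α ≤ β) ∧
    ¬ Tendsto (fun k => ∑' l, pr (τ l) (u k)) atTop (𝓝 0)

variable {𝕜 : Type} [RCLike 𝕜] {Ω : Type} [LinearOrder Ω]

/-- `Ω →₀ 𝕜` with the norm `K.p`. -/
def V (_K : Core 𝕜 Ω) : Type := Ω →₀ 𝕜

variable (K : Core 𝕜 Ω)

instance : AddCommGroup (V K) := inferInstanceAs (AddCommGroup (Ω →₀ 𝕜))
instance : Module 𝕜 (V K) := inferInstanceAs (Module 𝕜 (Ω →₀ 𝕜))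

instance : NormedAddCommGroup (V K) :=
  AddGroupNorm.toNormedAddCommGroup
    { toFun := fun z => K.p z
      map_zero' := map_zero K.p
      add_le' := map_add_le_add K.p
      neg' := map_neg_eq_map K.p
      eq_zero_of_map_eq_zero' := fun z hz => Finsupp.ext fun α =>
        norm_le_zero_iff.1 ((K.coord z α).trans hz.le) }

instance : NormedSpace 𝕜 (V K) where
  norm_smul_le a z := (map_smul_eq_mul K.p a z).le

/-- the identity `(Ω →₀ 𝕜) → V K`. -/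
def toV : (Ω →₀ 𝕜) ≃ₗ[𝕜] V K := LinearEquiv.refl 𝕜 _

@[simp] lemma norm_toV (z : Ω →₀ 𝕜) : ‖toV K z‖ = K.p z := rfl

lemma toV_surj (v : V K) : ∃ z, toV K z = v := ⟨v, rfl⟩

/-- a finitely supported `f` as a continuous functional on `V K`. -/
def ev (f : Ω →₀ 𝕜) : StrongDual 𝕜 (V K) :=
  LinearMap.mkContinuous ((pr f).comp (toV K).symm.toLinearMap) (∑ α ∈ f.support, ‖f α‖)
    fun (z : Ω →₀ 𝕜) => by
      change ‖pr f z‖ ≤ _ * K.p z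
      rw [pr_apply, Finset.sum_mul]
      refine (norm_sum_le _ _).trans (Finset.sum_le_sum fun α _ => ?_)
      rw [norm_mul]
      exact mul_le_mul_of_nonneg_left (K.coord z α) (norm_nonneg _)

@[simp] lemma ev_apply (f z : Ω →₀ 𝕜) : ev K f (toV K z) = pr f z := rfl

lemma dual_ext {φ ψ : StrongDual 𝕜 (V K)} (h : ∀ z, φ (toV K z) = ψ (toV K z)) : φ = ψ :=
  ContinuousLinearMap.ext h

lemma opNorm_le {φ : StrongDual 𝕜 (V K)} {C : ℝ} (hC : 0 ≤ C)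
    (h : ∀ z, ‖φ (toV K z)‖ ≤ C * K.p z) : ‖φ‖ ≤ C := φ.opNorm_le_bound hC h

lemma le_opNorm (φ : StrongDual 𝕜 (V K)) (z : Ω →₀ 𝕜) : ‖φ (toV K z)‖ ≤ ‖φ‖ * K.p z :=
  φ.le_opNorm _

/-- assignment of the special sequences to points of `Ω` above their supports. -/
def Asg (G : Set Ω) (T : Ω → ℕ → Ω →₀ 𝕜) : Prop :=
  Set.InjOn T G ∧ (∀ γ ∈ G, T γ ∈ K.S ∧ ∀ l, ∀ α ∈ (T γ l).support, α < γ) ∧
    ∀ τ ∈ K.S, ∃ γ ∈ G, T γ = τ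

/-- span of the `x γ`, `γ ∈ D`. -/
abbrev Spn {K : Core 𝕜 Ω} (x : Ω → StrongDual 𝕜 (V K)) (D : Set Ω) :
    Submodule 𝕜 (StrongDual 𝕜 (V K)) := Submodule.span 𝕜 (x '' D)

/-- `ξ = e_γ* + ½ (∑' τ l + ∑' D l)` with small corrections `D l`, `τ l + D l ∈ Spn x A`. -/
def Corr (x : Ω → StrongDual 𝕜 (V K)) (A : Set Ω) (γ : Ω) (τ : ℕ → Ω →₀ 𝕜)
    (ξ : StrongDual 𝕜 (V K)) : Prop :=
  ∃ D : ℕ → StrongDual 𝕜 (V K), (∀ l, ‖D l‖ ≤ kap l) ∧ (∀ l, ev K (τ l) + D l ∈ Spn x A) ∧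
    ∀ z, ξ (toV K z) = z γ + (1 / 2 : 𝕜) * (∑' l, pr (τ l) z + ∑' l, D l (toV K z))

def Form (G : Set Ω) (T : Ω → ℕ → Ω →₀ 𝕜) (x : Ω → StrongDual 𝕜 (V K)) (γ : Ω) : Prop :=
  (γ ∉ G → x γ = ev K (Finsupp.single γ 1)) ∧ (γ ∈ G → Corr K x (Set.Iio γ) γ (T γ) (x γ))

/-- correction estimate on `D`. -/
def Apx (x : Ω → StrongDual 𝕜 (V K)) (D : Set Ω) : Prop :=
  ∀ f : Ω →₀ 𝕜, (∀ α ∈ f.support, α ∈ D) → ∀ ε : ℝ, 0 < ε →
    ∃ ξ ∈ Spn x D, ‖ev K f - ξ‖ ≤ l2 f / 2 + ε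

/-- the system of generators of `X`. -/
structure Sys (x : Ω → StrongDual 𝕜 (V K)) : Prop where
  above : ∀ γ β, γ < β → x γ (toV K (Finsupp.single β 1)) = 0
  diag : ∀ γ, x γ (toV K (Finsupp.single γ 1)) = 1
  apx : ∀ D, IsLowerSet D → Apx K x D
  spec : ∀ τ ∈ K.S, ∃ γ, Corr K x Set.univ γ τ (x γ)

/-- **F-OM.**  `Cardinal.ord_eq ℝ` (or `(ω_ 1).ToType`, `Ordinal.ToType`): a well order whose initial
segments have cardinality `< ℵ₁` (`Cardinal.countable_iff_lt_aleph_one`, `Cardinal.mk_Iio_ord_toType`/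
`Ordinal.countable_Iio…`), `Cardinal.mk_real`. -/
def OmStmt : Prop :=
  Cardinal.mk ℝ = Cardinal.aleph 1 → ∃ (Ω : Type) (_ : LinearOrder Ω), Om Ω

/-- **F-ASG.**  `#𝕜 ≤ 𝔠` (`re, im`), so `#(Ω →₀ 𝕜) ≤ 𝔠` (`Cardinal.mk_finsupp_of_infinite`…) and
`#((ℕ → Ω →₀ 𝕜) × Ω) ≤ 𝔠 = #Ω`: fix an injection `i`.  For `τ` the set
`B τ = ⋃ l, ⋃ α ∈ supp (τ l), Iic α` is countable, `Ω` is not, so some `i (τ, β) ∉ B τ`;
`γ τ` = such a point, injective in `τ`.  `G = γ '' K.S`, `T` = the inverse (`Function.invFun`). -/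
def AsgStmt : Prop := Om Ω → ∃ G T, Asg K G T

/-- **F-COR.**  `A = supp f ∩ G` (filter), `D γ l` the corrections of `Form γ`, `L ≥ L0` of
`K.tails A T` with `(∑ ‖f γ‖) * ∑_{l ≥ L} kap l ≤ ε`.  Put
`ξ = ∑_{γ ∈ supp f} f γ • x γ - ½ ∑_{γ ∈ A} f γ • ∑_{l<L} (ev (T γ l) + D γ l) ∈ Spn x D`
(`Iio γ ⊆ D`).  Then `(ev f - ξ) z = -½ ∑_{γ ∈ A} f γ (∑_{l ≥ L} pr (T γ l) z + ∑'_{l ≥ L} D γ l z)`;
by `K.fin` the first series is a finite sum over `Ico L L'` (one `L'` for all `γ ∈ A`), bounded by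
`l2 f * p z` via `tails`; the second series is absolutely summable (`summable_kap`, `sum_kap_Ico`). -/
def CorStmt : Prop :=
  ∀ G T, Asg K G T → ∀ (x : Ω → StrongDual 𝕜 (V K)) (D : Set Ω), IsLowerSet D →
    (∀ γ ∈ D, Form K G T x γ) → Apx K x D

/-- **F-REC** (uses Asg, Cor).  Well-founded recursion (`WellFounded.fix` on `Om.wf`, or
`WellFoundedLT.fix`): given `x β`, `β < γ` (extend by `0`; `Corr x (Iio γ) …` depends only on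
`x '' Iio γ`), let `x γ` be `ev (single γ 1)` if `γ ∉ G`, and if `γ ∈ G` a chosen `ξ` with
`Corr x (Iio γ) γ (T γ) ξ` if one exists.  Strong induction: `Form β` for all `β < γ` gives
`Apx x (Iio γ)` by Cor, so (`f = T γ l`, `ε = kap l / 2`, `K.small`) `ξ l ∈ Spn x (Iio γ)` with
`D l = ξ l - ev (T γ l)` of norm `≤ kap l`; `z ↦ ∑' l, pr (T γ l) z` is linear and bounded by `p z`
(`K.fin`, `K.seg` with `a = 0`), `∑' D l` converges in norm: so `ξ` exists.  `above`, `diag`: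
strong induction; for `β ≥ γ`, `pr (T γ l) (single β 1) = 0` and `(ev (T γ l) + D l) (single β 1) = 0`
(span induction), so `D l (single β 1) = 0`.  `spec`: `Spn x (Iio γ) ≤ Spn x univ`. -/
def RecStmt : Prop := Om Ω → ∃ x, Sys K x

/-- local support and local norming. -/
def Loc (x : Ω → StrongDual 𝕜 (V K)) : Prop :=
  ∀ D, IsLowerSet D → (∀ ξ ∈ Spn x D, ∀ z, ξ (toV K z) = ξ (toV K (restr D z))) ∧
    ∀ z : Ω →₀ 𝕜, (∀ α ∈ z.support, α ∈ D) →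
      ∃ ξ ∈ Spn x D, ‖ξ‖ ≤ 2 ∧ K.p z ≤ 4 * ‖ξ (toV K z)‖

/-- **F-LOC.**  First part: span induction; `z - restr D z` is a combination of `single β 1`,
`β ∉ D`, and `γ ∈ D`, `β ∉ D` force `γ < β`.  Second part: (`z = 0` trivial) `K.normer` with
`t = (7/8) p z` gives `f`, `‖ev f‖ ≤ 1`, `supp f ⊆ D` by `Hull`; `apx` with `ε = 1/8`. -/
def LocStmt : Prop := ∀ x, Sys K x → Loc K x

/-- every functional is locally approximated by a vector. -/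
def Dens (x : Ω → StrongDual 𝕜 (V K)) : Prop :=
  ∀ (Φ : StrongDual 𝕜 (StrongDual 𝕜 (V K))) (D : Set Ω), IsLowerSet D → ∀ ε : ℝ, 0 < ε →
    ∃ z : Ω →₀ 𝕜, (∀ α ∈ z.support, α ∈ D) ∧ ∀ ξ ∈ Spn x D, ‖Φ ξ - ξ (toV K z)‖ ≤ ε * ‖ξ‖

/-- **F-DENS.**  Every lower set is `univ` or `Iio β` (well order).  It suffices to prove:
`D` lower and the claim holds for all `Iio γ`, `γ ∈ D` ⟹ the claim holds for `D` (then strong
induction on `β`).  (a) `D = ∅`: `z = 0`.  (b) `D` has a maximum `γ`, `D = insert γ (Iio γ)`: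
`ξ ∈ Spn x D` is `ξ' + a • x γ`, `ξ' ∈ Spn x (Iio γ)` (`Submodule.mem_span_insert`),
`a = ξ (single γ 1)` (`above`, `diag`), so `‖ξ'‖ ≤ M ‖ξ‖`, `M = 1 + p (single γ 1) ‖x γ‖`.  Take `z'` for
`Iio γ`, `ε/M` and `z = z' + (Φ (x γ) - x γ z') • single γ 1`.  (c) no maximum: suppose the claim
fails for `δ`.  Fix `ε ≪ δ` (`ε = δ/34`).  Recursion: `γ 0 ∈ D`; `z k` approximates on `Iio (γ k)` with error
`ε`; `ξ k ∈ Spn x D` with `‖Φ ξ - ξ (z k)‖ > δ ‖ξ‖`; a finite span, so `ξ k ∈ Spn x (Iio (γ (k+1)))` for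
some `γ k < γ (k+1) ∈ D`.  Then `p (z (k+1) - z k) ≥ δ - ε`; for `k ≤ n`,
`p (restr (Iio (γ k)) (z n) - z k) ≤ 16 ε` and `p (z n) ≤ 8 (‖Φ‖ + ε)` by `Loc`.  The successive
blocks `b k = restr (Ico (γ k) (γ (k+1))) (z n)`, `k < n`, have `p ≥ δ - 33 ε = ε`, and their sum is
`restr (Ico (γ 0) (γ n)) (z n)`: contradiction with `K.lower` (scale by `ε⁻¹`). -/
def DensStmt : Prop := Om Ω → ∀ x, Sys K x → Loc K x → Dens K x

variable {K}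

/-- the closed span of the `x γ`. -/
def XM (x : Ω → StrongDual 𝕜 (V K)) : Submodule 𝕜 (StrongDual 𝕜 (V K)) :=
  (Spn x Set.univ).topologicalClosure

/-- the space. -/
def XS (x : Ω → StrongDual 𝕜 (V K)) : Type := XM x

section
variable (x : Ω → StrongDual 𝕜 (V K))

instance : NormedAddCommGroup (XS x) := inferInstanceAs (NormedAddCommGroup (XM x))
instance : NormedSpace 𝕜 (XS x) := inferInstanceAs (NormedSpace 𝕜 (XM x))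
instance : CompleteSpace (XS x) :=
  inferInstanceAs (CompleteSpace (Spn x Set.univ).topologicalClosure)

/-- the inclusion `XS x → (V K)*`. -/
def val : XS x →ₗᵢ[𝕜] StrongDual 𝕜 (V K) := (XM x).subtypeₗᵢ

lemma Spn_le_XM (D : Set Ω) : Spn x D ≤ XM x :=
  (Submodule.span_mono (Set.image_mono (Set.subset_univ D))).trans
    (Submodule.le_topologicalClosure _)

lemma val_mem (ξ : XS x) : val x ξ ∈ XM x := Subtype.prop (p := (· ∈ XM x)) ξ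

lemma exists_val {ξ : StrongDual 𝕜 (V K)} (h : ξ ∈ XM x) : ∃ ζ : XS x, val x ζ = ξ :=
  ⟨(⟨ξ, h⟩ : XM x), rfl⟩

lemma exists_val_of_Spn {D : Set Ω} {ξ : StrongDual 𝕜 (V K)} (h : ξ ∈ Spn x D) :
    ∃ ζ : XS x, val x ζ = ξ := exists_val x (Spn_le_XM x D h)

/-- `Spn x univ` is dense in `XS x`. -/
lemma dense_Spn : Dense {ξ : XS x | val x ξ ∈ Spn x Set.univ} := by
  intro ξ
  rw [Metric.mem_closure_iff]
  intro ε hε
  obtain ⟨b, hb, hd⟩ := Metric.mem_closure_iff.1 (val_mem x ξ) ε hε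
  obtain ⟨ζ, rfl⟩ := exists_val_of_Spn x hb
  exact ⟨ζ, hb, by rwa [(val x).dist_map] at hd⟩

/-- a vector as a functional on `XS x`. -/
def JJ (z : Ω →₀ 𝕜) : StrongDual 𝕜 (XS x) :=
  (NormedSpace.inclusionInDoubleDual 𝕜 (V K) (toV K z)).comp (val x).toContinuousLinearMap

@[simp] lemma JJ_apply (z : Ω →₀ 𝕜) (ξ : XS x) : JJ x z ξ = val x ξ (toV K z) := rfl

lemma norm_JJ_le (z : Ω →₀ 𝕜) : ‖JJ x z‖ ≤ K.p z :=
  ContinuousLinearMap.opNorm_le_bound _ (apply_nonneg _ _) fun ξ => by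
    rw [JJ_apply, mul_comm, ← (val x).norm_map]; exact le_opNorm K _ _

/-- `JJ` as a linear map. -/
def JL : (Ω →₀ 𝕜) →ₗ[𝕜] StrongDual 𝕜 (XS x) where
  toFun := JJ x
  map_add' a b := by ext ξ; simp
  map_smul' a b := by ext ξ; simp

@[simp] lemma JL_apply (z : Ω →₀ 𝕜) : JL x z = JJ x z := rfl

end

/-- `‖ψ‖ ≤ t` on `Spn x D`. -/
def Small (x : Ω → StrongDual 𝕜 (V K)) (D : Set Ω) (ψ : StrongDual 𝕜 (XS x)) (t : ℝ) : Prop :=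
  ∀ ξ : XS x, val x ξ ∈ Spn x D → ‖ψ ξ‖ ≤ t * ‖ξ‖

/-- `ψ ↦ ψ|Spn x D` is bounded below on `Y`. -/
def Below (x : Ω → StrongDual 𝕜 (V K)) (D : Set Ω) (Y : Submodule 𝕜 (StrongDual 𝕜 (XS x)))
    (c : ℝ) : Prop := ∀ ψ ∈ Y, ∀ t, 0 ≤ t → Small x D ψ t → c * ‖ψ‖ ≤ t

/-- **F-RED1.**  `Y = {ψ | ∀ m ∈ M, ψ m = 0}` is the range of the injective map
`φ ↦ φ.comp mkQ` from the dual of `X ⧸ M`, which is infinite-dimensional (a normed space with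
finite-dimensional dual embeds in its bidual).  `d n` = lifts of a dense sequence of `X ⧸ M`.
For `ξ`, `ε` pick `n`, `m ∈ M` with `‖ξ - d n - m‖ < ε`; for `k > n`, `‖w k ξ‖ ≤ C ε`. -/
def Red1Stmt (𝕜 : Type) [RCLike 𝕜] : Prop :=
  ∀ (X : Type) [NormedAddCommGroup X] [NormedSpace 𝕜 X] (M : Submodule 𝕜 X),
    IsClosed (M : Set X) → TopologicalSpace.SeparableSpace (X ⧸ M) →
    ¬ FiniteDimensional 𝕜 (X ⧸ M) →
    ∃ (Y : Submodule 𝕜 (StrongDual 𝕜 X)) (d : ℕ → X), ¬ FiniteDimensional 𝕜 Y ∧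
      ∀ (w : ℕ → StrongDual 𝕜 X) (C : ℝ), (∀ k, w k ∈ Y) → (∀ k, ‖w k‖ ≤ C) →
        (∀ k n, n < k → w k (d n) = 0) → ∀ ξ, Tendsto (fun k => w k ξ) atTop (𝓝 0)

variable (K)

/-- **F-CUT** (minimal cut).  For `β : WithTop Ω` let `D β = {γ | ↑γ < β}`; `β = ⊤` works with
`Y' = Y`, `c = 1` (`Spn x univ` is dense in `XS x`).  Take `β` minimal (`WithTop Ω` is well
ordered) such that some infinite-dimensional `Y' ≤ Y`, `c > 0` have `Below x (D β) Y' c`.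
The last clause is minimality (`D ↑γ = Iio γ`; normalise `ψ`, which is nonzero as `0 ≤ t < c‖ψ‖`).
`D β ≠ ∅` (else `Y' = ⊥`).  No maximum: if `D β = insert γ (Iio γ)` then on the
infinite-dimensional `Y' ⊓ {ψ | ψ (x γ) = 0}` one has `Small (Iio γ) ψ t → Small (D β) ψ (M t)`,
`M = 1 + p (single γ 1) ‖x γ‖` (write `ξ = ξ' + a • x γ`, `a = ξ (single γ 1)`), so
`Below x (Iio γ) _ (c / M)`, contradicting minimality. -/
def CutStmt : Prop :=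
  Om Ω → ∀ x, Sys K x → ∀ Y : Submodule 𝕜 (StrongDual 𝕜 (XS x)), ¬ FiniteDimensional 𝕜 Y →
    ∃ (D : Set Ω) (Y' : Submodule 𝕜 (StrongDual 𝕜 (XS x))) (c : ℝ), IsLowerSet D ∧ D.Nonempty ∧
      (∀ γ ∈ D, ∃ γ' ∈ D, γ < γ') ∧ Y' ≤ Y ∧ ¬ FiniteDimensional 𝕜 Y' ∧ 0 < c ∧ Below x D Y' c ∧
      ∀ γ ∈ D, ∀ Y'' ≤ Y', ¬ FiniteDimensional 𝕜 Y'' → ∀ ε : ℝ, 0 < ε →
        ∃ ψ ∈ Y'', ‖ψ‖ = 1 ∧ Small x (Set.Iio γ) ψ ε

/-- output of the gliding hump. -/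
def Hump (x : Ω → StrongDual 𝕜 (V K)) (Y : Submodule 𝕜 (StrongDual 𝕜 (XS x))) (d : ℕ → XS x) :
    Prop :=
  ∃ (D : Set Ω) (Y' : Submodule 𝕜 (StrongDual 𝕜 (XS x))) (c : ℝ)
    (y : ℕ → StrongDual 𝕜 (XS x)) (z : ℕ → Ω →₀ 𝕜), IsLowerSet D ∧ Y' ≤ Y ∧ 0 < c ∧
    Below x D Y' c ∧ (∀ k, y k ∈ Y') ∧ (∀ k n, n < k → y k (d n) = 0) ∧
    (∀ k, ‖y k - JJ x (z k)‖ ≤ (1 / 2) ^ k) ∧
    (∀ i j, i ≠ j → Disjoint (z i).support (z j).support) ∧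
    (∀ i j, i < j → Lt (restr D (z i)) (restr D (z j))) ∧ ∀ k, c / 2 ≤ K.p (restr D (z k))

/-- **F-HUMP** (uses Cut).  `JJ x` is linear in `z` with `p z ≤ 8 ‖JJ x z‖` (`Loc`, `D = univ`) and
`‖JJ x z‖ ≤ p z`; Hahn-Banach (`exists_extension_norm_eq` on the range of `JJ x`) gives
`Λ α : StrongDual (StrongDual (XS x))` with `Λ α (JJ x z) = z α`, `‖Λ α‖ ≤ 8`.
One step: given a finite `B ⊆ Ω`, `k`, `η > 0`, take `γ ∈ D` above `B ∩ D`,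
`Y'' = Y' ⊓ ⨅_{α ∈ B} ker (Λ α) ⊓ ⨅_{n<k} {ψ | ψ (d n) = 0}` (finite codimension, so
infinite-dimensional), a unit `ψ ∈ Y''` with `Small (Iio γ) ψ ε`; `Dens` (`D = univ`; write
`ψ` as the restriction of some `Φ` by Hahn-Banach; density of `Spn x univ`) gives `z''` with
`‖ψ - JJ z''‖ ≤ ε`.  Then `‖z'' α‖ ≤ 8ε` on `B`, `p (restr (Iio γ) z'') ≤ 16 ε` (`Loc`).  Let
`z = restr {α | γ ≤ α ∧ α ∉ B} z''`; `p (z'' - z) ≤ 16 ε + 8 ε ∑_{α ∈ B} p (single α 1)`, so for small `ε`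
`‖ψ - JJ z‖ ≤ η`; `Small D ψ (p (restr D z) + η)` (`Loc`), so `c ≤ p (restr D z) + η`.
Recursion with `B = ⋃_{i<k} supp (z i)`, `η = min (c/2) 2⁻¹^k`. -/
def HumpStmt : Prop :=
  Om Ω → ∀ x, Sys K x → Loc K x → Dens K x → ∀ Y : Submodule 𝕜 (StrongDual 𝕜 (XS x)),
    ¬ FiniteDimensional 𝕜 Y → ∀ d : ℕ → XS x, Hump K x Y d

/-- **F-RED3.**  `z' i = restr D (z i)` is a `Block`; `K.main` gives `u, C, τ`, `mem_Tl` gives
`u k = ∑_{i ∈ s k} a k i • z' i`, `s k ⊆ Ici k`.  `‖a k i‖ ≤ 2C/c` (`restr` to the convex hull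
`{α | (∃ β ∈ supp (z' i), β ≤ α) ∧ ∃ β ∈ supp (z' i), α ≤ β}` maps `u k` to `a k i • z' i`).
`u' k = ∑ a k i • z i`, `w k = ∑ a k i • y i ∈ Y'`, `‖w k - JJ (u' k)‖ ≤ (2C/c) 2 · 2⁻¹^k`;
`Small D (w k) (C + 4C/c)` (`Loc`: `ξ (u' k) = ξ (restr D (u' k)) = ξ (u k)`), so `w k` is bounded by
`Below`, hence weak* null by the hypothesis, hence `ξ (u' k) → 0` for all `ξ ∈ XS x`, and
`p (u' k) ≤ 8 ‖JJ (u' k)‖` is bounded.  `spec`: `γ`, `D l`.  `x γ (u' k) → 0`; `u' k γ = 0` and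
`pr (τ l) (u' k) = 0` for large `k` (disjoint supports: each point is in at most one `supp (z i)`),
so `D l (u' k) → 0` and `∑' l, D l (u' k) → 0` (`tendsto_tsum_of_dominated_convergence`); finally
`pr (τ l) (u' k) = pr (τ l) (u k)` as `supp (τ l) ⊆ D` (`pr_restr`).  So `∑' l, pr (τ l) (u k) → 0`. -/
def Red3Stmt : Prop :=
  ∀ x, Sys K x → Loc K x → ∀ (Y : Submodule 𝕜 (StrongDual 𝕜 (XS x))) (d : ℕ → XS x),
    (∀ (w : ℕ → StrongDual 𝕜 (XS x)) (C : ℝ), (∀ k, w k ∈ Y) → (∀ k, ‖w k‖ ≤ C) →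
      (∀ k n, n < k → w k (d n) = 0) → ∀ ξ, Tendsto (fun k => w k ξ) atTop (𝓝 0)) →
    ¬ Hump K x Y d

/-- **F-INF.**  The `x γ` are linearly independent (evaluate a relation at `single γ 1` for the
largest `γ` of the support, `above`/`diag`), they lie in `XS x`, and `Ω` is infinite. -/
def InfStmt : Prop := Om Ω → ∀ x, Sys K x → ¬ FiniteDimensional 𝕜 (XS x)

theorem assembleF (hO : Om Ω) (h1 : RecStmt K) (h2 : LocStmt K) (h3 : DensStmt K)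
    (h4 : Red1Stmt 𝕜) (h5 : HumpStmt K) (h6 : Red3Stmt K) (h7 : InfStmt K) :
    ∃ (X : Type) (_ : NormedAddCommGroup X) (_ : NormedSpace 𝕜 X),
      CompleteSpace X ∧ ¬ FiniteDimensional 𝕜 X ∧
      ∀ M : Submodule 𝕜 X, IsClosed (M : Set X) →
        TopologicalSpace.SeparableSpace (X ⧸ M) → FiniteDimensional 𝕜 (X ⧸ M) := by
  obtain ⟨x, hx⟩ := h1 hO
  refine ⟨XS x, inferInstance, inferInstance, inferInstance, h7 hO x hx, fun M hM hs => ?_⟩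
  by_contra hf
  obtain ⟨Y, d, hY, hw⟩ := h4 (XS x) M hM hs hf
  exact h6 x hx (h2 x hx) Y d hw (h5 hO x hx (h2 x hx) (h3 hO x hx (h2 x hx)) Y hY d)

end

end Crest.Agent.R114
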